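import Vale.Agent.P352W.Fk.No

set_option autoImplicit false
set_option linter.all false

open MeasureTheory
open scoped Classical

noncomputable section

namespace Vale.Agent.P352W.Ms

variable {C : Type*}

/-- the configuration of a tuple -/
def mk {n : ℕ} (x : Fin n → C) : Multiset C := Finset.univ.val.map x

theorem mk_ins {n : ℕ} (i : Fin (n + 1)) (x : Fin (n + 1) → C) :
    mk x = x i ::ₘ mk fun j => x (i.succAbove j) := by
  unfold mk
  rw [Fin.univ_succAbove n i, Finset.cons_val, Multiset.map_cons, Finset.map_val, Multiset.map_map]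
  rfl

theorem mk_cons {n : ℕ} (q : C) (x : Fin n → C) : mk (Fin.cons q x : Fin (n + 1) → C) = q ::ₘ mk x :=
  mk_ins 0 _

theorem dl_mk {n : ℕ} (F : C → Multiset C → ℂ) (x : Fin (n + 1) → C) :
    dl F (mk x) = ∑ i, F (x i) (mk fun j => x (i.succAbove j)) := by
  have : dl F (mk x) = ∑ i, F (x i) ((mk x).erase (x i)) := by
    unfold dl
    conv_lhs => rw [mk]
    rw [Multiset.map_map]
    rfl
  rw [this]
  refine Finset.sum_congr rfl fun i _ => ?_
  conv_lhs => rw [mk_ins i x, Multiset.erase_cons_head]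

theorem mul_dl (χ : Multiset C → ℂ) (F : C → Multiset C → ℂ) (σ : Multiset C) :
    χ σ * dl F σ = dl (fun p τ => χ (p ::ₘ τ) * F p τ) σ := by
  rw [← dl_mul]
  exact dl_congr fun p hp => by rw [Multiset.cons_erase hp]

variable [MeasurableSpace C] (μ : Measure C) [SigmaFinite μ]

/-- the product measure -/
abbrev pw (n : ℕ) : Measure (Fin n → C) := Measure.pi fun _ => μ

variable {μ}

theorem ins {n : ℕ} (i : Fin (n + 1)) {G : C × (Fin n → C) → ℂ}
    (h : Integrable G (μ.prod (pw μ n))) :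
    Integrable (fun x : Fin (n + 1) → C => G (x i, fun j => x (i.succAbove j))) (pw μ (n + 1)) ∧
      ∫ x, G (x i, fun j => x (i.succAbove j)) ∂pw μ (n + 1) = ∫ z, G z ∂μ.prod (pw μ n) :=
  have m := measurePreserving_piFinSuccAbove (fun _ : Fin (n + 1) => μ) i
  ⟨m.integrable_comp_of_integrable h, m.integral_comp' G⟩

/-- the Mecke formula -/
theorem mecke {n : ℕ} {F : C → Multiset C → ℂ}
    (h : Integrable (fun z : C × (Fin n → C) => F z.1 (mk z.2)) (μ.prod (pw μ n))) :
    Integrable (fun x => dl F (mk x)) (pw μ (n + 1)) ∧ ∫ x, dl F (mk x) ∂pw μ (n + 1) =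
      (n + 1 : ℂ) * ∫ z, F z.1 (mk z.2) ∂μ.prod (pw μ n) := by
  simp only [dl_mk]
  refine ⟨integrable_finset_sum _ fun i _ => (ins i h).1, ?_⟩
  rw [integral_finset_sum _ fun i _ => (ins i h).1, Finset.sum_congr rfl fun i _ => (ins i h).2]
  simp

end Vale.Agent.P352W.Ms
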