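import Vale.Agent.P352W.Fk.Def
import Vale.Agent.P352W.Fk.Mk

/-!
# P352W FK — measurability, integrability, the map to Fock space
-/

set_option linter.all false

open MeasureTheory Filter Topology
open scoped ENNReal ComplexConjugate Classical Nat

namespace Vale.Agent.P352W.Fk

open Vale.Agent.P352.GF Vale.Agent.P352W.Cn
open Vale.Agent.P352.H496 (IsNull)

noncomputable section

theorem ms_eq {n : ℕ} (x : Fin n → V) : ms x = Ms.mk x := by
  unfold ms Ms.mk
  rw [Finset.sum_eq_multiset_sum, ← Multiset.sum_map_singleton (Finset.univ.val.map x),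
    Multiset.map_map]
  rfl

theorem dv_eq (F : V → Wf) : dv F = Ms.dl F := by
  funext σ
  have e : ∀ (i j : DecidableEq V) (p : V), @Multiset.erase V i σ p = @Multiset.erase V j σ p :=
    fun i j p => by rw [Subsingleton.elim i j]
  exact congrArg Multiset.sum (Multiset.map_congr rfl fun p _ => congrArg (F p) (e _ _ p))

theorem ms_ins {n : ℕ} (i : Fin (n + 1)) (x : Fin (n + 1) → V) :
    ms x = x i ::ₘ ms fun j => x (i.succAbove j) := by
  rw [ms_eq, ms_eq]; exact Ms.mk_ins i x

theorem ms_cons {n : ℕ} (q : V) (x : Fin n → V) :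
    ms (Fin.cons q x : Fin (n + 1) → V) = q ::ₘ ms x := ms_ins 0 _

theorem ms_zero (x : Fin 0 → V) : ms x = 0 := by simp [ms]

theorem card_ms {n : ℕ} (x : Fin n → V) : Multiset.card (ms x) = n := by
  rw [ms_eq]; simp [Ms.mk]

theorem map_ms {n : ℕ} {β : Type*} (g : V → β) (x : Fin n → V) :
    (ms x).map g = Finset.univ.val.map fun i => g (x i) := by
  rw [ms_eq, Ms.mk, Multiset.map_map]; rfl

theorem ms_map {n : ℕ} (g : V → V) (x : Fin n → V) : (ms x).map g = ms fun i => g (x i) := by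
  rw [map_ms, ms_eq]; rfl

theorem prod_ms {n : ℕ} {β : Type*} [CommMonoid β] (g : V → β) (x : Fin n → V) :
    ((ms x).map g).prod = ∏ i, g (x i) := by
  rw [map_ms]; rfl

theorem sum_ms {n : ℕ} {β : Type*} [AddCommMonoid β] (g : V → β) (x : Fin n → V) :
    ((ms x).map g).sum = ∑ i, g (x i) := by
  rw [map_ms]; rfl

theorem dv_ms {n : ℕ} (F : V → Wf) (x : Fin (n + 1) → V) :
    dv F (ms x) = ∑ i, F (x i) (ms fun j => x (i.succAbove j)) := by
  simp only [ms_eq, dv_eq]; exact Ms.dl_mk F x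

theorem dv_zero (F : V → Wf) : dv F 0 = 0 := by simp [dv]

theorem rr_two (p : V) : 2 ≤ rr p := le_add_of_nonneg_right (norm_nonneg p)

theorem rr_one (p : V) : 1 ≤ rr p := one_le_two.trans (rr_two p)

theorem rr_pos (p : V) : 0 < rr p := one_pos.trans_le (rr_one p)

theorem rr_neg (p : V) : rr (-p) = rr p := by simp [rr]

theorem rr_add (p q : V) : rr (p + q) ≤ rr p * rr q := by
  have := norm_add_le p q
  unfold rr
  nlinarith [norm_nonneg p, norm_nonneg q]

theorem continuous_rr : Continuous rr := continuous_const.add continuous_norm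

theorem wt_zero : wt 0 = 1 := by simp [wt]

theorem wt_cons (q : V) (σ : Multiset V) : wt (q ::ₘ σ) = rr q * wt σ := by simp [wt]

theorem wt_erase {p : V} {σ : Multiset V} (h : p ∈ σ) : wt σ = rr p * wt (σ.erase p) := by
  rw [← wt_cons, Multiset.cons_erase h]

theorem wt_card (σ : Multiset V) : 1 ≤ wt σ ∧ (Multiset.card σ : ℝ) ≤ wt σ := by
  induction σ using Multiset.induction_on with
  | empty => simp [wt_zero]
  | cons a σ ih =>
    rw [wt_cons, Multiset.card_cons]
    have := rr_two a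
    push_cast
    constructor <;> nlinarith [ih.1, ih.2]

theorem wt_one (σ : Multiset V) : 1 ≤ wt σ := (wt_card σ).1

theorem wt_pos (σ : Multiset V) : 0 < wt σ := one_pos.trans_le (wt_one σ)

theorem card_le_wt (σ : Multiset V) : (Multiset.card σ : ℝ) ≤ wt σ := (wt_card σ).2

theorem wt_ms {n : ℕ} (x : Fin n → V) : wt (ms x) = ∏ i, rr (x i) := prod_ms rr x

theorem Bd.nn {N C ψ} (h : Bd N C ψ) : 0 ≤ C :=
  le_trans (mul_nonneg (norm_nonneg _) (pow_nonneg (wt_pos 0).le _)) (h 0)

theorem Bd.mono {N M C ψ} (h : Bd N C ψ) (hM : M ≤ N) : Bd M C ψ := fun σ =>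
  le_trans (mul_le_mul_of_nonneg_left (pow_le_pow_right₀ (wt_one σ) hM) (norm_nonneg _)) (h σ)

theorem Bd.le {N C ψ} (h : Bd N C ψ) (σ) : ‖ψ σ‖ ≤ C * (wt σ ^ N)⁻¹ := by
  rw [← div_eq_mul_inv, le_div_iff₀ (pow_pos (wt_pos σ) N)]; exact h σ

theorem Bd.add {N C C' ψ χ} (h : Bd N C ψ) (h' : Bd N C' χ) : Bd N (C + C') (ψ + χ) := fun σ =>
  le_trans (mul_le_mul_of_nonneg_right (norm_add_le (ψ σ) (χ σ)) (pow_pos (wt_pos σ) N).le)
    (by rw [add_mul]; exact add_le_add (h σ) (h' σ))

theorem Bd.smul {N C ψ} (c : ℂ) (h : Bd N C ψ) : Bd N (‖c‖ * C) (c • ψ) := fun σ => by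
  rw [Pi.smul_apply, norm_smul, mul_assoc]
  exact mul_le_mul_of_nonneg_left (h σ) (norm_nonneg c)

theorem meas_ci : Measurable ci := by
  unfold ci IsNull
  refine Measurable.ite ?_ measurable_const measurable_const
  exact (measurableSet_eq_fun
    (continuous_mdot.comp (continuous_id.prodMk continuous_id)).measurable measurable_const).inter
    (measurableSet_lt measurable_const (measurable_pi_apply o))

theorem norm_ci (p : V) : ‖ci p‖ ≤ 1 := by unfold ci; split_ifs <;> simp

theorem ci_ae : ∀ᵐ p ∂Om, ci p = 1 := om_ae.mono fun p hp => if_pos ⟨hp.2, hp.1⟩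

theorem conj_ci (p : V) : conj (ci p) = ci p := by unfold ci; split_ifs <;> simp

/-! ### measurable families -/

section
variable {α β : Type} [MeasurableSpace α] [MeasurableSpace β] {F G : α → Wf}

theorem Ms.comp (h : Ms F) {g : β → α} (hg : Measurable g) : Ms fun b => F (g b) := fun n =>
  (h n).comp ((hg.comp measurable_fst).prodMk measurable_snd)

theorem Ms.const {c : α → ℂ} (hc : Measurable c) : Ms fun a (_ : Multiset V) => c a := fun _ =>
  hc.comp measurable_fst

theorem Ms.add (h : Ms F) (h' : Ms G) : Ms fun a => F a + G a := fun n => (h n).add (h' n)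

theorem Ms.sub (h : Ms F) (h' : Ms G) : Ms fun a => F a - G a := fun n => (h n).sub (h' n)

theorem Ms.mul (h : Ms F) (h' : Ms G) : Ms fun a σ => F a σ * G a σ := fun n => (h n).mul (h' n)

theorem Ms.smul {c : α → ℂ} (hc : Measurable c) (h : Ms F) : Ms fun a => c a • F a := fun n =>
  (hc.comp measurable_fst).mul (h n)

theorem Ms.conj (h : Ms F) : Ms fun a σ => conj (F a σ) := fun n =>
  Complex.continuous_conj.measurable.comp (h n)

theorem Ms.at (h : Ms F) (a : α) : Ms fun _ : β => F a := h.comp measurable_const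

theorem meas_cons {n : ℕ} :
    Measurable fun z : V × (Fin n → V) => (Fin.cons z.1 z.2 : Fin (n + 1) → V) :=
  measurable_pi_iff.2 fun i => by
    refine Fin.cases ?_ (fun j => ?_) i
    · exact measurable_fst
    · exact (measurable_pi_apply j).comp measurable_snd

theorem Ms.cons (h : Ms F) : Ms fun (z : α × V) σ => F z.1 (z.2 ::ₘ σ) := fun n => by
  simp only [← ms_cons]
  exact (h (n + 1)).comp (measurable_fst.fst.prodMk
    (meas_cons.comp (measurable_fst.snd.prodMk measurable_snd)))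

theorem Ms.dv {F : α → V → Wf} (h : Ms fun z : α × V => F z.1 z.2) : Ms fun a => dv (F a) := by
  intro n
  rcases n with _ | n
  · simp only [ms_zero, dv_zero]; exact measurable_const
  · simp only [dv_ms]
    refine Finset.measurable_sum _ fun i _ => ?_
    exact (h n).comp ((measurable_fst.prodMk ((measurable_pi_apply i).comp measurable_snd)).prodMk
      (measurable_pi_iff.2 fun j => (measurable_pi_apply _).comp measurable_snd))

theorem Ms.int {F : α → V → Wf} (h : Ms fun z : α × V => F z.1 z.2) :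
    Ms fun a σ => ∫ q, F a q σ ∂Om := fun n => by
  have : Measurable fun y : (α × (Fin n → V)) × V => F y.1.1 y.2 (ms y.1.2) :=
    (h n).comp ((measurable_fst.fst.prodMk measurable_snd).prodMk measurable_fst.snd)
  exact this.stronglyMeasurable.integral_prod_right'.measurable

theorem Ms.it {F : α → V → Wf} (h : Ms fun z : α × V => F z.1 z.2) : Ms fun a => it (F a) :=
  Ms.int (F := fun a q σ => F a q (q ::ₘ σ))
    (h.cons.comp (g := fun z : α × V => (z, z.2)) (measurable_id.prodMk measurable_snd))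

theorem exists_ms (σ : Multiset V) : ∃ (n : ℕ) (x : Fin n → V), ms x = σ := by
  induction σ using Multiset.induction_on with
  | empty => exact ⟨0, default, ms_zero _⟩
  | cons a σ ih => obtain ⟨n, x, rfl⟩ := ih; exact ⟨n + 1, _, ms_cons a x⟩

/-- measurability in the parameter -/
theorem Ms.par (h : Ms F) (σ : Multiset V) : Measurable fun a => F a σ := by
  obtain ⟨n, x, rfl⟩ := exists_ms σ
  exact (h n).comp (measurable_id.prodMk measurable_const)

theorem meas_sig {γ : Type*} [MeasurableSpace γ] {f : Cf → γ}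
    (h : ∀ n, Measurable fun x => f ⟨n, x⟩) : Measurable f := fun s hs =>
  MeasurableSpace.measurableSet_iInf.2 fun n => h n hs

theorem meas_mk (n : ℕ) : Measurable (@Sigma.mk ℕ (fun n => Fin n → V) n) := fun _ hs =>
  MeasurableSpace.measurableSet_iInf.1 hs n

/-- the component -/
def pj (n : ℕ) (c : Cf) : Fin n → V := if h : c.1 = n then fun i => c.2 (i.cast h.symm) else 0

theorem meas_pj (n : ℕ) : Measurable (pj n) := meas_sig fun m => by
  unfold pj
  by_cases h : m = n
  · simp only [dif_pos h]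
    exact measurable_pi_iff.2 fun i => measurable_pi_apply (X := fun _ : Fin m => V) (i.cast h.symm)
  · simp only [dif_neg h]; exact measurable_const

theorem pj_self (c : Cf) : pj c.1 c = c.2 := by unfold pj; rw [dif_pos rfl]; rfl

theorem Ms.meas (h : Ms F) : Measurable fun z : α × Cf => F z.1 (mu z.2) := by
  have h1 : Measurable fun y : ℕ × (α × Cf) => F y.2.1 (ms (pj y.1 y.2.2)) :=
    measurable_from_prod_countable_right fun n =>
      (h n).comp (measurable_fst.prodMk ((meas_pj n).comp measurable_snd))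
  have h2 : Measurable fun c : Cf => c.1 := meas_sig fun n => measurable_const
  have := h1.comp ((h2.comp measurable_snd).prodMk measurable_id)
  simp only [Function.comp_def, id, pj_self] at this
  exact this

theorem Ms.meas1 {ψ : Wf} (h : Ms fun _ : Unit => ψ) : Measurable fun c : Cf => ψ (mu c) :=
  h.meas.comp (measurable_const (a := ()) |>.prodMk measurable_id)

end

theorem meas_wt : Measurable fun c : Cf => wt (mu c) := meas_sig fun n => by
  simp only [mu, wt_ms]
  exact Finset.measurable_prod _ fun i _ => continuous_rr.measurable.comp (measurable_pi_apply i)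

instance : SFinite Lam := by unfold Lam; infer_instance

theorem int_rr : Integrable (fun p => (rr p ^ 3)⁻¹) Om := by
  refine integrable_om_of_le (C := 1) le_rfl
    (continuous_rr.measurable.pow_const 3).inv.aestronglyMeasurable fun p => ?_
  rw [Real.norm_of_nonneg (by have := rr_pos p; positivity), one_mul]
  refine inv_anti₀ (by positivity) (pow_le_pow_left₀ (by positivity) ?_ 3)
  unfold rr; linarith

/-- the constant of an annihilation -/
def K0 : ℝ := ∫ p, (rr p ^ 3)⁻¹ ∂Om

theorem K0_nn : 0 ≤ K0 := integral_nonneg fun p => by have := rr_pos p; positivity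

theorem int_wt : Integrable (fun c => (wt (mu c) ^ 3)⁻¹) Lam := by
  have m : Measurable fun c => (wt (mu c) ^ 3)⁻¹ := (meas_wt.pow_const 3).inv
  have e (n : ℕ) : (fun x : Fin n → V => (wt (mu ⟨n, x⟩) ^ 3)⁻¹) = fun x => ∏ i, (rr (x i) ^ 3)⁻¹ := by
    funext x; simp only [mu, wt_ms, Finset.prod_inv_distrib, Finset.prod_pow]
  have i (n : ℕ) : Integrable (fun c => (wt (mu c) ^ 3)⁻¹)
      ((Measure.pi fun _ : Fin n => Om).map (Sigma.mk n)) := by
    rw [integrable_map_measure m.aestronglyMeasurable (meas_mk n).aemeasurable]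
    have := Integrable.fintype_prod (μ := fun _ : Fin n => Om) (f := fun _ p => (rr p ^ 3)⁻¹)
      fun _ => int_rr
    rw [← e n] at this
    exact this
  refine integrable_sum_measure (fun n => (i n).smul_measure (by simp [Nat.factorial_ne_zero])) ?_
  refine (Real.summable_pow_div_factorial K0).congr fun n => ?_
  rw [integral_smul_measure, integral_map (meas_mk n).aemeasurable m.norm.aestronglyMeasurable]
  have : ∀ x : Fin n → V, ‖(wt (mu ⟨n, x⟩) ^ 3)⁻¹‖ = ∏ i, (rr (x i) ^ 3)⁻¹ := fun x => by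
    rw [Real.norm_of_nonneg (by have := wt_pos (mu ⟨n, x⟩); positivity)]; exact congrFun (e n) x
  simp only [this]
  rw [integral_fintype_prod_eq_pow (fun p => (rr p ^ 3)⁻¹)]
  simp [K0, div_eq_inv_mul]

theorem Bd.int {C ψ} (m : Ms fun _ : Unit => ψ) (h : Bd 3 C ψ) :
    Integrable (fun c => ψ (mu c)) Lam :=
  (int_wt.const_mul C).mono' m.meas1.aestronglyMeasurable (ae_of_all _ fun c => h.le _)

theorem Bd.mul {N M C C' ψ χ} (h : Bd N C ψ) (h' : Bd M C' χ) :
    Bd (N + M) (C * C') fun σ => ψ σ * χ σ := fun σ => by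
  rw [norm_mul, pow_add, mul_mul_mul_comm]
  exact mul_le_mul (h σ) (h' σ) (mul_nonneg (norm_nonneg _) (pow_pos (wt_pos σ) M).le) h.nn

theorem Bd.conj {N C ψ} (h : Bd N C ψ) : Bd N C fun σ => conj (ψ σ) := fun σ => by
  rw [Complex.norm_conj]; exact h σ

theorem Bd.sq {C ψ} (h : Bd 2 C ψ) (σ) : ‖ψ σ‖ ^ 2 ≤ C ^ 2 * (wt σ ^ 3)⁻¹ := by
  have := ((h.mul h).mono (by norm_num : 3 ≤ 2 + 2)).le σ
  rwa [norm_mul, ← pow_two, ← pow_two] at this

theorem Bd.memLp {C ψ} (m : Ms fun _ : Unit => ψ) (h : Bd 2 C ψ) :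
    MemLp (fun c => ψ (mu c)) 2 Lam :=
  (memLp_two_iff_integrable_sq_norm m.meas1.aestronglyMeasurable).2
    ((int_wt.const_mul (C ^ 2)).mono' (m.meas1.norm.pow_const 2).aestronglyMeasurable
      (ae_of_all _ fun c => by rw [Real.norm_of_nonneg (sq_nonneg _)]; exact h.sq _))

variable {ψ χ : Wf}

theorem Nice.memLp (h : Nice ψ) : MemLp (fun c => ψ (mu c)) 2 Lam :=
  (h.2 2).elim fun _ b => b.memLp h.1

theorem Nice.int (h : Nice ψ) : Integrable (fun c => ψ (mu c)) Lam :=
  (h.2 3).elim fun _ b => b.int h.1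

theorem Nice.add (h : Nice ψ) (h' : Nice χ) : Nice (ψ + χ) :=
  ⟨h.1.add h'.1, fun N => (h.2 N).elim fun _ b => (h'.2 N).elim fun _ b' => ⟨_, b.add b'⟩⟩

theorem Nice.smul (c : ℂ) (h : Nice ψ) : Nice (c • ψ) :=
  ⟨h.1.smul measurable_const, fun N => (h.2 N).elim fun _ b => ⟨_, b.smul c⟩⟩

theorem Nice.sub (h : Nice ψ) (h' : Nice χ) : Nice (ψ - χ) := by
  have := h.add (h'.smul (-1))
  rwa [neg_one_smul, ← sub_eq_add_neg] at this

theorem Nice.mul (h : Nice ψ) (h' : Nice χ) : Nice fun σ => ψ σ * χ σ :=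
  ⟨h.1.mul h'.1, fun N => (h.2 N).elim fun _ b => (h'.2 0).elim fun _ b' => ⟨_, b.mul b'⟩⟩

theorem Nice.conj (h : Nice ψ) : Nice fun σ => conj (ψ σ) :=
  ⟨h.1.conj, fun N => (h.2 N).elim fun _ b => ⟨_, b.conj⟩⟩

theorem nice_zero : Nice 0 := ⟨fun _ => measurable_const, fun _ => ⟨0, fun σ => by simp⟩⟩

theorem nice_vc : Nice vc := by
  refine ⟨fun n => ?_, fun N => ⟨1, fun σ => ?_⟩⟩
  · have : ∀ x : Fin n → V, vc (ms x) = if n = 0 then 1 else 0 := fun x => by
      unfold vc; simp only [← Multiset.card_eq_zero, card_ms]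
    simp only [this]; exact measurable_const
  · unfold vc
    split_ifs with h
    · simp [h, wt_zero]
    · simp

theorem Nice.cons (h : Nice ψ) (q : V) : Nice fun σ => ψ (q ::ₘ σ) :=
  ⟨h.1.cons.comp (g := fun u : Unit => (u, q)) (measurable_id.prodMk measurable_const),
    fun N => (h.2 N).elim fun C b => ⟨C, fun σ => le_trans (mul_le_mul_of_nonneg_left
      (pow_le_pow_left₀ (wt_pos σ).le (by
        rw [wt_cons]; exact le_mul_of_one_le_left (wt_pos σ).le (rr_one q)) N) (norm_nonneg _))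
      (b _)⟩⟩

theorem toL_ae (h : MemLp (fun c => ψ (mu c)) 2 Lam) : toL ψ =ᵐ[Lam] fun c => ψ (mu c) := by
  unfold toL; rw [dif_pos h]; exact h.coeFn_toLp

theorem toL_add (h : Nice ψ) (h' : Nice χ) : toL (ψ + χ) = toL ψ + toL χ := by
  unfold toL
  rw [dif_pos h.memLp, dif_pos h'.memLp, dif_pos (h.add h').memLp]
  exact MemLp.toLp_add h.memLp h'.memLp

theorem toL_smul (c : ℂ) (h : Nice ψ) : toL (c • ψ) = c • toL ψ := by
  unfold toL
  rw [dif_pos h.memLp, dif_pos (h.smul c).memLp]
  exact MemLp.toLp_const_smul c h.memLp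

theorem toL_sub (h : Nice ψ) (h' : Nice χ) : toL (ψ - χ) = toL ψ - toL χ := by
  rw [eq_sub_iff_add_eq, ← toL_add (h.sub h') h', sub_add_cancel]

theorem toL_zero : toL 0 = 0 := by
  have := toL_smul 0 nice_zero
  rwa [zero_smul, zero_smul] at this

theorem inner_toL (h : Nice ψ) (h' : Nice χ) : inner ℂ (toL ψ) (toL χ) = ip ψ χ := by
  rw [L2.inner_def]
  refine integral_congr_ae ?_
  filter_upwards [toL_ae h.memLp, toL_ae h'.memLp] with c a b
  rw [a, b, RCLike.inner_apply']

theorem norm_sq_toL (h : MemLp (fun c => ψ (mu c)) 2 Lam) :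
    ‖toL ψ‖ ^ 2 = ∫ c, ‖ψ (mu c)‖ ^ 2 ∂Lam := by
  rw [@norm_sq_eq_re_inner ℂ, L2.inner_def, ← integral_re (L2.integrable_inner _ _)]
  refine integral_congr_ae ?_
  filter_upwards [toL_ae h] with c a
  rw [a, ← @norm_sq_eq_re_inner ℂ]

theorem norm_toL : ∃ K, 0 ≤ K ∧ ∀ ψ C, (Ms fun _ : Unit => ψ) → Bd 2 C ψ → ‖toL ψ‖ ≤ K * C := by
  refine ⟨√(∫ c, (wt (mu c) ^ 3)⁻¹ ∂Lam), Real.sqrt_nonneg _, fun ψ C m h => ?_⟩
  have nn : 0 ≤ ∫ c, (wt (mu c) ^ 3)⁻¹ ∂Lam :=
    integral_nonneg fun c => by have := wt_pos (mu c); positivity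
  refine abs_le_of_sq_le_sq' ?_ (mul_nonneg (Real.sqrt_nonneg _) h.nn) |>.2
  rw [norm_sq_toL (h.memLp m), mul_pow, Real.sq_sqrt nn, mul_comm, ← integral_const_mul]
  exact integral_mono_of_nonneg (ae_of_all _ fun c => sq_nonneg _) (int_wt.const_mul _)
    (ae_of_all _ fun c => h.sq _)

end

end Vale.Agent.P352W.Fk
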