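import Vale.Agent.P352W.Fk.Bd

/-!
# P352W FK — the fields preserve good wave functions and are linear
-/

set_option autoImplicit false
set_option linter.all false

open MeasureTheory Filter Topology
open scoped ENNReal ComplexConjugate Classical Nat

namespace Vale.Agent.P352W.Fk

open Vale.Agent.P352.GF Vale.Agent.P352W.Cn
open Vale.Agent.P352.H496 (IsNull)

noncomputable section

namespace Bq

theorem ms_ins {n : ℕ} (i : Fin (n + 1)) (x : Fin (n + 1) → V) :
    ms x = x i ::ₘ ms fun j => x (i.succAbove j) := by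
  unfold ms
  rw [Fin.sum_univ_succAbove _ i, Multiset.singleton_add]

theorem ms_cons {n : ℕ} (q : V) (x : Fin n → V) :
    ms (Fin.cons q x : Fin (n + 1) → V) = q ::ₘ ms x := ms_ins 0 _

theorem ms_surj (σ : Multiset V) : ∃ (n : ℕ) (x : Fin n → V), ms x = σ := by
  induction σ using Multiset.induction_on with
  | empty => exact ⟨0, Fin.elim0, by simp [ms]⟩
  | cons p σ ih =>
    obtain ⟨n, x, rfl⟩ := ih
    exact ⟨n + 1, Fin.cons p x, ms_cons p x⟩

theorem ms_map {n : ℕ} (x : Fin n → V) (G : V → ℂ) : ((ms x).map G).sum = ∑ i, G (x i) := by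
  induction n with
  | zero => simp [ms]
  | succ n ih => rw [ms_ins 0, Multiset.map_cons, Multiset.sum_cons, ih, Fin.sum_univ_succ]; rfl

theorem dv_ms {n : ℕ} (F : V → Wf) (x : Fin (n + 1) → V) :
    dv F (ms x) = ∑ i, F (x i) (ms fun j => x (i.succAbove j)) := by
  unfold dv
  rw [ms_map]
  refine Finset.sum_congr rfl fun i _ => ?_
  conv_lhs => rw [ms_ins i x, Multiset.erase_cons_head]

variable {α β : Type} [MeasurableSpace α] [MeasurableSpace β]

theorem m_comp {F : α → Wf} (h : Ms F) {g : β → α} (hg : Measurable g) : Ms fun b => F (g b) :=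
  fun n => (h n).comp ((hg.comp measurable_fst).prodMk measurable_snd)

theorem m_const {ψ : Wf} (h : Ms fun _ : Unit => ψ) : Ms fun _ : α => ψ :=
  m_comp h (g := fun _ => ()) measurable_const

theorem m_add {F G : α → Wf} (h : Ms F) (k : Ms G) : Ms fun a => F a + G a :=
  fun n => (h n).add (k n)

theorem m_smul {F : α → Wf} {u : α → ℂ} (hu : Measurable u) (h : Ms F) : Ms fun a => u a • F a :=
  fun n => (hu.comp measurable_fst).mul (h n)

theorem m_cons {F : α → Wf} (h : Ms F) {g : α → V} (hg : Measurable g) :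
    Ms fun a σ => F a (g a ::ₘ σ) := fun n => by
  have m : Measurable fun z : α × (Fin n → V) => (Fin.cons (g z.1) z.2 : Fin (n + 1) → V) := by
    refine measurable_pi_lambda _ fun i => ?_
    refine Fin.cases ?_ (fun j => ?_) i
    · exact hg.comp measurable_fst
    · exact (measurable_pi_apply j).comp measurable_snd
  simpa only [Function.comp_def, ms_cons] using (h (n + 1)).comp (measurable_fst.prodMk m)

theorem m_dv {F : α → V → Wf} (h : Ms fun z : α × V => F z.1 z.2) : Ms fun a => dv (F a) := by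
  intro n
  cases n with
  | zero => simp [ms, dv]
  | succ n =>
    simp only [dv_ms]
    refine Finset.measurable_sum _ fun i _ => ?_
    have m : Measurable fun z : α × (Fin (n + 1) → V) =>
        (((z.1, z.2 i), fun j => z.2 (i.succAbove j)) : (α × V) × (Fin n → V)) := by fun_prop
    exact (h n).comp m

theorem m_it {F : α → V → Wf} (h : Ms fun z : α × V => F z.1 z.2) : Ms fun a => it (F a) := by
  intro n
  have m : Measurable fun z : (α × (Fin n → V)) × V =>
      (((z.1.1, z.2), z.1.2) : (α × V) × (Fin n → V)) := by fun_prop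
  exact (((m_cons h measurable_snd n).comp m).stronglyMeasurable.integral_prod_right'
    (ν := Om)).measurable

theorem m_meas {F : α → Wf} (h : Ms F) (σ : Multiset V) : Measurable fun a => F a σ := by
  obtain ⟨n, x, rfl⟩ := ms_surj σ
  exact (h n).comp (measurable_id.prodMk measurable_const)

theorem ci_meas : Measurable ci := by
  refine Measurable.ite ?_ measurable_const measurable_const
  exact (measurableSet_eq_fun
    (continuous_mdot.comp (continuous_id.prodMk continuous_id)).measurable measurable_const).inter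
    (measurableSet_lt measurable_const (measurable_pi_apply o))

theorem dv_add (F G : V → Wf) : dv (fun p => F p + G p) = dv F + dv G := by
  funext σ
  exact Multiset.sum_map_add

theorem dv_smul (z : ℂ) (F : V → Wf) : dv (fun p => z • F p) = z • dv F := by
  funext σ
  exact Multiset.sum_map_mul_left

theorem it_smul (z : ℂ) (F : V → Wf) : it (fun p => z • F p) = z • it F := by
  funext σ
  exact integral_const_mul z _

theorem it_add {F G : V → Wf} (hF : ∀ σ, Integrable (fun q => F q (q ::ₘ σ)) Om)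
    (hG : ∀ σ, Integrable (fun q => G q (q ::ₘ σ)) Om) :
    it (fun p => F p + G p) = it F + it G := by
  funext σ
  exact integral_add (hF σ) (hG σ)

end Bq

open Bq

variable {N M a : ℕ} {C c : ℝ} {ψ χ : Wf} {F : V → Wf} {h h' : V → ℂ} {κ κ' : V → V → ℂ}

/-- integrability of annihilation integrands -/
theorem int_it (hF : Ms F) (h : ∀ q τ, ‖F q τ‖ * wt τ ^ (N + a + 3) ≤ C * rr q ^ a)
    (σ : Multiset V) : Integrable (fun q => F q (q ::ₘ σ)) Om :=
  (int_rr.mul_const (C / wt σ ^ N)).mono'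
    (m_meas (m_cons hF measurable_id) σ).aestronglyMeasurable (.of_forall fun q => it_le h σ q)

theorem int_an {u : V → ℂ} {b : ℝ} (mu : Measurable u) (hu : ∀ q, ‖u q‖ ≤ b * rr q ^ a)
    (hψ : Nice ψ) (σ : Multiset V) : Integrable (fun q => (u q • ψ) (q ::ₘ σ)) Om := by
  obtain ⟨C, hC⟩ := hψ.2 (0 + a + 3)
  exact int_it (F := fun q => u q • ψ) (m_smul mu (m_const hψ.1)) (an_le hu hC) σ

theorem int_ph (hh : Hs h) (hψ : Nice ψ) (σ : Multiset V) :
    Integrable (fun q => (h (-q) • ψ) (q ::ₘ σ)) Om := by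
  obtain ⟨c, hc⟩ := hh.2 0
  exact int_an (a := 0) (b := c) (hh.1.comp measurable_neg) (fun q => by simpa using hc (-q)) hψ σ

theorem Ks.m2 (hκ : Ks κ) {α : Type} [MeasurableSpace α] {u v : α → V} (hu : Measurable u)
    (hv : Measurable v) : Measurable fun a => κ (u a) (v a) := hκ.1.comp (hu.prodMk hv)

theorem int_ca (hκ : Ks κ) (hψ : Nice ψ) (p : V) (σ : Multiset V) :
    Integrable (fun q => ((ci p * (κ p (-q) + κ (-q) p)) • ψ) (q ::ₘ σ)) Om := by
  obtain ⟨c, hc⟩ := hκ.2 (0 + 2)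
  exact int_an (measurable_const.mul ((hκ.m2 measurable_const measurable_neg).add
    (hκ.m2 measurable_neg measurable_const))) (k_ca' hc p) hψ σ

theorem int_aa1 (hκ : Ks κ) (hψ : Nice ψ) (q : V) (σ : Multiset V) :
    Integrable (fun q' => (κ (-q) (-q') • ψ) (q' ::ₘ σ)) Om := by
  obtain ⟨c, hc⟩ := hκ.2 0
  exact int_an (hκ.m2 measurable_const measurable_neg) (k_aa hc q) hψ σ

theorem ms_aa (hκ : Ks κ) (hψ : Nice ψ) : Ms fun q => it fun q' => κ (-q) (-q') • ψ :=
  m_it (F := fun q q' => κ (-q) (-q') • ψ)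
    (m_smul (hκ.m2 measurable_fst.neg measurable_snd.neg) (m_const hψ.1))

theorem int_aa (hκ : Ks κ) (hψ : Nice ψ) (σ : Multiset V) :
    Integrable (fun q => it (fun q' => κ (-q) (-q') • ψ) (q ::ₘ σ)) Om := by
  obtain ⟨c, hc⟩ := hκ.2 0
  obtain ⟨C, hC⟩ := hψ.2 (0 + 10)
  exact int_it (F := fun q => it fun q' => κ (-q) (-q') • ψ) (ms_aa hκ hψ) (aa_le hc hC) σ

theorem nice_ph (hh : Hs h) (hψ : Nice ψ) : Nice (ph h ψ) := by
  refine ⟨m_add (m_dv (F := fun (_ : Unit) p => (ci p * h p) • ψ) (m_smul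
    ((ci_meas.mul hh.1).comp measurable_snd) (m_const hψ.1)))
    (m_it (F := fun (_ : Unit) q => h (-q) • ψ) (m_smul (hh.1.comp measurable_snd.neg)
      (m_const hψ.1))), fun N => ?_⟩
  obtain ⟨c, hc⟩ := hh.2 (N + 3)
  obtain ⟨C, hC⟩ := hψ.2 (N + 3)
  exact ⟨_, bd_ph' hc hC⟩

theorem ms_cc (hκ : Ks κ) (hψ : Nice ψ) : Ms fun p => dv fun p' => (ci p * ci p' * κ p p') • ψ :=
  m_dv (F := fun p p' => (ci p * ci p' * κ p p') • ψ)
    (m_smul (((ci_meas.comp measurable_fst).mul (ci_meas.comp measurable_snd)).mul hκ.1)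
      (m_const hψ.1))

theorem ms_ca (hκ : Ks κ) (hψ : Nice ψ) :
    Ms fun p => it fun q => (ci p * (κ p (-q) + κ (-q) p)) • ψ :=
  m_it (F := fun p q => (ci p * (κ p (-q) + κ (-q) p)) • ψ)
    (m_smul ((ci_meas.comp measurable_fst).mul ((hκ.m2 measurable_fst measurable_snd.neg).add
      (hκ.m2 measurable_snd.neg measurable_fst))) (m_const hψ.1))

theorem nice_qq (hκ : Ks κ) (hψ : Nice ψ) : Nice (qq κ ψ) := by
  refine ⟨m_add (m_add
    (m_dv (F := fun (_ : Unit) p => dv fun p' => (ci p * ci p' * κ p p') • ψ)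
      (m_comp (ms_cc hκ hψ) measurable_snd))
    (m_dv (F := fun (_ : Unit) p => it fun q => (ci p * (κ p (-q) + κ (-q) p)) • ψ)
      (m_comp (ms_ca hκ hψ) measurable_snd)))
    (m_it (F := fun (_ : Unit) q => it fun q' => κ (-q) (-q') • ψ)
      (m_comp (ms_aa hκ hψ) measurable_snd)), fun N => ?_⟩
  obtain ⟨c, hc⟩ := hκ.2 (2 * N + 10)
  obtain ⟨C, hC⟩ := hψ.2 (2 * N + 10)
  exact ⟨_, bd_qq' hc hC⟩

/-! ### linearity -/

theorem ph_add (hh : Hs h) (hψ : Nice ψ) (hχ : Nice χ) : ph h (ψ + χ) = ph h ψ + ph h χ := by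
  unfold ph
  simp only [smul_add]
  rw [dv_add, it_add (int_ph hh hψ) (int_ph hh hχ), add_add_add_comm]

theorem ph_smul (h : V → ℂ) (z : ℂ) (ψ : Wf) : ph h (z • ψ) = z • ph h ψ := by
  unfold ph
  simp only [smul_comm _ z ψ]
  rw [dv_smul, it_smul, smul_add]

theorem add_ph (hh : Hs h) (hh' : Hs h') (hψ : Nice ψ) :
    ph (fun p => h p + h' p) ψ = ph h ψ + ph h' ψ := by
  unfold ph
  simp only [mul_add, add_smul]
  rw [dv_add, it_add (int_ph hh hψ) (int_ph hh' hψ), add_add_add_comm]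

theorem mul_ph (z : ℂ) (h : V → ℂ) (ψ : Wf) : ph (fun p => z * h p) ψ = z • ph h ψ := by
  unfold ph
  simp only [mul_left_comm _ z, mul_smul z]
  rw [dv_smul, it_smul, smul_add]

theorem qq_add (hκ : Ks κ) (hψ : Nice ψ) (hχ : Nice χ) : qq κ (ψ + χ) = qq κ ψ + qq κ χ := by
  unfold qq
  simp only [smul_add, dv_add, fun p => it_add (int_ca hκ hψ p) (int_ca hκ hχ p),
    fun q => it_add (int_aa1 hκ hψ q) (int_aa1 hκ hχ q)]
  rw [it_add (int_aa hκ hψ) (int_aa hκ hχ)]
  abel

theorem qq_smul (κ : V → V → ℂ) (z : ℂ) (ψ : Wf) : qq κ (z • ψ) = z • qq κ ψ := by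
  unfold qq
  simp only [smul_comm _ z ψ, dv_smul, it_smul, smul_add]

theorem add_qq (hκ : Ks κ) (hκ' : Ks κ') (hψ : Nice ψ) :
    qq (fun p q => κ p q + κ' p q) ψ = qq κ ψ + qq κ' ψ := by
  unfold qq
  have e : ∀ p q, ci p * (κ p (-q) + κ' p (-q) + (κ (-q) p + κ' (-q) p)) =
      ci p * (κ p (-q) + κ (-q) p) + ci p * (κ' p (-q) + κ' (-q) p) := fun p q => by ring
  have e' : ∀ p q, ci p * ci q * (κ p q + κ' p q) = ci p * ci q * κ p q + ci p * ci q * κ' p q :=
    fun p q => mul_add _ _ _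
  simp only [e, e', add_smul, dv_add, fun p => it_add (int_ca hκ hψ p) (int_ca hκ' hψ p),
    fun q => it_add (int_aa1 hκ hψ q) (int_aa1 hκ' hψ q)]
  rw [it_add (int_aa hκ hψ) (int_aa hκ' hψ)]
  abel

theorem mul_qq (z : ℂ) (κ : V → V → ℂ) (ψ : Wf) :
    qq (fun p q => z * κ p q) ψ = z • qq κ ψ := by
  unfold qq
  simp only [← mul_add, mul_left_comm _ z, mul_smul z, dv_smul, it_smul, smul_add]

/-! ### the classes of symbols and of wave functions are vector spaces -/

theorem Hs.add (hh : Hs h) (hh' : Hs h') : Hs fun p => h p + h' p := by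
  refine ⟨hh.1.add hh'.1, fun N => ?_⟩
  obtain ⟨c, hc⟩ := hh.2 N
  obtain ⟨c', hc'⟩ := hh'.2 N
  refine ⟨c + c', fun p => le_trans ?_ (add_le_add (hc p) (hc' p))⟩
  rw [← add_mul]
  exact mul_le_mul_of_nonneg_right (norm_add_le _ _) (pow_nonneg (rr0 _).le _)

theorem Hs.mul (hh : Hs h) (z : ℂ) : Hs fun p => z * h p := by
  refine ⟨measurable_const.mul hh.1, fun N => ?_⟩
  obtain ⟨c, hc⟩ := hh.2 N
  refine ⟨‖z‖ * c, fun p => ?_⟩
  rw [norm_mul, mul_assoc]
  exact mul_le_mul_of_nonneg_left (hc p) (norm_nonneg _)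

theorem Ks.add (hκ : Ks κ) (hκ' : Ks κ') : Ks fun p q => κ p q + κ' p q := by
  refine ⟨hκ.1.add hκ'.1, fun N => ?_⟩
  obtain ⟨c, hc⟩ := hκ.2 N
  obtain ⟨c', hc'⟩ := hκ'.2 N
  refine ⟨c + c', fun p q => ?_⟩
  rw [add_mul]
  refine le_trans ?_ (add_le_add (hc p q) (hc' p q))
  rw [← add_mul]
  exact mul_le_mul_of_nonneg_right (norm_add_le _ _) (pow_nonneg (rr0 _).le _)

theorem Ks.mul (hκ : Ks κ) (z : ℂ) : Ks fun p q => z * κ p q := by
  refine ⟨measurable_const.mul hκ.1, fun N => ?_⟩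
  obtain ⟨c, hc⟩ := hκ.2 N
  refine ⟨‖z‖ * c, fun p q => ?_⟩
  rw [norm_mul, mul_assoc, mul_assoc]
  exact mul_le_mul_of_nonneg_left (hc p q) (norm_nonneg _)

end

end Vale.Agent.P352W.Fk
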