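import Vale.Agent.P352W.Fk.Kt
import Vale.Agent.P352W.Fk.Bas

/-! # Products and commutators of the fields, as identities of wave functions -/

set_option autoImplicit false
set_option linter.all false

open MeasureTheory
open scoped Classical ComplexConjugate

noncomputable section

namespace Vale.Agent.P352W.Fk

open Vale.Agent.P352.GF Vale.Agent.P352W.Cn Vale.Agent.P352W.Ms Kt

variable {ψ : Wf} {h h' g : V → ℂ} {κ κ1 κ2 κ3 : V → V → ℂ}

theorem ph_eq (h : V → ℂ) (ψ : Wf) :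
    ph h ψ = cr (fun p => ci p * h p) ψ + an Om (fun q => h (-q)) ψ := by
  unfold ph
  rw [dv_eq]
  rfl

theorem qq_eq (κ : V → V → ℂ) (ψ : Wf) :
    qq κ ψ = cc (fun p q => ci p * (ci q * κ p q)) ψ +
      ca Om (fun p q => ci p * (κ p (-q) + κ (-q) p)) ψ + aa Om (fun p q => κ (-p) (-q)) ψ := by
  funext σ
  unfold qq
  simp only [Pi.add_apply, ← mul_assoc, dv_eq]
  refine congrArg₂ _ rfl ?_
  unfold it aa
  simp only [Pi.smul_apply, smul_eq_mul, Multiset.cons_swap _ _ σ]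

namespace Pw

theorem j1 (a : Pg rr g) (n : Nice ψ) (τ : Multiset V) :
    Integrable (fun q => g q * ψ (q ::ₘ τ)) Om := (a.rd r1 (n1 n τ)).int wt_rr

theorem j2 (a : Kp κ) (n : Nice ψ) (τ : Multiset V) :
    Integrable (fun z : V × V => κ z.1 z.2 * ψ (z.1 ::ₘ z.2 ::ₘ τ)) (Om.prod Om) :=
  (Pg.rd wt_r2.1 a (n2 n τ)).int wt_r2

theorem j3 (a : Kp κ) (b : Pg rr g) (n : Nice ψ) (τ : Multiset V) :
    Integrable (fun z : (V × V) × V =>
      κ z.1.1 z.1.2 * (g z.2 * ψ (z.2 ::ₘ z.1.1 ::ₘ z.1.2 ::ₘ τ))) ((Om.prod Om).prod Om) :=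
  (Pg.rd wt_r3.1 (Pg.fst wt_r2.1 r1 a) (Pg.rd wt_r3.1 (b.snd r1 wt_r2.1) (n3 n τ))).int wt_r3

theorem j4 (a : Kp κ) (b : Rd rr g) (n : Nice ψ) (τ : Multiset V) :
    Integrable (fun z : V × V => κ z.1 z.2 * g z.1 * ψ (z.2 ::ₘ τ)) (Om.prod Om) := by
  simpa only [mul_assoc] using (Pg.rd wt_r2.1 a (b.prod r1 r1 (n1 n τ))).int wt_r2

theorem j5 (a : Kp κ) (b : Rd rr g) (n : Nice ψ) (τ : Multiset V) :
    Integrable (fun z : V × V => κ z.1 z.2 * g z.2 * ψ (z.1 ::ₘ τ)) (Om.prod Om) := by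
  simpa only [mul_assoc, mul_comm (ψ _)] using
    (Pg.rd wt_r2.1 a ((n1 n τ).prod r1 r1 b)).int wt_r2

theorem j6 (a : Kp κ) (b : Rd rr g) (n : Nice ψ) (τ : Multiset V) :
    Integrable (fun z : V × V => g z.1 * κ z.1 z.2 * ψ (z.2 ::ₘ τ)) (Om.prod Om) := by
  simpa only [mul_comm (g _)] using j4 a b n τ

theorem j7 (a : Pg rr h) (b : Rd rr g) : Integrable (fun q => h q * g q) Om := (a.rd r1 b).int wt_rr

theorem j8 (a : Pg rr h) (b : Rd rr g) : Integrable (fun q => g q * h q) Om := (b.mul r1 a).int wt_rr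

/-- the product of two linear fields -/
theorem ll {u u' v v' : V → ℂ} (hu' : Rd rr u') (hv : Rd rr v) (hv' : Rd rr v') (n : Nice ψ)
    (σ : Multiset V) :
    cr u (cr u' ψ + an Om v' ψ) σ + an Om v (cr u' ψ + an Om v' ψ) σ =
      cc (fun p q => u p * u' q) ψ σ + (ca Om (fun p q => u p * v' q) ψ σ +
        ca Om (fun p q => u' p * v q) ψ σ) + aa Om (fun p q => v p * v' q) ψ σ +
        (∫ q, v q * u' q ∂Om) * ψ σ := by
  rw [cr_add, an_add (i_cr (j7 hv.pg hu') (j1 hv.pg n) σ) (i_an (j2 (Kp.ten hv.pg hv'.pg) n σ)),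
    cr_cr, cr_an, an_an, an_cr (j7 hv.pg hu') (j1 hv.pg n)]
  ring

/-- the commutator of a quadratic and a linear field -/
theorem ql {u v : V → ℂ} (k1 : Kp κ1) (k2 : Kp κ2) (k3 : Kp κ3) (hu : Rd rr u) (hv : Rd rr v)
    (n : Nice ψ) (σ : Multiset V) :
    cc κ1 (cr u ψ + an Om v ψ) σ + ca Om κ2 (cr u ψ + an Om v ψ) σ +
        aa Om κ3 (cr u ψ + an Om v ψ) σ -
      (cr u (cc κ1 ψ + ca Om κ2 ψ + aa Om κ3 ψ) σ + an Om v (cc κ1 ψ + ca Om κ2 ψ + aa Om κ3 ψ) σ) =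
    cr (fun p => ∫ q, κ2 p q * u q ∂Om) ψ σ - cr (fun p => ∫ q, v q * (κ1 p q + κ1 q p) ∂Om) ψ σ +
      (an Om (fun q => ∫ p, κ3 p q * u p ∂Om) ψ σ + an Om (fun p => ∫ q, κ3 p q * u q ∂Om) ψ σ -
        an Om (fun r => ∫ q, v q * κ2 q r ∂Om) ψ σ) := by
  have a1 := i_cc (fun p => j8 (k1.sec p) hv) (fun p => j8 (k1.swap.sec p) hv) (j1 hv.pg n) σ
  have b2 := fun p τ => j2 (Kp.ten hv.pg (k2.sec p)) n τ
  have a2 := i_ca (j6 k2 hv n) b2 σ
  have a3 := i_aa (j3 k3 hv.pg n) (j2 k3 n) σ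
  have a4 : Integrable (fun q => v q * (cc κ1 ψ + ca Om κ2 ψ) (q ::ₘ σ)) Om :=
    (a1.fun_add a2).congr (.of_forall fun q => (mul_add _ _ _).symm)
  rw [cc_add, ca_add (fun p τ => i_cr (j7 (k2.sec p) hu) (j1 (k2.sec p) n) τ)
      (fun p τ => i_an (j2 (Kp.ten (k2.sec p) hv.pg) n τ)),
    aa_add (i2_cr (j4 k3 hu n) (j5 k3 hu n) (j2 k3 n) σ) (i2_an (j3 k3 hv.pg n σ)),
    cr_add, cr_add, an_add a4 a3, an_add a1 a2, cc_cr,
    an_cc (fun p => j8 (k1.sec p) hv) (fun p => j8 (k1.swap.sec p) hv) (j1 hv.pg n),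
    ca_cr (fun p => j7 (k2.sec p) hu) (fun p => j1 (k2.sec p) n), an_ca (j6 k2 hv n) b2,
    aa_cr (j4 k3 hu n) (j5 k3 hu n) (j2 k3 n), aa_an (j3 k3 hv.pg n) (j2 k3 n)]
  ring

theorem rd_ci (a : Hs h) : Rd rr fun p => ci p * h p := pg_ci.rd r1 a

theorem kp1 (a : Kp κ) : Kp fun p q => ci p * (ci q * κ p q) :=
  ((a.swap.mul1 pg_ci).swap).mul1 pg_ci

theorem kp2 (a : Kp κ) : Kp fun p q => ci p * (κ p (-q) + κ (-q) p) :=
  (a.neg2.add a.neg1.swap).mul1 pg_ci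

end Pw

open Pw

/-- **Wick's theorem for two fields** -/
theorem ph_ph (a : Hs h) (b : Hs h') (n : Nice ψ) :
    ph h (ph h' ψ) = qq (fun p q => h p * h' q) ψ + (∫ q, h (-q) * h' q ∂Om) • ψ := by
  funext σ
  rw [ph_eq, ph_eq, qq_eq]
  simp only [Pi.add_apply, Pi.smul_apply, smul_eq_mul]
  rw [ll (rd_ci b) (rd_neg a) (rd_neg b) n]
  congr 1
  · congr 2
    · congr 1; funext p q; ring
    · unfold ca
      rw [← dl_add]
      refine dl_congr fun p _ => ?_
      rw [← integral_add (j1 ((Pg.const _).mul r1 (rd_neg b).pg) n _)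
        (j1 ((Pg.const _).mul r1 (rd_neg a).pg) n _)]
      exact integral_congr_ae (.of_forall fun q => by ring)
  · congr 1
    exact integral_congr_ae (ci_ae.mono fun q hq => by simp only [hq, one_mul])

/-- the symbol of the commutator -/
def cs (κ : V → V → ℂ) (h : V → ℂ) (p : V) : ℂ :=
  ∫ q, ((κ p (-q) + κ (-q) p) * h q - (κ p q + κ q p) * h (-q)) ∂Om

theorem qq_ph' (k : Kp κ) (a : Hs h) (n : Nice ψ) :
    qq κ (ph h ψ) - ph h (qq κ ψ) = ph (cs κ h) ψ := by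
  funext σ
  have i1 := fun p => j7 ((k.neg2.add k.neg1.swap).sec p) a
  have i2 := fun p => j7 ((k.add k.swap).sec p) (rd_neg a)
  rw [qq_eq, qq_eq, ph_eq h ψ, ph_eq h, ph_eq]
  simp only [Pi.add_apply, Pi.sub_apply]
  rw [ql (kp1 k) (kp2 k) k.neg1.neg2 (rd_ci a) (rd_neg a) n]
  congr 1
  · unfold cr
    rw [← dl_sub]
    refine dl_congr fun p _ => ?_
    beta_reduce
    rw [← sub_mul, cs, integral_sub (i1 p) (i2 p), mul_sub, ← integral_const_mul,
      ← integral_const_mul]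
    congr 2 <;> exact integral_congr_ae (ci_ae.mono fun q hq => by simp only [hq]; ring)
  · have m : ∀ {κ' : V → V → ℂ} {u : V → ℂ}, Kp κ' → Rd rr u →
        Integrable (fun r => (∫ q, κ' q r * u q ∂Om) * ψ (r ::ₘ σ)) Om := fun k' hu => by
      simpa only [integral_mul_const] using (j4 k' hu n σ).integral_prod_right
    have m1 := m k.neg1.neg2 (rd_ci a)
    have m2 := m k.neg1.neg2.swap (rd_ci a)
    have m3 := m (kp2 k) (rd_neg a)
    unfold an
    simp only [mul_comm (h _)]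
    rw [← integral_add m1 m2, ← integral_sub (m1.fun_add m2) m3]
    refine integral_congr_ae (.of_forall fun r => ?_)
    beta_reduce
    rw [← add_mul, ← sub_mul, cs, integral_sub (i1 _) (i2 _),
      ← integral_add (j7 (k.neg1.neg2.swap.sec r) (rd_ci a)) (j7 (k.neg1.neg2.sec r) (rd_ci a))]
    congr 2 <;> exact integral_congr_ae (ci_ae.mono fun q hq => by simp only [hq]; ring)

/-- **the commutator of a quadratic and a linear field** -/
theorem qq_ph (k : Ks κ) (a : Hs h) (n : Nice ψ) :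
    qq κ (ph h ψ) - ph h (qq κ ψ) = ph (fun p =>
      ∫ q, ((κ p (-q) + κ (-q) p) * h q - (κ p q + κ q p) * h (-q)) ∂Om) ψ :=
  qq_ph' (ks_pg k) a n

/-- the commutator of two linear fields -/
theorem ph_comm (a : Hs h) (b : Hs h') (n : Nice ψ) :
    ph h (ph h' ψ) - ph h' (ph h ψ) =
      ((∫ q, h (-q) * h' q ∂Om) - ∫ q, h' (-q) * h q ∂Om) • ψ := by
  have e : qq (fun p q => h p * h' q) ψ = qq (fun p q => h' p * h q) ψ := by
    rw [qq_eq, qq_eq]
    congr 1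
    · congr 1
      · funext σ
        unfold cc
        rw [dl_comm fun p q υ => ci p * (ci q * (h p * h' q)) * ψ υ]
        exact dl_congr fun p _ => dl_congr fun q _ => by ring
      · congr 1
        funext p q; ring
    · funext σ
      unfold aa
      rw [integral_integral_swap (j2 (Kp.ten (rd_neg a).pg (rd_neg b).pg) n σ)]
      simp only [Multiset.cons_swap _ _ σ, mul_comm (h _)]
  rw [ph_ph a b n, ph_ph b a n, e, sub_smul]
  abel

/-- the field depends on the values of the symbol on the light cone only -/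
theorem ph_congr (e1 : ∀ p, P352.H496.IsNull p → h p = h' p)
    (e2 : ∀ p, P352.H496.IsNull p → h (-p) = h' (-p)) (ψ : Wf) : ph h ψ = ph h' ψ := by
  rw [ph_eq, ph_eq]
  congr 1
  · congr 1
    funext p
    unfold ci
    split_ifs with hp
    · rw [e1 p hp]
    · simp
  · funext σ
    exact integral_congr_ae (om_ae.mono fun q hq => by simp only [e2 q ⟨hq.2, hq.1⟩])

end Vale.Agent.P352W.Fk
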