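import Vale.Agent.P352W.Fk.Def
import Vale.Agent.P352W.Fk.Mk

/-! # The Mecke formula on the configuration space -/

set_option linter.all false

open MeasureTheory Filter Topology
open scoped ENNReal ComplexConjugate Classical Nat

namespace Vale.Agent.P352W.Fk

open Vale.Agent.P352.GF Vale.Agent.P352W.Cn

noncomputable section

namespace Mec

section

variable {X : ℕ → Type} {Y : Type} [∀ n, MeasurableSpace (X n)] [MeasurableSpace Y]
  {e : ∀ n, X n → Y} {m : ∀ n, Measure (X n)}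

theorem fac0 (n : ℕ) : (n ! : ℝ≥0∞)⁻¹ ≠ 0 := ENNReal.inv_ne_zero.2 (ENNReal.natCast_ne_top _)

theorem facT (n : ℕ) : (n ! : ℝ≥0∞)⁻¹ ≠ ∞ :=
  ENNReal.inv_ne_top.2 (Nat.cast_ne_zero.2 (Nat.factorial_ne_zero n))

theorem lvl_int (he : ∀ n, MeasurableEmbedding (e n)) (f : Y → ℂ) :
    Integrable f (Measure.sum fun n => (n ! : ℝ≥0∞)⁻¹ • (m n).map (e n)) ↔
      (∀ n, Integrable (fun x => f (e n x)) (m n)) ∧
        Summable fun n => (n ! : ℝ)⁻¹ * ∫ x, ‖f (e n x)‖ ∂m n := by
  rw [integrable_sum_measure_iff]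
  refine and_congr (forall_congr' fun n => ?_) (summable_congr fun n => ?_)
  · rw [integrable_smul_measure (fac0 n) (facT n), (he n).integrable_map_iff]
    rfl
  · rw [integral_smul_measure, (he n).integral_map]
    simp

theorem lvl_sum (he : ∀ n, MeasurableEmbedding (e n)) {f : Y → ℂ}
    (hf : Integrable f (Measure.sum fun n => (n ! : ℝ≥0∞)⁻¹ • (m n).map (e n))) :
    HasSum (fun n => (n ! : ℂ)⁻¹ * ∫ x, f (e n x) ∂m n)
      (∫ y, f y ∂Measure.sum fun n => (n ! : ℝ≥0∞)⁻¹ • (m n).map (e n)) := by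
  have h := hasSum_integral_measure hf
  have e1 : (fun n => ∫ y, f y ∂((n ! : ℝ≥0∞)⁻¹ • (m n).map (e n))) =
      fun n => (n ! : ℂ)⁻¹ * ∫ x, f (e n x) ∂m n := by
    funext n
    rw [integral_smul_measure, (he n).integral_map]
    simp
  rwa [e1] at h

theorem lvl_ae (he : ∀ n, MeasurableEmbedding (e n)) (P : Y → Prop) :
    (∀ᵐ y ∂Measure.sum fun n => (n ! : ℝ≥0∞)⁻¹ • (m n).map (e n), P y) ↔
      ∀ n, ∀ᵐ x ∂m n, P (e n x) := by
  rw [Measure.ae_sum_iff]
  exact forall_congr' fun n => by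
    rw [Measure.ae_ennreal_smul_measure_iff (fac0 n), (he n).ae_map_iff]

end

/-- the inclusion of a level -/
abbrev inc (n : ℕ) : (Fin n → V) → Cf := @Sigma.mk ℕ (fun n => Fin n → V) n

theorem meas_mk (n : ℕ) : Measurable (inc n) := fun s hs =>
  MeasurableSpace.measurableSet_iInf.1 hs n

theorem meas_cf {β : Type} [MeasurableSpace β] {f : Cf → β}
    (h : ∀ n, Measurable fun x => f ⟨n, x⟩) : Measurable f := fun s hs =>
  MeasurableSpace.measurableSet_iInf.2 fun n => h n hs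

theorem emb (n : ℕ) : MeasurableEmbedding (inc n) := by
  refine ⟨sigma_mk_injective, meas_mk n, fun s hs =>
    MeasurableSpace.measurableSet_iInf.2 fun k => ?_⟩
  show MeasurableSet (inc k ⁻¹' (inc n '' s))
  by_cases h : n = k
  · subst h
    rw [Set.preimage_image_eq _ sigma_mk_injective]
    exact hs
  · rw [Set.preimage_image_sigmaMk_of_ne (Ne.symm h)]
    exact MeasurableSet.empty

/-- the powers of the one particle measure -/
abbrev pw (n : ℕ) : Measure (Fin n → V) := Measure.pi fun _ => Om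

theorem prod_lam : Om.prod Lam = Measure.sum fun n =>
    (n ! : ℝ≥0∞)⁻¹ • (Om.prod (pw n)).map (Prod.map id (inc n)) := by
  unfold Lam
  rw [Measure.prod_sum_right]
  refine congrArg Measure.sum (funext fun n => ?_)
  rw [Measure.prod_smul_right, ← Measure.map_prod_map _ _ measurable_id (meas_mk n),
    Measure.map_id]

theorem ms_mk {n : ℕ} (x : Fin n → V) : ms x = Ms.mk x := by
  unfold ms Ms.mk
  rw [Finset.sum_eq_multiset_sum, ← Multiset.sum_map_singleton (Finset.univ.val.map x),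
    Multiset.map_map]
  rfl

theorem dv_dl (F : V → Wf) : dv F = Ms.dl F := by
  funext σ
  unfold dv Ms.dl
  refine congrArg Multiset.sum (Multiset.map_congr rfl fun p _ => congrArg (F p) ?_)
  exact congrArg (fun i => @Multiset.erase V i σ p) (Subsingleton.elim _ _)

theorem ms_zero (x : Fin 0 → V) : ms x = 0 := by simp [ms]

theorem norm_dv (F : V → Wf) (σ : Multiset V) :
    ‖dv F σ‖ ≤ (dv (fun p τ => (‖F p τ‖ : ℂ)) σ).re := by
  unfold dv
  refine (norm_multiset_sum_le _).trans_eq ?_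
  rw [Multiset.map_map]
  refine ((map_multiset_sum Complex.reAddGroupHom _).trans ?_).symm
  rw [Multiset.map_map]
  rfl

end Mec

open Mec

/-- integrability on the configuration space, level by level -/
theorem int_lam (G : Cf → ℂ) : Integrable G Lam ↔ (∀ n, Integrable (fun x => G ⟨n, x⟩) (pw n)) ∧
    Summable fun n => (n ! : ℝ)⁻¹ * ∫ x, ‖G ⟨n, x⟩‖ ∂pw n := lvl_int emb G

/-- the integral as a sum over the levels -/
theorem lam_sum {G : Wf} (h : Integrable (fun c => G (mu c)) Lam) :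
    HasSum (fun n => (n ! : ℂ)⁻¹ * ∫ x : Fin n → V, G (ms x) ∂pw n) (lam G) :=
  lvl_sum (m := pw) (f := fun c => G (mu c)) emb h

theorem ae_lam (P : Cf → Prop) : (∀ᵐ c ∂Lam, P c) ↔ ∀ n, ∀ᵐ x ∂pw n, P ⟨n, x⟩ := lvl_ae emb P

/-- almost every configuration lies on the forward light cone -/
theorem ae_null : ∀ᵐ c ∂Lam, ∀ i, 0 < c.2 i o ∧ mdot (c.2 i) (c.2 i) = 0 :=
  (ae_lam _).2 fun n => (ae_all_iff (ι := Fin n)).2 fun i =>
    (Measure.tendsto_eval_ae_ae (μ := fun _ : Fin n => Om) (i := i)).eventually om_ae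

/-- the Mecke formula -/
theorem mecke {F : V → Wf} (h : Integrable (fun z : V × Cf => F z.1 (mu z.2)) (Om.prod Lam)) :
    Integrable (fun c => dv F (mu c)) Lam ∧
      lam (dv F) = ∫ z, F z.1 (mu z.2) ∂(Om.prod Lam) := by
  have he : ∀ n, MeasurableEmbedding (Prod.map id (inc n) : V × (Fin n → V) → V × Cf) :=
    fun n => MeasurableEmbedding.id.prodMap (emb n)
  rw [prod_lam] at h ⊢
  have hs := lvl_sum he h
  obtain ⟨h1, h2⟩ := (lvl_int he _).1 h
  have k1 : ∀ n, Integrable (fun z : V × (Fin n → V) => F z.1 (Ms.mk z.2)) (Om.prod (pw n)) :=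
    fun n => by simpa only [Prod.map, id, mu, ms_mk] using h1 n
  have m1 := fun n => Ms.mecke (k1 n)
  have m2 := fun n => Ms.mecke (F := fun p τ => (‖F p τ‖ : ℂ)) (k1 n).norm.ofReal
  have fz : ∀ n : ℕ, (n ! : ℝ) ≠ 0 := fun n => Nat.cast_ne_zero.2 (Nat.factorial_ne_zero n)
  have i1 : Integrable (fun c => dv F (mu c)) Lam := by
    refine (int_lam _).2 ⟨fun n => ?_, ?_⟩
    · cases n with
      | zero => simp [mu, ms_zero, dv]
      | succ n => simpa only [mu, ms_mk, dv_dl] using (m1 n).1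
    · refine (summable_nat_add_iff 1).1 (Summable.of_nonneg_of_le (fun n => by positivity)
        (fun n => ?_) h2)
      have a1 : ∫ x : Fin (n + 1) → V, ‖dv F (mu ⟨n + 1, x⟩)‖ ∂pw (n + 1) ≤
          ∫ x : Fin (n + 1) → V, (Ms.dl (fun p τ => (‖F p τ‖ : ℂ)) (Ms.mk x)).re ∂pw (n + 1) := by
        refine integral_mono_of_nonneg (.of_forall fun x => norm_nonneg _) (m2 n).1.re
          (.of_forall fun x => ?_)
        simpa only [mu, ms_mk, dv_dl] using norm_dv F (ms x)
      have a2 : ∫ x : Fin (n + 1) → V,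
          (Ms.dl (fun p τ => (‖F p τ‖ : ℂ)) (Ms.mk x)).re ∂pw (n + 1) =
          (n + 1 : ℝ) * ∫ z : V × (Fin n → V), ‖F z.1 (Ms.mk z.2)‖ ∂Om.prod (pw n) := by
        have b := integral_re (m2 n).1
        rw [(m2 n).2, integral_complex_ofReal] at b
        refine b.trans ?_
        have : ((n : ℂ) + 1) = ((n + 1 : ℝ) : ℂ) := by push_cast; rfl
        rw [this, ← Complex.ofReal_mul]
        rfl
      refine (mul_le_mul_of_nonneg_left (a1.trans_eq a2) (by positivity)).trans_eq ?_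
      simp only [Prod.map, id, mu, ms_mk, Nat.factorial_succ]
      have := fz n
      push_cast
      field_simp
  refine ⟨i1, (lam_sum i1).unique ?_⟩
  refine (hasSum_nat_add_iff' 1).1 ?_
  have z0 : ∑ i ∈ Finset.range 1, (i ! : ℂ)⁻¹ * ∫ x : Fin i → V, dv F (ms x) ∂pw i = 0 := by
    simp [ms_zero, dv]
  rw [z0, sub_zero]
  have e1 : (fun n : ℕ => ((n + 1)! : ℂ)⁻¹ * ∫ x : Fin (n + 1) → V, dv F (ms x) ∂pw (n + 1)) =
      fun n : ℕ => (n ! : ℂ)⁻¹ * ∫ z : V × (Fin n → V), F z.1 (ms z.2) ∂Om.prod (pw n) := by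
    funext n
    have : (n ! : ℂ) ≠ 0 := Nat.cast_ne_zero.2 (Nat.factorial_ne_zero n)
    have b : ((n : ℂ) + 1) ≠ 0 := Nat.cast_add_one_ne_zero n
    simp only [ms_mk, dv_dl, Nat.factorial_succ]
    rw [(m1 n).2]
    push_cast
    field_simp
  exact e1 ▸ hs

end

end Vale.Agent.P352W.Fk
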