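import Vale.Agent.P352W.Fk.Pw
import Vale.Agent.P352W.Fk.Mec

/-! # The formal adjoints of the linear and of the quadratic fields -/

set_option autoImplicit false
set_option linter.all false

open MeasureTheory
open scoped Classical ComplexConjugate

noncomputable section

namespace Vale.Agent.P352W.Fk

open Vale.Agent.P352.GF Vale.Agent.P352W.Cn Vale.Agent.P352W.Ms Kt Pw

variable {ψ χ : Wf} {h u : V → ℂ} {κ : V → V → ℂ}

namespace Adj

/-- the weight of a configuration -/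
def wc (c : Cf) : ℝ := wt (mu c)

/-- the weight of a momentum and a configuration -/
def rc (z : V × Cf) : ℝ := rr z.1 * wc z.2

/-- the weight of two momenta and a configuration -/
def rs (z : (V × Cf) × V) : ℝ := rc z.1 * rr z.2

theorem wt_wc : Wt Lam wc := ⟨fun _ => w1 _, int_wt⟩

theorem wt_rc : Wt (Om.prod Lam) rc := wt_rr.prod wt_wc

theorem wt_rs : Wt ((Om.prod Lam).prod Om) rs := wt_rc.prod wt_rr

theorem c0 (n : Nice ψ) : Rd wc fun c => ψ (mu c) := rd_of n wt_wc.1 n.1.meas1 fun _ => le_rfl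

theorem ms1 (n : Nice ψ) : Ms fun (p : V) σ => ψ (p ::ₘ σ) :=
  n.1.cons.comp (g := fun p : V => ((), p)) (measurable_const.prodMk measurable_id)

theorem c1 (n : Nice ψ) : Rd rc fun z => ψ (z.1 ::ₘ mu z.2) :=
  rd_of n wt_rc.1 (ms1 n).meas fun _ => (wt_cons _ _).ge

theorem c2 (n : Nice ψ) : Rd rs fun z => ψ (z.1.1 ::ₘ z.2 ::ₘ mu z.1.2) :=
  rd_of n wt_rs.1 ((ms1 n).cons.meas.comp
    ((measurable_fst.fst.prodMk measurable_snd).prodMk measurable_fst.snd)) fun z => by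
    rw [wt_cons, wt_cons, rs, rc, wc, mul_assoc, mul_comm (wt _)]

theorem kp_rs (k : Kp κ) : Pg rs fun z => κ z.1.1 z.2 :=
  Pg.comp wt_r2.1 k (measurable_fst.fst.prodMk measurable_snd) fun z =>
    mul_le_mul_of_nonneg_right (le_wt (rr_pos _).le _) (rr_pos _).le

theorem rd2 {X : Type} [MeasurableSpace X] {w w' W : X → ℝ} {F G : X → ℂ} (h1 : ∀ x, 1 ≤ W x)
    (h2 : ∀ x, 1 ≤ w x) (h3 : ∀ x, 1 ≤ w' x) (a : Rd w F) (b : Rd w' G)
    (le : ∀ x, W x ≤ w x * w' x) : Rd W fun x => F x * G x :=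
  (a.prod h2 h3 b).comp h1 (measurable_id.prodMk measurable_id) le

/-- `⟨a, b⟩ = ⟨c, d⟩`, with convergent integrals -/
def Aj (a b c d : Wf) : Prop := Integrable (fun x => conj (a (mu x)) * b (mu x)) Lam ∧
  Integrable (fun x => conj (c (mu x)) * d (mu x)) Lam ∧ ip a b = ip c d

theorem ip_conj (a b : Wf) : conj (ip a b) = ip b a := by
  unfold ip lam
  rw [← integral_conj]
  simp only [map_mul, Complex.conj_conj, mul_comm]

theorem i_conj {a b : Wf} (i : Integrable (fun x => conj (a (mu x)) * b (mu x)) Lam) :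
    Integrable (fun x => conj (b (mu x)) * a (mu x)) Lam := by
  have := Complex.conjCLE.integrable_comp_iff.2 i
  simpa only [Complex.conjCLE_apply, map_mul, Complex.conj_conj, mul_comm] using this

theorem Aj.symm {a b c d : Wf} (h : Aj a b c d) : Aj d c b a :=
  ⟨i_conj h.2.1, i_conj h.1, by rw [← ip_conj, ← h.2.2, ip_conj]⟩

theorem Aj.add {a a' b c d d' : Wf} (h : Aj a b c d) (h' : Aj a' b c d') :
    Aj (a + a') b c (d + d') := by
  unfold Aj ip lam at *
  simp only [Pi.add_apply, map_add, add_mul, mul_add]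
  exact ⟨h.1.fun_add h'.1, h.2.1.fun_add h'.2.1, by
    rw [integral_add h.1 h'.1, integral_add h.2.1 h'.2.1, h.2.2, h'.2.2]⟩

theorem conj_dl (F : V → Wf) (σ : Multiset V) :
    conj (dl F σ) = dl (fun p τ => conj (F p τ)) σ := by
  unfold dl
  rw [map_multiset_sum, Multiset.map_map]
  rfl

theorem ip_dl {F : V → Wf}
    (i : Integrable (fun z : V × Cf => conj (F z.1 (mu z.2)) * χ (z.1 ::ₘ mu z.2)) (Om.prod Lam)) :
    Integrable (fun x => conj (dl F (mu x)) * χ (mu x)) Lam ∧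
      ip (dl F) χ = ∫ c, ∫ p, conj (F p (mu c)) * χ (p ::ₘ mu c) ∂Om ∂Lam := by
  have m := mecke (F := fun p τ => conj (F p τ) * χ (p ::ₘ τ)) i
  have e : ∀ σ, conj (dl F σ) * χ σ = dl (fun p τ => conj (F p τ) * χ (p ::ₘ τ)) σ := fun σ => by
    rw [conj_dl, mul_comm, mul_dl]
    simp only [mul_comm]
  rw [dv_eq, integral_prod_symm _ i] at m
  unfold ip
  simp only [e]
  exact m

theorem aj_cr (a : Pg rr u) (n : Nice ψ) (n' : Nice χ) :
    Aj (cr u ψ) χ ψ (an Om (fun p => conj (u p)) χ) := by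
  have i : Integrable (fun z : V × Cf => conj (u z.1 * ψ (mu z.2)) * χ (z.1 ::ₘ mu z.2))
      (Om.prod Lam) :=
    (Pg.rd wt_rc.1 (Pg.mul wt_rc.1 (a.fst r1 wt_wc.1) ((c0 n).pg.snd wt_wc.1 r1)).conj
      (c1 n')).int wt_rc
  have e : ∀ c, ∫ p, conj (u p * ψ (mu c)) * χ (p ::ₘ mu c) ∂Om =
      conj (ψ (mu c)) * an Om (fun p => conj (u p)) χ (mu c) := fun c => by
    unfold an
    rw [← integral_const_mul]
    exact integral_congr_ae (.of_forall fun p => by simp only [map_mul]; ring)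
  have m := ip_dl (F := fun p τ => u p * ψ τ) i
  have i2 := i.integral_prod_right
  simp only [e] at m i2
  exact ⟨m.1, i2, m.2⟩

theorem pg_cr (k : Kp κ) (n : Nice ψ) : Pg rc fun z => cr (κ z.1) ψ (mu z.2) := by
  obtain ⟨m, a, c, hc⟩ := k
  obtain ⟨C, hC⟩ := n.2 0
  have mm : Ms fun p : V => dv fun q => κ p q • ψ :=
    Ms.dv (F := fun p q => κ p q • ψ) ((n.1.at ()).smul m)
  simp only [dv_eq] at mm
  refine ⟨mm.meas, a + 1, |c| * C, fun z => ?_⟩
  have C0 := hC.nn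
  have r0 := (rr_pos z.1).le
  have w0 := (wt_pos (mu z.2)).le
  have b : ∀ x ∈ ((mu z.2).map fun q => κ z.1 q * ψ ((mu z.2).erase q)).map norm,
      x ≤ |c| * C * rc z ^ a := by
    intro x hx
    obtain ⟨y, hy, rfl⟩ := Multiset.mem_map.1 hx
    obtain ⟨q, hq, rfl⟩ := Multiset.mem_map.1 hy
    have e1 : r2 (z.1, q) ≤ rc z := by
      refine mul_le_mul_of_nonneg_left ?_ r0
      rw [wc, wt_erase hq]
      exact le_wt (rr_pos q).le _
    have e0 : 0 ≤ r2 (z.1, q) := zero_le_one.trans (wt_r2.1 _)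
    have e2 : ‖κ z.1 q‖ ≤ |c| * rc z ^ a := (hc (z.1, q)).trans
      (mul_le_mul (le_abs_self c) (pow_le_pow_left₀ e0 e1 a) (by positivity) (abs_nonneg c))
    have e3 : ‖ψ ((mu z.2).erase q)‖ ≤ C := by simpa using hC _
    rw [norm_mul, mul_right_comm]
    exact mul_le_mul e2 e3 (norm_nonneg _) ((norm_nonneg _).trans e2)
  have e4 : (Multiset.card (mu z.2) : ℝ) ≤ rc z :=
    (card_le_wt _).trans (le_mul_of_one_le_left w0 (r1 _))
  have e5 : 0 ≤ rc z := zero_le_one.trans (wt_rc.1 z)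
  unfold cr
  beta_reduce
  rw [← dv_eq]
  refine (norm_multiset_sum_le _).trans ((Multiset.sum_le_card_nsmul _ _ b).trans ?_)
  rw [Multiset.card_map, Multiset.card_map, nsmul_eq_mul, pow_succ, ← mul_assoc (|c| * C), mul_comm]
  exact mul_le_mul_of_nonneg_left e4 (by positivity)

theorem aj_cc (k : Kp κ) (n : Nice ψ) (n' : Nice χ) :
    Aj (cc κ ψ) χ ψ (aa Om (fun p q => conj (κ p q)) χ) := by
  have i := (Pg.rd wt_rc.1 (pg_cr k n).conj (c1 n')).int wt_rc
  have m := ip_dl (F := fun p => cr (κ p) ψ) i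
  have t := (Pg.rd wt_rs.1 (((c0 n).pg.snd wt_wc.1 r1).fst wt_rc.1 r1).conj
    (Pg.rd wt_rs.1 (kp_rs k).conj (c2 n'))).int wt_rs
  have t1 := t.integral_prod_left
  have t2 := t1.integral_prod_right
  simp only [integral_const_mul] at t1 t2
  refine ⟨m.1, t2, m.2.trans ?_⟩
  rw [← integral_integral_swap i]
  have e : ∀ p, ∫ c, conj (cr (κ p) ψ (mu c)) * χ (p ::ₘ mu c) ∂Lam =
      ∫ c, conj (ψ (mu c)) * ∫ q, conj (κ p q) * χ (p ::ₘ q ::ₘ mu c) ∂Om ∂Lam := fun p =>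
    (aj_cr (k.sec p) n (n'.cons p)).2.2
  simp only [e]
  rw [integral_integral_swap t1]
  simp only [integral_const_mul]
  rfl

theorem ip_ca (k : Kp κ) (n : Nice ψ) (n' : Nice χ) :
    Integrable (fun x => conj (ca Om κ ψ (mu x)) * χ (mu x)) Lam ∧ ip (ca Om κ ψ) χ =
      ∫ c, ∫ p, ∫ q, conj (κ p q * ψ (q ::ₘ mu c)) * χ (p ::ₘ mu c) ∂Om ∂Om ∂Lam := by
  have a1 : Rd (fun z : (V × Cf) × V => rc (z.2, z.1.2)) fun z => ψ (z.2 ::ₘ mu z.1.2) :=
    (c1 n).comp (fun _ => wt_rc.1 _) (measurable_snd.prodMk measurable_fst.snd) fun _ => le_rfl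
  have a2 : Rd (fun z : (V × Cf) × V => rc z.1) fun z => χ (z.1.1 ::ₘ mu z.1.2) :=
    (c1 n').comp (fun _ => wt_rc.1 _) measurable_fst fun _ => le_rfl
  have a3 := rd2 wt_rs.1 (fun _ => wt_rc.1 _) (fun _ => wt_rc.1 _) a1.conj a2 fun z => by
    rw [mul_comm]
    exact mul_le_mul_of_nonneg_left (le_wt (rr_pos _).le _) (zero_le_one.trans (wt_rc.1 _))
  have t := ((Pg.rd wt_rs.1 (kp_rs k).conj a3).int wt_rs).integral_prod_left
  simp only [← mul_assoc, ← map_mul, integral_mul_const, integral_conj] at t ⊢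
  exact ip_dl (F := fun p τ => ∫ q, κ p q * ψ (q ::ₘ τ) ∂Om) t

theorem aj_ca (k : Kp κ) (n : Nice ψ) (n' : Nice χ) :
    Aj (ca Om (fun p q => ci p * κ p q) ψ) χ ψ (ca Om (fun p q => ci p * conj (κ q p)) χ) := by
  have m := ip_ca (k.mul1 pg_ci) n n'
  have m' := ip_ca (k.swap.conj.mul1 pg_ci) n' n
  refine ⟨m.1, i_conj m'.1, ?_⟩
  rw [m.2, ← ip_conj, m'.2, ← integral_conj]
  refine integral_congr_ae (.of_forall fun c => ?_)
  have t := (Pg.rd wt_r2.1 k.conj ((n1 n' (mu c)).prod r1 r1 (n1 n (mu c)).conj)).int wt_r2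
  simp only [← integral_conj]
  refine (integral_congr_ae (ci_ae.mono fun p hp => ?_)).trans ((integral_integral_swap (f := fun p q =>
    conj (κ p q) * (χ (p ::ₘ mu c) * conj (ψ (q ::ₘ mu c)))) t).trans
    (integral_congr_ae (ci_ae.mono fun p hp => ?_)))
  · simp only [hp, one_mul, map_mul, mul_assoc, mul_comm (χ _)]
  · simp only [hp, one_mul, map_mul, mul_assoc, Complex.conj_conj]

theorem an_ci (u : V → ℂ) (ψ : Wf) : an Om (fun p => conj (ci p * u p)) ψ =
    an Om (fun p => conj (u p)) ψ :=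
  funext fun σ => integral_congr_ae (ci_ae.mono fun p hp => by simp only [hp, one_mul])

theorem aa_ci (κ : V → V → ℂ) (ψ : Wf) : aa Om (fun p q => conj (ci p * (ci q * κ p q))) ψ =
    aa Om (fun p q => conj (κ p q)) ψ :=
  funext fun σ => integral_congr_ae (ci_ae.mono fun p hp => integral_congr_ae
    (ci_ae.mono fun q hq => by simp only [hp, hq, one_mul]))

theorem aj_ph (a : Pg rr h) (n : Nice ψ) (n' : Nice χ) :
    Aj (ph h ψ) χ ψ (ph (fun p => conj (h (-p))) χ) := by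
  have b : Pg rr fun p => conj (h (-p)) := (a.comp r1 measurable_neg fun p => (rr_neg p).le).conj
  have h1 := aj_cr (pg_ci.mul r1 a) n n'
  have h2 := (aj_cr (pg_ci.mul r1 b) n' n).symm
  rw [an_ci] at h1 h2
  rw [ph_eq, ph_eq, add_comm (cr _ χ)]
  simpa only [neg_neg, Complex.conj_conj] using h1.add h2

theorem aj_qq (k : Kp κ) (n : Nice ψ) (n' : Nice χ) :
    Aj (qq κ ψ) χ ψ (qq (fun p q => conj (κ (-p) (-q))) χ) := by
  have h1 := aj_cc (kp1 k) n n'
  have h2 := aj_ca (k.neg2.add k.neg1.swap) n n'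
  have h3 := (aj_cc (kp1 k.neg1.neg2.conj) n' n).symm
  rw [aa_ci] at h1 h3
  rw [qq_eq, qq_eq, add_comm _ (aa Om _ χ), add_comm (cc _ χ), ← add_assoc]
  simpa only [neg_neg, Complex.conj_conj, map_add, add_comm (conj (κ (-_) _))] using
    (h1.add h2).add h3

end Adj

/-- **the adjoint of a linear field** -/
theorem ip_ph (a : Hs h) (n : Nice ψ) (n' : Nice χ) :
    ip (ph h ψ) χ = ip ψ (ph (fun p => conj (h (-p))) χ) := (Adj.aj_ph (hs_rd a).pg n n').2.2

/-- **the adjoint of a quadratic field** -/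
theorem ip_qq (k : Ks κ) (n : Nice ψ) (n' : Nice χ) :
    ip (qq κ ψ) χ = ip ψ (qq (fun p q => conj (κ (-p) (-q))) χ) := (Adj.aj_qq (ks_pg k) n n').2.2

end Vale.Agent.P352W.Fk
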