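import Vale.Agent.P352W.Fk.Def
import Mathlib.Analysis.MeanInequalitiesPow
import Mathlib.MeasureTheory.Integral.MeanInequalities

/-!
# P352W FK: the number of particles, and the bound for the free field (helper72)
-/

set_option autoImplicit false

open MeasureTheory Filter Topology
open scoped ENNReal Classical Nat

namespace Vale.Agent.P352W.Fk

open Vale.Agent.P352.GF Vale.Agent.P352W.Cn

noncomputable section

variable {n m : ℕ} {ψ χ : Wf} {F : V → Wf} {h : V → ℂ}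

theorem Le.mono (a : Le n ψ) (l : n ≤ m) : Le m ψ := fun σ hσ => a σ (l.trans_lt hσ)

theorem Le.add (a : Le n ψ) (b : Le n χ) : Le n (ψ + χ) := fun σ hσ => by
  rw [Pi.add_apply, a σ hσ, b σ hσ, add_zero]

theorem Le.smul (a : Le n ψ) (c : ℂ) : Le n (c • ψ) := fun σ hσ => by
  rw [Pi.smul_apply, a σ hσ, smul_zero]

theorem le_dv (a : ∀ p, Le n (F p)) : Le (n + 1) (dv F) := fun σ hσ =>
  Multiset.sum_eq_zero fun x hx => by
    obtain ⟨p, hp, rfl⟩ := Multiset.mem_map.1 hx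
    refine a p _ ?_
    rw [Multiset.card_erase_of_mem hp, Nat.pred_eq_sub_one]
    omega

theorem le_it (a : ∀ p, Le n (F p)) : Le n (it F) := fun σ hσ => by
  have (q : V) : F q (q ::ₘ σ) = 0 := a q _ (by rw [Multiset.card_cons]; omega)
  simp [it, this]

theorem Le.ph (a : Le n ψ) (h : V → ℂ) : Le (n + 1) (ph h ψ) :=
  (le_dv fun _ => a.smul _).add ((le_it fun _ => a.smul _).mono (Nat.le_succ n))

theorem Le.qq (a : Le n ψ) (κ : V → V → ℂ) : Le (n + 2) (qq κ ψ) :=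
  ((le_dv fun _ => le_dv fun _ => a.smul _).add
    ((le_dv fun _ => le_it fun _ => a.smul _).mono (Nat.le_succ _))).add
    ((le_it fun _ => le_it fun _ => a.smul _).mono (Nat.le_add_right n 2))

theorem Wd.le (a : Wd ψ) : ∃ n, Le n ψ := by
  induction a with
  | vc => exact ⟨0, fun σ hσ => if_neg fun e => by simp [e] at hσ⟩
  | zero => exact ⟨0, fun _ _ => rfl⟩
  | add _ _ a b =>
    obtain ⟨n, a⟩ := a
    obtain ⟨m, b⟩ := b
    exact ⟨max n m, (a.mono (le_max_left _ _)).add (b.mono (le_max_right _ _))⟩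
  | smul c _ a => exact a.imp fun _ a => a.smul c
  | ph _ _ a => exact let ⟨_, a⟩ := a; ⟨_, a.ph _⟩
  | qq _ _ _ _ a => exact let ⟨_, a⟩ := a; ⟨_, a.qq _⟩

namespace Cr

theorem ms_ins (i : Fin (n + 1)) (x : Fin (n + 1) → V) :
    ms x = x i ::ₘ ms fun j => x (i.succAbove j) := by
  rw [ms, Fin.sum_univ_succAbove _ i, Multiset.singleton_add]
  rfl

theorem ms_cons (q : V) (x : Fin n → V) : ms (Fin.cons q x : Fin (n + 1) → V) = q ::ₘ ms x :=
  ms_ins 0 _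

theorem sum_ms {M : Type} [AddCommMonoid M] (f : V → M) (x : Fin n → V) :
    ((ms x).map f).sum = ∑ i, f (x i) := by
  refine (map_sum (Multiset.sumAddMonoidHom.comp (Multiset.mapAddMonoidHom f))
    (fun i => ({x i} : Multiset V)) Finset.univ).trans (Finset.sum_congr rfl fun i _ => ?_)
  simp

theorem card_ms (x : Fin n → V) : Multiset.card (ms x) = n := by simp [ms]

theorem dv_ms {M : Type} [AddCommMonoid M] (G : V → Multiset V → M) (x : Fin (n + 1) → V) :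
    ((ms x).map fun p => G p ((ms x).erase p)).sum =
      ∑ i, G (x i) (ms fun j => x (i.succAbove j)) := by
  rw [sum_ms]
  refine Finset.sum_congr rfl fun i _ => ?_
  conv_lhs => rw [ms_ins i x, Multiset.erase_cons_head]

theorem meas_mu {β : Type} [MeasurableSpace β] {G : Multiset V → β}
    (a : ∀ n, Measurable fun x : Fin n → V => G (ms x)) : Measurable fun c : Cf => G (mu c) :=
  fun _ hs => MeasurableSpace.measurableSet_iInf.2 fun n => a n hs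

theorem lin {G : Multiset V → ℝ≥0∞} (a : ∀ n, Measurable fun x : Fin n → V => G (ms x)) :
    ∫⁻ c, G (mu c) ∂Lam =
      ∑' n, (n ! : ℝ≥0∞)⁻¹ * ∫⁻ x : Fin n → V, G (ms x) ∂Measure.pi fun _ => Om := by
  rw [Lam, lintegral_sum_measure]
  refine tsum_congr fun n => ?_
  have k : Measurable (@Sigma.mk ℕ (fun n => Fin n → V) n) :=
    fun _ hs => MeasurableSpace.measurableSet_iInf.1 hs n
  rw [lintegral_smul_measure, lintegral_map (meas_mu a) k]
  rfl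

variable {G : V → Multiset V → ℝ≥0∞}

theorem m_ins (a : ∀ n, Measurable fun z : V × (Fin n → V) => G z.1 (ms z.2)) (i : Fin (n + 1)) :
    Measurable fun x : Fin (n + 1) → V => G (x i) (ms fun j => x (i.succAbove j)) :=
  (a n).comp (f := fun x : Fin (n + 1) → V => (x i, fun j => x (i.succAbove j))) (by fun_prop)

theorem m_dv (a : ∀ n, Measurable fun z : V × (Fin n → V) => G z.1 (ms z.2)) :
    ∀ n, Measurable fun x : Fin n → V => ((ms x).map fun p => G p ((ms x).erase p)).sum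
  | 0 => by simp [ms]
  | n + 1 => by
    simp only [dv_ms]
    exact Finset.measurable_sum _ fun i _ => m_ins a i

/-- the Mecke formula -/
theorem mec (a : ∀ n, Measurable fun z : V × (Fin n → V) => G z.1 (ms z.2)) :
    ∫⁻ c, ((mu c).map fun p => G p ((mu c).erase p)).sum ∂Lam =
      ∫⁻ c, ∫⁻ p, G p (mu c) ∂Om ∂Lam := by
  rw [lin (G := fun σ => (σ.map fun p => G p (σ.erase p)).sum) (m_dv a),
    lin (G := fun σ => ∫⁻ p, G p σ ∂Om) fun n => (a n).lintegral_prod_left',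
    tsum_eq_zero_add' ENNReal.summable]
  have z : ∀ x : Fin 0 → V, ((ms x).map fun p => G p ((ms x).erase p)).sum = 0 := by simp [ms]
  simp only [z, lintegral_zero, mul_zero, zero_add, dv_ms]
  refine tsum_congr fun n => ?_
  have e (i : Fin (n + 1)) : ∫⁻ x : Fin (n + 1) → V, G (x i) (ms fun j => x (i.succAbove j))
      ∂Measure.pi (fun _ => Om) = ∫⁻ x : Fin n → V, ∫⁻ p, G p (ms x) ∂Om ∂Measure.pi fun _ => Om :=
    ((measurePreserving_piFinSuccAbove (fun _ : Fin (n + 1) => Om) i).lintegral_comp (a n)).trans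
      (lintegral_prod_symm _ (a n).aemeasurable)
  rw [lintegral_finsetSum _ fun i _ => m_ins a i, Finset.sum_congr rfl fun i _ => e i,
    Finset.sum_const, Finset.card_univ, Fintype.card_fin, nsmul_eq_mul, ← mul_assoc,
    Nat.factorial_succ, Nat.cast_mul, ENNReal.mul_inv (by simp) (by simp), mul_right_comm _ (n ! : ℝ≥0∞)⁻¹,
    ENNReal.inv_mul_cancel (by simp) (by simp), one_mul]

/-- the square of the norm -/
def nn (ψ : Wf) : ℝ≥0∞ := ∫⁻ c, ‖ψ (mu c)‖ₑ ^ (2 : ℝ) ∂Lam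

/-- the square of the norm of a symbol -/
def sn (h : V → ℂ) : ℝ≥0∞ := ∫⁻ p, ‖h p‖ₑ ^ (2 : ℝ) ∂Om

theorem ci_le (p : V) : ‖ci p‖ₑ ≤ 1 := by
  unfold ci
  split_ifs <;> simp

theorem cr_le (l : Le n ψ) (h : V → ℂ) (c : Cf) :
    ‖dv (fun p => (ci p * h p) • ψ) (mu c)‖ₑ ^ (2 : ℝ) ≤ (n + 1) *
      ((mu c).map fun p => ‖h p‖ₑ ^ (2 : ℝ) * ‖ψ ((mu c).erase p)‖ₑ ^ (2 : ℝ)).sum := by
  obtain ⟨m, x⟩ := c
  rcases lt_or_ge (n + 1) m with k | k
  · rw [le_dv (fun _ => l.smul _) _ (by rwa [mu, card_ms])]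
    simp
  rw [dv, mu, sum_ms, sum_ms]
  refine (ENNReal.rpow_le_rpow (enorm_sum_le _ _) zero_le_two).trans
    ((ENNReal.rpow_sum_le_const_mul_sum_rpow _ _ one_le_two).trans (mul_le_mul' ?_
      (Finset.sum_le_sum fun i _ => ?_)))
  · rw [Finset.card_univ, Fintype.card_fin, show (2 : ℝ) - 1 = 1 by norm_num, ENNReal.rpow_one]
    exact_mod_cast k
  · rw [← ENNReal.mul_rpow_of_nonneg _ _ zero_le_two, Pi.smul_apply, smul_eq_mul, enorm_mul,
      enorm_mul]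
    gcongr
    exact mul_le_of_le_one_left' (ci_le _)

variable (mψ : ∀ n, Measurable fun x : Fin n → V => ψ (ms x))
include mψ

theorem m_cons (n : ℕ) : Measurable fun z : V × (Fin n → V) => ψ (z.1 ::ₘ ms z.2) := by
  simp only [← ms_cons]
  exact (mψ (n + 1)).comp (measurable_pi_lambda _ fun i => Fin.cases measurable_fst
    (fun j => (measurable_pi_apply j).comp measurable_snd) i)

theorem an_le (mh : Measurable h) (c : Cf) : ‖it (fun q => h (-q) • ψ) (mu c)‖ₑ ^ (2 : ℝ) ≤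
    sn (fun q => h (-q)) * ∫⁻ q, ‖ψ (q ::ₘ mu c)‖ₑ ^ (2 : ℝ) ∂Om := by
  have := ENNReal.lintegral_mul_le_Lp_mul_Lq Om Real.HolderConjugate.two_two
    (f := fun q => ‖h (-q)‖ₑ) (g := fun q => ‖ψ (q ::ₘ mu c)‖ₑ)
    (mh.comp measurable_neg).enorm.aemeasurable
    ((m_cons mψ c.1).comp (measurable_id.prodMk (measurable_const (a := c.2)))).enorm.aemeasurable
  refine (ENNReal.rpow_le_rpow ((enorm_integral_le_lintegral_enorm _).trans
    ((lintegral_congr fun q => enorm_mul _ _).trans_le this)) zero_le_two).trans_eq ?_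
  rw [ENNReal.mul_rpow_of_nonneg _ _ zero_le_two, ← ENNReal.rpow_mul, ← ENNReal.rpow_mul]
  norm_num [sn]

theorem nn_an (l : Le n ψ) :
    ∫⁻ c, ∫⁻ p, ‖ψ (p ::ₘ mu c)‖ₑ ^ (2 : ℝ) ∂Om ∂Lam ≤ (n + 1) * nn ψ := by
  rw [← mec (G := fun p τ => ‖ψ (p ::ₘ τ)‖ₑ ^ (2 : ℝ)) fun n => (m_cons mψ n).enorm.pow_const _, nn,
    ← lintegral_const_mul' _ _ (by simp)]
  refine lintegral_mono fun c => ?_
  rw [Multiset.map_congr rfl fun p hp => by rw [Multiset.cons_erase hp], Multiset.map_const',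
    Multiset.sum_replicate, nsmul_eq_mul]
  rcases lt_or_ge n (Multiset.card (mu c)) with k | k
  · simp [l _ k]
  · gcongr
    exact_mod_cast k.trans (Nat.le_succ n)

theorem m_cr (mh : Measurable h) (n : ℕ) : Measurable fun z : V × (Fin n → V) =>
    ‖h z.1‖ₑ ^ (2 : ℝ) * ‖ψ (ms z.2)‖ₑ ^ (2 : ℝ) :=
  ((mh.comp measurable_fst).enorm.pow_const _).mul
    (((mψ n).comp measurable_snd).enorm.pow_const _)

theorem nn_cr (mh : Measurable h) : ∫⁻ c, ((mu c).map fun p => ‖h p‖ₑ ^ (2 : ℝ) *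
    ‖ψ ((mu c).erase p)‖ₑ ^ (2 : ℝ)).sum ∂Lam = sn h * nn ψ :=
  (mec (G := fun p τ => ‖h p‖ₑ ^ (2 : ℝ) * ‖ψ τ‖ₑ ^ (2 : ℝ)) (m_cr mψ mh)).trans
    ((lintegral_congr fun _ => lintegral_mul_const _ (mh.enorm.pow_const _)).trans
      (lintegral_const_mul _ ((meas_mu mψ).enorm.pow_const _)))

theorem nn_ph (mh : Measurable h) (f : sn (fun q => h (-q)) ≠ ⊤) (l : Le n ψ) :
    nn (ph h ψ) ≤ 2 * (sn h + sn fun q => h (-q)) * (n + 1) * nn ψ := by
  have m1 : Measurable fun c : Cf => ((mu c).map fun p => ‖h p‖ₑ ^ (2 : ℝ) *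
      ‖ψ ((mu c).erase p)‖ₑ ^ (2 : ℝ)).sum :=
    meas_mu (G := fun σ => (σ.map fun p => ‖h p‖ₑ ^ (2 : ℝ) * ‖ψ (σ.erase p)‖ₑ ^ (2 : ℝ)).sum)
      (m_dv (G := fun p τ => ‖h p‖ₑ ^ (2 : ℝ) * ‖ψ τ‖ₑ ^ (2 : ℝ)) (m_cr mψ mh))
  have k (c : Cf) : ‖ph h ψ (mu c)‖ₑ ^ (2 : ℝ) ≤ 2 * ((n + 1) * ((mu c).map fun p =>
      ‖h p‖ₑ ^ (2 : ℝ) * ‖ψ ((mu c).erase p)‖ₑ ^ (2 : ℝ)).sum +
      sn (fun q => h (-q)) * ∫⁻ q, ‖ψ (q ::ₘ mu c)‖ₑ ^ (2 : ℝ) ∂Om) := by
    refine (ENNReal.rpow_le_rpow (enorm_add_le _ _) zero_le_two).trans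
      ((ENNReal.rpow_add_le_mul_rpow_add_rpow _ _ one_le_two).trans ?_)
    rw [show (2 : ℝ) - 1 = 1 by norm_num, ENNReal.rpow_one]
    exact mul_le_mul_right (add_le_add (cr_le l h c) (an_le mψ mh c)) _
  refine (lintegral_mono k).trans ?_
  rw [lintegral_const_mul' _ _ ENNReal.ofNat_ne_top, lintegral_add_left (m1.const_mul _),
    lintegral_const_mul _ m1, lintegral_const_mul' _ _ f, nn_cr mψ mh]
  exact (mul_le_mul_right (add_le_add_right (mul_le_mul_right (nn_an mψ l) _) _) _).trans_eq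
    (by ring)

omit mψ

theorem sn_lt (a : Hs h) : sn h < ⊤ ∧ sn (fun q => h (-q)) < ⊤ := by
  have k {h : V → ℂ} (m : Measurable h) {c : ℝ} (b : Hb 3 c h) : sn h < ⊤ := by
    have := integrable_om_of_le (F := fun p => h p * h p) (C := c * c) (N := 3) le_rfl
      (m.mul m).aestronglyMeasurable fun p => by
        have r : 1 + ‖p‖ ≤ rr p := by unfold rr; linarith
        have r1 : 1 ≤ 1 + ‖p‖ := le_add_of_nonneg_right (norm_nonneg _)
        have u : ‖h p‖ * (1 + ‖p‖) ^ 3 ≤ c := le_trans (by gcongr) (b p)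
        have v : ‖h p‖ ≤ c := (le_mul_of_one_le_right (norm_nonneg _) (one_le_pow₀ r1)).trans u
        rw [norm_mul, ← div_eq_mul_inv, le_div_iff₀ (by positivity), mul_assoc]
        exact mul_le_mul v u (by positivity) ((norm_nonneg _).trans v)
    refine (lintegral_congr fun p => ?_).trans_lt this.2
    rw [enorm_mul, ENNReal.rpow_two, sq]
  obtain ⟨c, b⟩ := a.2 3
  exact ⟨k a.1 b, k (a.1.comp measurable_neg) fun p => by simpa [rr] using b (-p)⟩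

theorem norm_toL (a : MemLp (fun c => ψ (mu c)) 2 Lam) :
    ‖toL ψ‖ = (nn ψ).toReal ^ (1 / 2 : ℝ) ∧ nn ψ ≠ ⊤ := by
  have e : eLpNorm (fun c => ψ (mu c)) 2 Lam = nn ψ ^ (1 / 2 : ℝ) := by
    rw [eLpNorm_eq_lintegral_rpow_enorm_toReal two_ne_zero ENNReal.ofNat_ne_top]
    simp [nn]
  refine ⟨by rw [toL, dif_pos a, Lp.norm_toLp, e, ENNReal.toReal_rpow], fun t => a.2.ne ?_⟩
  rw [e, t, ENNReal.top_rpow_of_pos one_half_pos]

end Cr

open Cr (sn sn_lt nn_ph) in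
/-- **the bound for the free field** -/
theorem ph_bd (a : Hs h) : ∃ C : ℝ, ∀ n ψ, Ms (fun _ : Unit => ψ) →
    MemLp (fun c => ψ (mu c)) 2 Lam → Le n ψ → ‖toL (ph h ψ)‖ ≤ C * √((n : ℝ) + 1) * ‖toL ψ‖ := by
  refine ⟨√(2 * (sn h + sn fun q => h (-q))).toReal, fun n ψ m i l => ?_⟩
  by_cases j : MemLp (fun c => ph h ψ (mu c)) 2 Lam
  swap
  · rw [toL, dif_neg j, norm_zero]
    positivity
  have f : 2 * (sn h + sn fun q => h (-q)) ≠ ⊤ :=
    ENNReal.mul_ne_top ENNReal.ofNat_ne_top (ENNReal.add_lt_top.2 (sn_lt a)).ne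
  have := ENNReal.toReal_mono (ENNReal.mul_ne_top (ENNReal.mul_ne_top f (by simp)) (Cr.norm_toL i).2)
    (nn_ph (fun n => (m n).comp (measurable_const (a := ()).prodMk measurable_id)) a.1 (sn_lt a).2.ne l)
  rw [(Cr.norm_toL i).1, (Cr.norm_toL j).1, ← Real.sqrt_eq_rpow, ← Real.sqrt_eq_rpow,
    ← Real.sqrt_mul ENNReal.toReal_nonneg, ← Real.sqrt_mul (by positivity)]
  refine Real.sqrt_le_sqrt (this.trans_eq ?_)
  rw [ENNReal.toReal_mul, ENNReal.toReal_mul (a := 2 * _), ENNReal.toReal_add (by simp) (by simp)]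
  simp

/-- the field `fil` of `Free` -/
theorem fil_of (hs : ∀ f, IsTest f → Hs (ft f)) (nice : ∀ ψ, Wd ψ → Nice ψ)
    (mem : ∀ ψ, Nice ψ → MemLp (fun c => ψ (mu c)) 2 Lam) (ex : ∀ v, ∃ ψ, Wd ψ ∧ mk ψ = v)
    (phm : ∀ f ψ, IsTest f → Wd ψ → Ph f (mk ψ) = mk (ph (ft f) ψ)) :
    ∃ P : ℕ → D → Prop, (∀ v, ∃ n, P n v) ∧ ∀ g, IsTest g →
      (∀ n v, P n v → P (n + 1) (Ph g v)) ∧
        ∃ C : ℝ, ∀ n v, P n v → ‖Ph g v‖ ≤ C * √((n : ℝ) + 1) * ‖v‖ := by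
  have e {ψ : Wf} (w : Wd ψ) : ‖mk ψ‖ = ‖toL ψ‖ := by
    rw [mk, dif_pos w]
    rfl
  refine ⟨fun n v => ∃ ψ, Wd ψ ∧ Le n ψ ∧ mk ψ = v, fun v => ?_, fun g hg => ⟨?_, ?_⟩⟩
  · obtain ⟨ψ, w, rfl⟩ := ex v
    exact w.le.imp fun n l => ⟨ψ, w, l, rfl⟩
  · rintro n _ ⟨ψ, w, l, rfl⟩
    exact ⟨_, w.ph hg, l.ph _, (phm g ψ hg w).symm⟩
  · refine (ph_bd (hs g hg)).imp fun C b => ?_
    rintro n _ ⟨ψ, w, l, rfl⟩
    rw [phm g ψ hg w, e w, e (w.ph hg)]
    exact b n ψ (nice ψ w).1 (mem ψ (nice ψ w)) l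

end

end Vale.Agent.P352W.Fk
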