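import Vale.Agent.P352W.Fk.Lin
import Vale.Agent.P352W.Fk.Bas
import Vale.Agent.P352W.Cn.Ft

/-!
# P352W FK — the fields are operator valued tempered distributions
-/

set_option autoImplicit false
set_option linter.all false

open MeasureTheory Filter Topology
open scoped ENNReal ComplexConjugate Classical Nat

namespace Vale.Agent.P352W.Fk.Ct

open Vale.Agent.P352.GF Vale.Agent.P352W.Cn

noncomputable section

theorem hb_ft (N : ℕ) : ∃ p : Sch → ℝ, Continuous p ∧ p 0 = 0 ∧ ∀ g, Hb N (p g) (ft (ev g)) := by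
  obtain ⟨q, h1, h2⟩ := Ft.ft_decay N
  refine ⟨fun g => q g * 2 ^ N, h1.mul continuous_const, by simp, fun g k => ?_⟩
  have e : rr k ^ N ≤ 2 ^ N * (1 + ‖k‖) ^ N := by
    rw [← mul_pow]
    exact pow_le_pow_left₀ (rr_pos k).le (by unfold rr; linarith [norm_nonneg k]) N
  have q0 := apply_nonneg q g
  refine (mul_le_mul (h2 g k) e (pow_pos (rr_pos k) N).le (by positivity)).trans_eq ?_
  field_simp

theorem tk_le (m n : Ix) (p q : V) : |tk m n p q| ≤ 6 * (‖p‖ * ‖q‖) := by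
  have h : ∀ a b, |p a * q b| ≤ ‖p‖ * ‖q‖ := fun a b => by
    rw [abs_mul]
    exact mul_le_mul (norm_le_pi_norm p a) (norm_le_pi_norm q b) (abs_nonneg _) (norm_nonneg _)
  have he : ∀ a, |eta a| = 1 := fun a => by unfold eta; split_ifs <;> simp
  have hb : |bas m (eta m) n| ≤ 1 := by unfold bas; split_ifs <;> simp [he]
  have hm : |mdot p q| ≤ 4 * (‖p‖ * ‖q‖) := by
    unfold mdot
    refine (Finset.abs_sum_le_sum_abs _ _).trans ((Finset.sum_le_card_nsmul _ _ (‖p‖ * ‖q‖)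
      fun a _ => ?_).trans (by simp))
    rw [mul_assoc, abs_mul, he, one_mul]
    exact h a a
  have h3 : |bas m (eta m) n * mdot p q| ≤ 4 * (‖p‖ * ‖q‖) := by
    rw [abs_mul]
    exact (mul_le_of_le_one_left (abs_nonneg _) hb).trans hm
  unfold tk
  refine (abs_sub _ _).trans ?_
  linarith [abs_add_le (p m * q n) (p n * q m), h m n, h n m]

theorem kb_kT (m n : Ix) (N : ℕ) :
    ∃ p : Sch → ℝ, Continuous p ∧ p 0 = 0 ∧ ∀ g, Kb N (p g) (kT m n (ev g)) := by
  obtain ⟨p, h1, h2, h3⟩ := hb_ft N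
  refine ⟨fun g => p g * (|(2 * (2 * Real.pi) ^ 3)⁻¹| * 6), h1.mul continuous_const, by simp [h2],
    fun g k l => ?_⟩
  have a : ∀ k : V, ‖k‖ ≤ rr k ^ 2 := fun k => by
    have := norm_nonneg k
    unfold rr; nlinarith
  have b : |tk m n k l| ≤ 6 * (rr k * rr l) ^ 2 := by
    refine (tk_le m n k l).trans (mul_le_mul_of_nonneg_left ?_ (by norm_num))
    rw [mul_pow]
    exact mul_le_mul (a k) (a l) (norm_nonneg _) (sq_nonneg _)
  have r := rr_pos (k + l)
  rw [kT, norm_mul, Complex.norm_real, Real.norm_eq_abs, abs_mul, abs_neg, mul_assoc]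
  refine (mul_le_mul (mul_le_mul_of_nonneg_left b (abs_nonneg _)) (h3 g (k + l)) (by positivity)
    (by positivity)).trans_eq ?_
  ring

variable {f : Fn} {ψ : Wf}

theorem hs_ft (hf : IsTest f) : Hs (ft f) := by
  refine ⟨Ft.meas_ft hf, fun N => ?_⟩
  obtain ⟨g, rfl⟩ := hf
  obtain ⟨p, -, -, h⟩ := hb_ft N
  exact ⟨_, h g⟩

theorem ks_kT (m n : Ix) (hf : IsTest f) : Ks (kT m n f) := by
  refine ⟨?_, fun N => ?_⟩
  · refine Measurable.mul (Complex.measurable_ofReal.comp (Continuous.measurable ?_))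
      ((Ft.meas_ft hf).comp measurable_add)
    have := continuous_mdot
    unfold tk
    fun_prop
  · obtain ⟨g, rfl⟩ := hf
    obtain ⟨p, -, -, h⟩ := kb_kT m n N
    exact ⟨_, h g⟩

theorem wd_nice (h : Wd ψ) : Nice ψ := by
  induction h with
  | vc => exact nice_vc
  | zero => exact nice_zero
  | add _ _ a b => exact a.add b
  | smul c _ a => exact a.smul c
  | ph hf _ a => exact nice_ph (hs_ft hf) a
  | qq m n hf _ a => exact nice_qq (ks_kT m n hf) a

theorem isD (v : D) : IsD v.1 := by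
  obtain ⟨v, hv⟩ := v
  induction hv using Submodule.span_induction with
  | mem x hx => exact hx
  | zero => exact ⟨0, .zero, toL_zero⟩
  | add x y _ _ a b =>
    obtain ⟨ψ, h1, h2⟩ := a
    obtain ⟨χ, h3, h4⟩ := b
    exact ⟨ψ + χ, h1.add h3, (toL_add (wd_nice h1) (wd_nice h3)).trans (congrArg₂ _ h2 h4)⟩
  | smul c x _ a =>
    obtain ⟨ψ, h1, h2⟩ := a
    exact ⟨c • ψ, h1.smul c, (toL_smul c (wd_nice h1)).trans (congrArg _ h2)⟩

theorem wd_rep (v : D) : Wd (rep v) := by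
  rw [rep, dif_pos (isD v)]
  exact (isD v).choose_spec.1

theorem toL_rep (v : D) : toL (rep v) = v.1 := by
  rw [rep, dif_pos (isD v)]
  exact (isD v).choose_spec.2

theorem mk_val (h : Wd ψ) : (mk ψ).1 = toL ψ := by rw [mk, dif_pos h]

/-- a linear family of wave functions with a continuous bound -/
theorem cont_of {A : Sch → Wf} (hA : ∀ g, Nice (A g)) (sub : ∀ g g', A g = A (g - g') + A g')
    {p : Sch → ℝ} (hp : Continuous p) (p0 : p 0 = 0) (bd : ∀ g, Bd 2 (p g) (A g)) :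
    Continuous fun g => toL (A g) := by
  obtain ⟨K, -, hK⟩ := norm_toL
  refine continuous_iff_continuousAt.2 fun g' => tendsto_iff_norm_sub_tendsto_zero.2 ?_
  have l : Tendsto (fun g => K * p (g - g')) (𝓝 g') (𝓝 0) := by
    have c : Continuous fun g => K * p (g - g') :=
      continuous_const.mul (hp.comp (continuous_sub_right g'))
    have := c.tendsto g'
    rwa [sub_self, p0, mul_zero] at this
  refine squeeze_zero (fun _ => norm_nonneg _) (fun g => ?_) l
  rw [sub g g', toL_add (hA _) (hA _), add_sub_cancel_right]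
  exact hK _ _ (hA _).1 (bd _)

theorem ft_split (g g' : Sch) (k : V) : ft (ev g) k = ft (ev (g - g')) k + ft (ev g') k := by
  rw [← Ft.ft_add ⟨_, rfl⟩ ⟨_, rfl⟩]
  congr 1
  funext x
  simp [ev]

theorem cont_ph (h : Nice ψ) : Continuous fun g => toL (ph (ft (ev g)) ψ) := by
  obtain ⟨p, h1, h2, h3⟩ := hb_ft (2 + 3)
  obtain ⟨C, hC⟩ := h.2 (2 + 3)
  refine cont_of (fun g => nice_ph (hs_ft ⟨g, rfl⟩) h) (fun g g' => ?_)
    (p := fun g => (1 + KK) * p g * C) (by fun_prop) (by simp [h2]) fun g => bd_ph' (h3 g) hC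
  rw [← add_ph (hs_ft ⟨_, rfl⟩) (hs_ft ⟨_, rfl⟩) h]
  exact congrArg (ph · ψ) (funext (ft_split g g'))

theorem cont_qq (m n : Ix) (h : Nice ψ) : Continuous fun g => toL (qq (kT m n (ev g)) ψ) := by
  obtain ⟨p, h1, h2, h3⟩ := kb_kT m n (2 * 2 + 10)
  obtain ⟨C, hC⟩ := h.2 (2 * 2 + 10)
  refine cont_of (fun g => nice_qq (ks_kT m n ⟨g, rfl⟩) h) (fun g g' => ?_)
    (p := fun g => (1 + 2 * KK + KK ^ 2) * p g * C) (by fun_prop) (by simp [h2])
    fun g => bd_qq' (h3 g) hC
  rw [← add_qq (ks_kT m n ⟨_, rfl⟩) (ks_kT m n ⟨_, rfl⟩) h]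
  refine congrArg (qq · ψ) (funext fun k => funext fun l => ?_)
  rw [kT, kT, kT, ft_split g g', mul_add]

theorem ph_val (hf : IsTest f) (v : D) : (Ph f v).1 = toL (ph (ft f) (rep v)) :=
  mk_val ((wd_rep v).ph hf)

theorem tm_val (m n : Ix) (hf : IsTest f) (v : D) : (Tm m n f v).1 = toL (qq (kT m n f) (rep v)) :=
  mk_val ((wd_rep v).qq m n hf)

theorem cont_Ph (v : D) : Continuous fun g => Ph (ev g) v :=
  continuous_induced_rng.2 ((cont_ph (wd_nice (wd_rep v))).congr fun g => (ph_val ⟨g, rfl⟩ v).symm)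

theorem cont_Tm (m n : Ix) (v : D) : Continuous fun g => Tm m n (ev g) v :=
  continuous_induced_rng.2
    ((cont_qq m n (wd_nice (wd_rep v))).congr fun g => (tm_val m n ⟨g, rfl⟩ v).symm)

/-- the clause `cont` -/
theorem cont (B : Fld D) (v : D) (h : B = Ph ∨ ∃ m n, B = Tm m n) :
    Continuous fun g => B (ev g) v := by
  rcases h with rfl | ⟨m, n, rfl⟩
  · exact cont_Ph v
  · exact cont_Tm m n v

/-- the clause `lin` -/
theorem lin (B : Fld D) (f g : Fn) (c : ℂ) (v : D) (h : B = Ph ∨ ∃ m n, B = Tm m n) (hf : IsTest f)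
    (hg : IsTest g) : B (fun x => f x + c * g x) v = B f v + c • B g v := by
  have n := wd_nice (wd_rep v)
  have t := Ft.test_add hf (Ft.test_cmul c hg)
  refine Subtype.ext ?_
  rcases h with rfl | ⟨m, k, rfl⟩
  · rw [Submodule.coe_add, Submodule.coe_smul, ph_val t, ph_val hf, ph_val hg,
      ← toL_smul c (nice_ph (hs_ft hg) n), ← mul_ph,
      ← toL_add (nice_ph (hs_ft hf) n) (nice_ph ((hs_ft hg).mul c) n),
      ← add_ph (hs_ft hf) ((hs_ft hg).mul c) n, funext (Ft.ft_lin hf hg c)]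
  · rw [Submodule.coe_add, Submodule.coe_smul, tm_val m k t, tm_val m k hf, tm_val m k hg,
      ← toL_smul c (nice_qq (ks_kT m k hg) n), ← mul_qq,
      ← toL_add (nice_qq (ks_kT m k hf) n) (nice_qq ((ks_kT m k hg).mul c) n),
      ← add_qq (ks_kT m k hf) ((ks_kT m k hg).mul c) n]
    refine congrArg (fun κ => toL (qq κ (rep v))) (funext fun p => funext fun q => ?_)
    rw [kT, kT, kT, Ft.ft_lin hf hg c]
    ring

end

end Vale.Agent.P352W.Fk.Ct
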