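import Vale.Agent.P352W.Fk.Adj
import Vale.Agent.P352W.Fk.Cont
import Vale.Agent.P352W.Cn.Pj

/-! # The fields on the domain: adjoints, action on words, locality of the free field -/

set_option autoImplicit false
set_option linter.all false

open MeasureTheory
open scoped Classical ComplexConjugate

noncomputable section

namespace Vale.Agent.P352W.Fk.Hm

open Vale.Agent.P352.GF Vale.Agent.P352W.Cn Ct

variable {ψ χ : Wf} {f g : Fn}

theorem mk_rep (v : D) : mk (rep v) = v := Subtype.ext ((mk_val (wd_rep v)).trans (toL_rep v))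

theorem ex_mk (v : D) : ∃ ψ, Wd ψ ∧ mk ψ = v := ⟨_, wd_rep v, mk_rep v⟩

theorem inner_mk (a : Wd ψ) (b : Wd χ) : inner ℂ (mk ψ) (mk χ) = ip ψ χ := by
  rw [Submodule.coe_inner, mk_val a, mk_val b, inner_toL (wd_nice a) (wd_nice b)]

theorem mk_add (a : Wd ψ) (b : Wd χ) : mk (ψ + χ) = mk ψ + mk χ :=
  Subtype.ext (by
    rw [Submodule.coe_add, mk_val (a.add b), mk_val a, mk_val b, toL_add (wd_nice a) (wd_nice b)])

theorem mk_smul (c : ℂ) (a : Wd ψ) : mk (c • ψ) = c • mk ψ :=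
  Subtype.ext (by rw [Submodule.coe_smul, mk_val (a.smul c), mk_val a, toL_smul c (wd_nice a)])

theorem mk_zero : mk 0 = 0 := Subtype.ext ((mk_val .zero).trans toL_zero)

theorem wd_sub (a : Wd ψ) (b : Wd χ) : Wd (ψ - χ) := by
  have := a.add (b.smul (-1))
  rwa [neg_one_smul, ← sub_eq_add_neg] at this

theorem mk_sub (a : Wd ψ) (b : Wd χ) : mk (ψ - χ) = mk ψ - mk χ :=
  Subtype.ext (by
    rw [Submodule.coe_sub, mk_val (wd_sub a b), mk_val a, mk_val b,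
      toL_sub (wd_nice a) (wd_nice b)])

/-- operators with a formal adjoint descend to the domain -/
theorem op_mk {A B : Wf → Wf} (hA : ∀ ψ, Wd ψ → Wd (A ψ)) (hB : ∀ ψ, Wd ψ → Wd (B ψ))
    (ad : ∀ ψ χ, Wd ψ → Wd χ → ip (A ψ) χ = ip ψ (B χ)) (a : Wd ψ) : op A (mk ψ) = mk (A ψ) := by
  refine ext_inner_right ℂ fun w => ?_
  obtain ⟨χ, b, rfl⟩ := ex_mk w
  have r := wd_rep (mk ψ)
  rw [op, inner_mk (hA _ r) b, inner_mk (hA _ a) b, ad _ _ r b, ad _ _ a b,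
    ← inner_mk r (hB _ b), ← inner_mk a (hB _ b), mk_rep]

theorem ft_conj (f : Fn) : (fun p => conj (ft f (-p))) = ft (bar f) :=
  funext fun p => (Ft.ft_bar f p).symm

theorem kT_conj (m n : Ix) (f : Fn) :
    (fun p q => conj (kT m n f (-p) (-q))) = kT m n (bar f) := by
  funext p q
  have e : tk m n (-p) (-q) = tk m n p q := by
    simp only [tk, Pi.neg_apply, neg_mul_neg, mdot, mul_neg, neg_mul, neg_neg]
  rw [kT, kT, map_mul, Complex.conj_ofReal, Ft.ft_bar, e, neg_add]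

theorem ip_Ph (hf : IsTest f) (a : Wd ψ) (b : Wd χ) :
    ip (ph (ft f) ψ) χ = ip ψ (ph (ft (bar f)) χ) := by
  rw [ip_ph (hs_ft hf) (wd_nice a) (wd_nice b), ft_conj]

theorem ip_Tm (m n : Ix) (hf : IsTest f) (a : Wd ψ) (b : Wd χ) :
    ip (qq (kT m n f) ψ) χ = ip ψ (qq (kT m n (bar f)) χ) := by
  rw [ip_qq (ks_kT m n hf) (wd_nice a) (wd_nice b), kT_conj]

theorem Ph_mk (hf : IsTest f) (a : Wd ψ) : Ph f (mk ψ) = mk (ph (ft f) ψ) :=
  op_mk (fun _ h => h.ph hf) (fun _ h => h.ph (Ft.test_bar hf)) (fun _ _ => ip_Ph hf) a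

theorem Tm_mk (m n : Ix) (hf : IsTest f) (a : Wd ψ) : Tm m n f (mk ψ) = mk (qq (kT m n f) ψ) :=
  op_mk (fun _ h => h.qq m n hf) (fun _ h => h.qq m n (Ft.test_bar hf))
    (fun _ _ => ip_Tm m n hf) a

theorem herm (B : Fld D) (f : Fn) (v w : D) (h : B = Ph ∨ ∃ m n, B = Tm m n) (hf : IsTest f) :
    inner ℂ (B f v) w = inner ℂ v (B (bar f) w) := by
  obtain ⟨ψ, a, rfl⟩ := ex_mk v
  obtain ⟨χ, b, rfl⟩ := ex_mk w
  have hb := Ft.test_bar hf
  rcases h with rfl | ⟨m, n, rfl⟩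
  · rw [Ph_mk hf a, Ph_mk hb b, inner_mk (a.ph hf) b, inner_mk a (b.ph hb), ip_Ph hf a b]
  · rw [Tm_mk m n hf a, Tm_mk m n hb b, inner_mk (a.qq m n hf) b, inner_mk a (b.qq m n hb),
      ip_Tm m n hf a b]

/-- the commutator of the free field is a number -/
theorem comm (hf : IsTest f) (hg : IsTest g) (v : D) : Ph f (Ph g v) - Ph g (Ph f v) =
    ((∫ q, ft f (-q) * ft g q ∂Om) - ∫ q, ft g (-q) * ft f q ∂Om) • v := by
  obtain ⟨ψ, a, rfl⟩ := ex_mk v
  rw [Ph_mk hf a, Ph_mk hg a, Ph_mk hf (a.ph hg), Ph_mk hg (a.ph hf),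
    ← mk_sub ((a.ph hg).ph hf) ((a.ph hf).ph hg), ph_comm (hs_ft hf) (hs_ft hg) (wd_nice a),
    mk_smul _ a]

theorem loc0 (f g : Fn) (v : D) (hf : IsTest f) (hg : IsTest g) (h : Sep f g) :
    Ph f (Ph g v) = Ph g (Ph f v) := by
  rw [← sub_eq_zero, comm hf hg, pj' hf hg h, sub_self, zero_smul]

theorem gen (S : Submodule ℂ D) (h0 : Ω ∈ S)
    (h : ∀ B f v, (B = Ph ∨ ∃ m n, B = Tm m n) → IsTest f → v ∈ S → B f v ∈ S) (v : D) :
    v ∈ S := by
  obtain ⟨ψ, a, rfl⟩ := ex_mk v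
  induction a with
  | vc => exact h0
  | zero => rw [mk_zero]; exact S.zero_mem
  | add a b i j => rw [mk_add a b]; exact S.add_mem i j
  | smul c a i => rw [mk_smul c a]; exact S.smul_mem c i
  | ph hf a i => rw [← Ph_mk hf a]; exact h _ _ _ (.inl rfl) hf i
  | qq m n hf a i => rw [← Tm_mk m n hf a]; exact h _ _ _ (.inr ⟨m, n, rfl⟩) hf i

theorem ip_vc (n : Nice ψ) : ip vc ψ = ψ 0 := by
  have s := lam_sum (G := fun σ => conj (vc σ) * ψ σ) (nice_vc.conj.mul n).int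
  refine s.unique ?_
  have := hasSum_single (f := fun n : ℕ => (n.factorial : ℂ)⁻¹ *
    ∫ x : Fin n → V, conj (vc (ms x)) * ψ (ms x) ∂Mec.pw n) 0 fun k hk => by
      have : ∀ x : Fin k → V, vc (ms x) = 0 := fun x => if_neg fun e => hk (by
        rw [← card_ms x, e, Multiset.card_zero])
      simp [this]
  simpa [ms_zero, vc, Measure.real, Mec.pw] using this

theorem norm_vac : ‖Ω‖ = 1 := by
  have h : inner ℂ Ω Ω = 1 := by
    rw [Ω, inner_mk .vc .vc, ip_vc nice_vc, vc, if_pos rfl]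
  have h2 : ‖Ω‖ ^ 2 = 1 := by
    have := (inner_self_eq_norm_sq (𝕜 := ℂ) Ω).symm
    rwa [h, RCLike.one_re] at this
  exact (pow_eq_one_iff_of_nonneg (norm_nonneg _) two_ne_zero).1 h2

end Vale.Agent.P352W.Fk.Hm
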