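import Vale.Agent.P352W.Fk.Bas
import Vale.Agent.P352W.Fk.Lin
import Vale.Agent.P352W.Kr.Ker
import Vale.Agent.P352W.Cn.Inv
import Vale.Agent.P352X.Api3d

/-!
# P352W FK — covariance of the fields, on wave functions
-/

set_option linter.all false

open MeasureTheory Filter Topology
open scoped Classical

namespace Vale.Agent.P352W.Fk.Cov

open Vale.Agent.P352.GF Vale.Agent.P352W.Cn
open Vale.Agent.P352.H246 (linv isLor_linv)
open Vale.Agent.P352.H496 (IsNull)

noncomputable section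

/-- the factor of one particle -/
def ee (s : ℝ) (a p : V) : ℂ := (s : ℂ) * Complex.exp (Complex.I * mdot p a)

/-- the map of the momenta -/
def tt (s : ℝ) (L : Ix → V) : V → V := sim s (linv L) 0

variable {s : ℝ} {L : Ix → V} {a : V}

theorem gm_eq (ψ : Wf) (σ : Multiset V) :
    gm s L a ψ σ = (σ.map (ee s a)).prod * ψ (σ.map (tt s L)) := rfl

theorem linv_eq (L : Ix → V) : linv L = li L := by
  funext m n
  simp only [linv, li]
  ring

theorem sim_add (s : ℝ) (L : Ix → V) (p q : V) :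
    sim s L 0 (p + q) = sim s L 0 p + sim s L 0 q := by
  funext n
  simp only [sim, Pi.add_apply, Pi.zero_apply, zero_add, add_mul, Finset.sum_add_distrib, mul_add]

theorem sim_neg (s : ℝ) (L : Ix → V) (p : V) : sim s L 0 (-p) = -sim s L 0 p := by
  funext n
  simp only [sim, Pi.neg_apply, Pi.zero_apply, zero_add, neg_mul, Finset.sum_neg_distrib, mul_neg]

theorem sim_smul (s : ℝ) (L : Ix → V) (p : V) : sim s L 0 p = s • sim 1 L 0 p := by
  funext n
  simp only [sim, Pi.smul_apply, Pi.zero_apply, zero_add, one_mul, smul_eq_mul]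

theorem sim_aff (s : ℝ) (L : Ix → V) (a p : V) : sim s L a p = a + sim s L 0 p := by
  funext n
  simp only [sim, Pi.add_apply, Pi.zero_apply, zero_add]

theorem ee_mul_neg (s : ℝ) (a p : V) : ee s a (-p) * ee s a p = (s : ℂ) ^ 2 := by
  have h : mdot (-p) a = -mdot p a := by
    simp only [mdot, Pi.neg_apply, mul_neg, neg_mul, Finset.sum_neg_distrib]
  rw [ee, ee, h, mul_mul_mul_comm, ← Complex.exp_add]
  push_cast
  rw [mul_neg, neg_add_cancel, Complex.exp_zero, mul_one, sq]

theorem null_sim (hs : 0 < s) (hL : IsLor L) {p : V} (h : IsNull p) : IsNull (sim s L 0 p) := by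
  refine ⟨by rw [mdot_sim hL, h.1, mul_zero], ?_⟩
  have h1 := cn_sp h.2.le h.1
  rw [← h1]
  refine sim_cn_pos hL hs fun h0 => ?_
  have h2 := h.2
  rw [← h1, cn_o, h0, norm_zero] at h2
  exact lt_irrefl _ h2

theorem ci_sim (hs : 0 < s) (hL : IsLor L) (p : V) : ci (sim s L 0 p) = ci p := by
  have h : IsNull (sim s L 0 p) ↔ IsNull p := ⟨fun h => by
    have := null_sim (inv_pos.2 hs) (isLor_li hL) h
    rwa [li_sim hL hs.ne'] at this, null_sim hs hL⟩
  unfold ci
  rw [h]

theorem gm_add (ψ χ : Wf) : gm s L a (ψ + χ) = gm s L a ψ + gm s L a χ := by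
  funext σ
  simp only [gm_eq, Pi.add_apply, mul_add]

theorem gm_smul (c : ℂ) (ψ : Wf) : gm s L a (c • ψ) = c • gm s L a ψ := by
  funext σ
  simp only [gm_eq, Pi.smul_apply, smul_eq_mul, mul_left_comm]

theorem gm_zero : gm s L a 0 = 0 := by
  funext σ
  simp only [gm_eq, Pi.zero_apply, mul_zero]

theorem gm_sum {ι : Type*} (t : Finset ι) (ψ : ι → Wf) :
    gm s L a (∑ k ∈ t, ψ k) = ∑ k ∈ t, gm s L a (ψ k) := by
  funext σ
  simp only [gm_eq, Finset.sum_apply, Finset.mul_sum]

theorem gm_vc : gm s L a vc = vc := by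
  funext σ
  rw [gm_eq]
  unfold vc
  by_cases h : σ = 0
  · simp [h]
  · simp [h]

theorem ph_smul (c : ℂ) (h : V → ℂ) (ψ : Wf) : ph (fun p => c * h p) ψ = c • ph h ψ := by
  funext σ
  simp only [ph, dv, it, Pi.add_apply, Pi.smul_apply, smul_eq_mul, mul_add, mul_assoc,
    ← Multiset.sum_map_mul_left, ← integral_const_mul, mul_left_comm]

section

variable (hs : 0 < s) (hL : IsLor L)
include hs hL

theorem tt_inj : Function.Injective (tt s L) := (simH hs (isLor_linv hL)).injective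

theorem dv_gm {F F' : V → Wf} (h : ∀ p, F p = ee s a p • gm s L a (F' (tt s L p))) :
    dv F = gm s L a (dv F') := by
  funext σ
  rw [gm_eq]
  unfold dv
  rw [Multiset.map_map, ← Multiset.sum_map_mul_left]
  refine congrArg _ (Multiset.map_congr rfl fun p hp => ?_)
  rw [h, Pi.smul_apply, gm_eq, Function.comp_apply, ← Multiset.map_erase _ (tt_inj hs hL),
    smul_eq_mul, ← mul_assoc, ← Multiset.prod_cons, ← Multiset.map_cons, Multiset.cons_erase hp]

theorem it_gm {F F' : V → Wf} (h : ∀ q, F q = ee s a (-q) • gm s L a (F' (tt s L q))) :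
    it F = gm s L a (it F') := by
  funext σ
  rw [gm_eq]
  unfold it
  have h1 := integral_sim hs (isLor_linv hL) fun q => F' q (q ::ₘ σ.map (tt s L))
  have h2 : ∀ q, F q (q ::ₘ σ) = ((σ.map (ee s a)).prod * (s : ℂ) ^ 2) *
      F' (sim s (linv L) 0 q) (sim s (linv L) 0 q ::ₘ σ.map (tt s L)) := fun q => by
    rw [h, Pi.smul_apply, gm_eq, Multiset.map_cons, Multiset.map_cons, Multiset.prod_cons,
      smul_eq_mul, ← mul_assoc, ← mul_assoc, ee_mul_neg, mul_comm ((s : ℂ) ^ 2)]
    rfl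
  simp only [h2]
  rw [integral_const_mul, h1, Complex.real_smul]
  have h3 : (s : ℂ) ≠ 0 := Complex.ofReal_ne_zero.2 hs.ne'
  push_cast
  field_simp

theorem ci_tt (p : V) : ci (tt s L p) = ci p := ci_sim hs (isLor_linv hL) p

omit hs hL in
theorem tt_neg (p : V) : tt s L (-p) = -tt s L p := sim_neg _ _ p

theorem ph_gm {h h' : V → ℂ} (e : ∀ p, h p = ee s a p * h' (tt s L p)) (ψ : Wf) :
    ph h (gm s L a ψ) = gm s L a (ph h' ψ) := by
  unfold ph
  rw [gm_add]
  congr 1
  · refine dv_gm hs hL fun p => ?_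
    rw [gm_smul, smul_smul, e, ci_tt hs hL, mul_left_comm]
  · refine it_gm hs hL fun q => ?_
    rw [gm_smul, smul_smul, e, tt_neg]

theorem qq_gm {κ κ' : V → V → ℂ}
    (e : ∀ p q, κ p q = ee s a p * ee s a q * κ' (tt s L p) (tt s L q)) (ψ : Wf) :
    qq κ (gm s L a ψ) = gm s L a (qq κ' ψ) := by
  have hd : ∀ (c : ℂ) (F : V → Wf), c • dv F = dv fun p => c • F p := fun c F => by
    funext σ
    simp only [dv, Pi.smul_apply, smul_eq_mul, Multiset.sum_map_mul_left]
  have hi : ∀ (c : ℂ) (F : V → Wf), c • it F = it fun p => c • F p := fun c F => by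
    funext σ
    simp only [it, Pi.smul_apply, smul_eq_mul, integral_const_mul]
  unfold qq
  rw [gm_add, gm_add]
  congr 1
  congr 1
  · refine dv_gm hs hL fun p => ?_
    rw [← gm_smul, hd]
    refine dv_gm hs hL fun q => ?_
    rw [gm_smul, gm_smul, smul_smul, smul_smul, e, ci_tt hs hL, ci_tt hs hL]
    congr 1
    ring
  · refine dv_gm hs hL fun p => ?_
    rw [← gm_smul, hi]
    refine it_gm hs hL fun q => ?_
    rw [gm_smul, gm_smul, smul_smul, smul_smul, e, e, ci_tt hs hL, tt_neg]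
    congr 1
    ring
  · refine it_gm hs hL fun p => ?_
    rw [← gm_smul, hi]
    refine it_gm hs hL fun q => ?_
    rw [gm_smul, gm_smul, smul_smul, smul_smul, e, tt_neg, tt_neg]
    congr 1
    ring

omit hs in
theorem sim_tt (p : V) : sim 1 L 0 (sim 1 (linv L) 0 p) = p := by
  have h := sim_li hL one_ne_zero p
  rwa [inv_one, ← linv_eq] at h

/-- the Fourier transform of the transformed test function -/
theorem ft_tt (f : Fn) (p : V) : ft f p = (s : ℂ) ^ 4 * Complex.exp (Complex.I * mdot p a) *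
    ft (fun x => f (sim s L a x)) (tt s L p) := by
  have h := P352X.ft_sim hs hL f a (sim 1 (linv L) 0 p)
  rw [← sim_smul, sim_tt hL] at h
  have h1 : ft (fun x => f (sim s L a x)) (tt s L p) = _ := h
  have h3 : (s : ℂ) ≠ 0 := Complex.ofReal_ne_zero.2 hs.ne'
  have h4 : P352X.ft f p = ft f p := rfl
  rw [h1, h4, Complex.exp_neg]
  have h5 := Complex.exp_ne_zero (Complex.I * mdot p a)
  push_cast
  field_simp

/-- **covariance of the free field** -/
theorem cov_ph (f : Fn) (ψ : Wf) : ph (ft f) (gm s L a ψ) =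
    ((s ^ 3 : ℝ) : ℂ) • gm s L a (ph (ft fun x => f (sim s L a x)) ψ) := by
  rw [← gm_smul, ← ph_smul]
  refine ph_gm hs hL (fun p => ?_) ψ
  rw [ft_tt hs hL (a := a) f p, ee]
  push_cast
  ring

theorem tk_tt (m n : Ix) (p q : V) :
    ∑ k, ∑ l, L k m * L l n * tk k l (tt s L p) (tt s L q) = s ^ 2 * tk m n p q := by
  have h1 : ∀ (p : V) m, ∑ k, tt s L p k * L k m = s * p m := fun p m => by
    have h := congrFun (sim_tt hL p) m
    rw [tt, sim_smul, ← h]
    simp only [sim, Pi.zero_apply, zero_add, one_mul, Pi.smul_apply, smul_eq_mul, mul_assoc]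
    rw [Finset.mul_sum]
  have h2 : ∑ k, ∑ l, L k m * L l n * bas k (eta k) l = bas m (eta m) n := by
    rw [← col hL]
    refine Finset.sum_congr rfl fun k _ => ?_
    rw [Finset.sum_eq_single k]
    · simp only [bas, if_true]
      ring
    · intro l _ hl
      simp [bas, hl]
    · simp
  have h3 : mdot (tt s L p) (tt s L q) = s ^ 2 * mdot p q := mdot_sim (isLor_linv hL) s p q
  have h4 : ∑ k, ∑ l, L k m * L l n * tk k l (tt s L p) (tt s L q) =
      (∑ k, tt s L p k * L k m) * (∑ l, tt s L q l * L l n) +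
      (∑ k, tt s L q k * L k m) * (∑ l, tt s L p l * L l n) -
      (∑ k, ∑ l, L k m * L l n * bas k (eta k) l) * mdot (tt s L p) (tt s L q) := by
    rw [Finset.sum_mul_sum, Finset.sum_mul_sum]
    simp only [Finset.sum_mul, ← Finset.sum_add_distrib, ← Finset.sum_sub_distrib]
    refine Finset.sum_congr rfl fun k _ => Finset.sum_congr rfl fun l _ => ?_
    rw [tk]
    ring
  rw [h4, h1, h1, h1, h1, h2, h3, tk]
  ring

theorem kT_tt (m n : Ix) (f : Fn) (p q : V) : kT m n f p q = ee s a p * ee s a q *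
    ∑ k, ∑ l, (L k m * L l n : ℂ) * kT k l (fun x => f (sim s L a x)) (tt s L p) (tt s L q) := by
  have h1 : tt s L p + tt s L q = tt s L (p + q) := (sim_add _ _ p q).symm
  have h2 : mdot (p + q) a = mdot p a + mdot q a := by
    simp only [mdot, Pi.add_apply, mul_add, add_mul, Finset.sum_add_distrib]
  have h3 : ∑ k, ∑ l, (L k m * L l n : ℂ) *
      kT k l (fun x => f (sim s L a x)) (tt s L p) (tt s L q) =
      ((-(2 * (2 * Real.pi) ^ 3)⁻¹ *
        ∑ k, ∑ l, L k m * L l n * tk k l (tt s L p) (tt s L q) : ℝ) : ℂ) *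
        ft (fun x => f (sim s L a x)) (tt s L (p + q)) := by
    simp only [kT, h1]
    push_cast
    simp only [Finset.mul_sum, Finset.sum_mul]
    refine Finset.sum_congr rfl fun k _ => Finset.sum_congr rfl fun l _ => ?_
    ring
  rw [h3, tk_tt hs hL, kT, ft_tt hs hL (a := a) f (p + q), h2, ee, ee]
  push_cast
  rw [mul_add, Complex.exp_add]
  ring

/-- **covariance of the stress tensor** -/
theorem cov_qq (m n : Ix) (f : Fn) (ψ : Wf) : qq (kT m n f) (gm s L a ψ) =
    gm s L a (qq (fun p q => ∑ k, ∑ l, (L k m * L l n : ℂ) *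
      kT k l (fun x => f (sim s L a x)) p q) ψ) :=
  qq_gm hs hL (kT_tt hs hL m n f) ψ

theorem test_sim (a : V) {f : Fn} (hf : IsTest f) : IsTest fun x => f (sim s L a x) := by
  obtain ⟨F, rfl⟩ := P352.exists_fl hf
  rw [P352.fl_sim s hs hL]
  exact P352.isTest_fl _

omit hs hL in
theorem wd_nice {ψ : Wf} (h : Wd ψ) : Nice ψ := by
  induction h with
  | vc => exact nice_vc
  | zero => exact nice_zero
  | add _ _ h h' => exact h.add h'
  | smul c _ h => exact h.smul c
  | ph hf _ h => exact nice_ph (Kr.hs_ft hf) h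
  | qq m n hf _ h => exact nice_qq (Kr.ks_kT _ _ hf) h

omit hs hL in
theorem sum_qq {ι : Type*} (t : Finset ι) {κ : ι → V → V → ℂ} (hκ : ∀ i, Ks (κ i)) {ψ : Wf}
    (hψ : Nice ψ) : Ks (fun p q => ∑ i ∈ t, κ i p q) ∧
      qq (fun p q => ∑ i ∈ t, κ i p q) ψ = ∑ i ∈ t, qq (κ i) ψ := by
  induction t using Finset.induction_on with
  | empty =>
    refine ⟨⟨by simpa using measurable_const, fun N => ⟨0, fun p q => by simp⟩⟩, ?_⟩
    have h := mul_qq 0 (fun _ _ => 0) ψ
    simpa using h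
  | insert k t hk ih =>
    simp only [Finset.sum_insert hk]
    exact ⟨(hκ k).add ih.1, by rw [add_qq (hκ k) ih.1 hψ, ih.2]⟩

omit hs hL in
theorem sum_kT (c : Ix → Ix → ℂ) {f : Fn} (hf : IsTest f) {ψ : Wf} (hψ : Nice ψ) :
    qq (fun p q => ∑ k, ∑ l, c k l * kT k l f p q) ψ = ∑ k, ∑ l, c k l • qq (kT k l f) ψ := by
  have h := fun k => sum_qq Finset.univ (κ := fun l p q => c k l * kT k l f p q)
    (fun l => (Kr.ks_kT _ _ hf).mul _) hψ
  rw [(sum_qq Finset.univ (fun k => (h k).1) hψ).2]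
  refine Finset.sum_congr rfl fun k _ => ?_
  rw [(h k).2]
  exact Finset.sum_congr rfl fun l _ => mul_qq _ _ _

/-- **covariance of the stress tensor**, summed form -/
theorem cov_T (m n : Ix) {f : Fn} (hf : IsTest f) {ψ : Wf} (hψ : Nice ψ) :
    qq (kT m n f) (gm s L a ψ) = ∑ k, ∑ l, (L k m * L l n : ℂ) •
      gm s L a (qq (kT k l fun x => f (sim s L a x)) ψ) := by
  rw [cov_qq hs hL, sum_kT _ (test_sim hs hL a hf) hψ]
  simp only [gm_sum, gm_smul]

/-- every test function is a transformed test function -/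
theorem ex_test (a : V) {f : Fn} (hf : IsTest f) :
    ∃ g, IsTest g ∧ (fun x => g (sim s L a x)) = f := by
  refine ⟨fun y => f (sim s⁻¹ (li L) (sim s⁻¹ (li L) 0 (-a)) y),
    test_sim (inv_pos.2 hs) (isLor_li hL) _ hf, funext fun x => ?_⟩
  show f _ = f x
  rw [sim_aff s⁻¹ (li L) (sim s⁻¹ (li L) 0 (-a)), ← sim_add, sim_aff s L a, neg_add_cancel_left,
    li_sim hL hs.ne']

theorem gm_ph (f : Fn) (ψ : Wf) : gm s L a (ph (ft fun x => f (sim s L a x)) ψ) =
    ((s ^ 3 : ℝ) : ℂ)⁻¹ • ph (ft f) (gm s L a ψ) := by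
  rw [cov_ph hs hL, smul_smul, inv_mul_cancel₀ (Complex.ofReal_ne_zero.2 (pow_pos hs 3).ne'),
    one_smul]

omit hs in
theorem inv_tk (m n : Ix) (p q : V) : ∑ k, ∑ l, li L k m * li L l n *
    ∑ i, ∑ j, L i k * L j l * tk i j p q = tk m n p q := by
  have h1 : ∀ i m, ∑ k, L i k * li L k m = if i = m then 1 else 0 := fun i m => by
    have h := congrFun (congrFun (mul_li hL) i) m
    simpa only [Matrix.mul_apply, Matrix.of_apply, Matrix.one_apply] using h
  have h2 : ∑ k, ∑ l, li L k m * li L l n * ∑ i, ∑ j, L i k * L j l * tk i j p q =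
      ∑ i, ∑ j, (∑ k, L i k * li L k m) * (∑ l, L j l * li L l n) * tk i j p q := by
    simp only [Finset.mul_sum, Finset.sum_mul]
    rw [Finset.sum_comm' (t' := Finset.univ) (s' := fun _ => Finset.univ) (by simp)]
    simp only [Fin.sum_univ_four]
    ring
  rw [h2]
  simp [h1]

theorem gm_qq (m n : Ix) {f : Fn} (hf : IsTest f) {ψ : Wf} (hψ : Nice (gm s L a ψ)) :
    gm s L a (qq (kT m n fun x => f (sim s L a x)) ψ) =
      ∑ k, ∑ l, ((li L k m * li L l n : ℝ) : ℂ) • qq (kT k l f) (gm s L a ψ) := by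
  rw [← sum_kT _ hf hψ]
  refine (qq_gm hs hL (fun p q => ?_) ψ).symm
  have h := inv_tk hL m n (tt s L p) (tt s L q)
  simp only [kT_tt hs hL (a := a) _ _ f p q]
  simp only [kT]
  rw [← h]
  push_cast
  simp only [Finset.mul_sum, Finset.sum_mul]
  refine Finset.sum_congr rfl fun k _ => Finset.sum_congr rfl fun l _ =>
    Finset.sum_congr rfl fun i _ => Finset.sum_congr rfl fun j _ => ?_
  ring

omit hs hL in
theorem wd_sum {ι : Type*} (t : Finset ι) {ψ : ι → Wf} (h : ∀ i, Wd (ψ i)) :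
    Wd (∑ i ∈ t, ψ i) := by
  induction t using Finset.induction_on with
  | empty => exact Wd.zero
  | insert k t hk ih =>
    rw [Finset.sum_insert hk]
    exact (h k).add ih

/-- **the similitudes act on the words** -/
theorem wd_gm {ψ : Wf} (h : Wd ψ) : Wd (gm s L a ψ) := by
  induction h with
  | vc => rw [gm_vc]; exact Wd.vc
  | zero => rw [gm_zero]; exact Wd.zero
  | add _ _ h h' => rw [gm_add]; exact h.add h'
  | smul c _ h => rw [gm_smul]; exact h.smul c
  | ph hf _ h =>
    obtain ⟨g, hg, rfl⟩ := ex_test hs hL a hf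
    rw [gm_ph hs hL]
    exact (Wd.ph hg h).smul _
  | qq m n hf _ h =>
    obtain ⟨g, hg, rfl⟩ := ex_test hs hL a hf
    rw [gm_qq hs hL m n hg (wd_nice h)]
    exact wd_sum _ fun k => wd_sum _ fun l => (Wd.qq k l hg h).smul _

end

end

end Vale.Agent.P352W.Fk.Cov
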