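import Vale.Agent.P352W.Cn.Defs
import Vale.Agent.P352.H246.Vec
import Vale.Agent.P352.H496.Defs
import Mathlib.MeasureTheory.Integral.Pi
import Mathlib.MeasureTheory.Function.L2Space

/-!
# P352W FK — the Fock space of the free massless scalar field (wave functions on multisets)
-/

set_option linter.all false

open MeasureTheory Filter Topology
open scoped ENNReal ComplexConjugate Classical Nat

namespace Vale.Agent.P352W.Fk

open Vale.Agent.P352.GF Vale.Agent.P352W.Cn
open Vale.Agent.P352.H246 (linv)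
open Vale.Agent.P352.H496 (IsNull)

noncomputable section

/-- wave functions -/
abbrev Wf := Multiset V → ℂ

/-- the multiset of a tuple -/
def ms {n : ℕ} (x : Fin n → V) : Multiset V := ∑ i, {x i}

/-- the size of a momentum -/
def rr (p : V) : ℝ := 2 + ‖p‖

/-- the size of a configuration -/
def wt (σ : Multiset V) : ℝ := (σ.map rr).prod

/-- measurable families of wave functions -/
def Ms {α : Type} [MeasurableSpace α] (F : α → Wf) : Prop :=
  ∀ n, Measurable fun z : α × (Fin n → V) => F z.1 (ms z.2)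

/-- the seminorm number `N` of `ψ` is at most `C` -/
def Bd (N : ℕ) (C : ℝ) (ψ : Wf) : Prop := ∀ σ, ‖ψ σ‖ * wt σ ^ N ≤ C

/-- at most `n` particles -/
def Le (n : ℕ) (ψ : Wf) : Prop := ∀ σ, n < Multiset.card σ → ψ σ = 0

/-- creation -/
def dv (F : V → Wf) : Wf := fun σ => (σ.map fun p => F p (σ.erase p)).sum

/-- annihilation -/
def it (F : V → Wf) : Wf := fun σ => ∫ q, F q (q ::ₘ σ) ∂Om

/-- the indicator function of the forward light cone -/
def ci (p : V) : ℂ := if IsNull p then 1 else 0

/-- the field with symbol `h` -/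
def ph (h : V → ℂ) (ψ : Wf) : Wf :=
  dv (fun p => (ci p * h p) • ψ) + it fun q => h (-q) • ψ

/-- the normal ordered quadratic field with symbol `κ` -/
def qq (κ : V → V → ℂ) (ψ : Wf) : Wf :=
  dv (fun p => dv fun p' => (ci p * ci p' * κ p p') • ψ) +
    dv (fun p => it fun q => (ci p * (κ p (-q) + κ (-q) p)) • ψ) +
    it fun q => it fun q' => κ (-q) (-q') • ψ

/-- the similitudes -/
def gm (s : ℝ) (L : Ix → V) (a : V) (ψ : Wf) : Wf := fun σ =>
  (σ.map fun p => (s : ℂ) * Complex.exp (Complex.I * mdot p a)).prod *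
    ψ (σ.map (sim s (linv L) 0))

/-- the vacuum -/
def vc : Wf := fun σ => if σ = 0 then 1 else 0

/-- bounds of symbols of one variable -/
def Hb (N : ℕ) (c : ℝ) (h : V → ℂ) : Prop := ∀ p, ‖h p‖ * rr p ^ N ≤ c

/-- bounds of symbols of two variables -/
def Kb (N : ℕ) (c : ℝ) (κ : V → V → ℂ) : Prop :=
  ∀ p q, ‖κ p q‖ * rr (p + q) ^ N ≤ c * (rr p * rr q) ^ 2

/-- good symbols of one variable -/
def Hs (h : V → ℂ) : Prop := Measurable h ∧ ∀ N, ∃ c, Hb N c h

/-- good symbols of two variables -/
def Ks (κ : V → V → ℂ) : Prop := Measurable (fun z : V × V => κ z.1 z.2) ∧ ∀ N, ∃ c, Kb N c κ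

/-- good wave functions -/
def Nice (ψ : Wf) : Prop := Ms (fun _ : Unit => ψ) ∧ ∀ N, ∃ C, Bd N C ψ

/-- configurations -/
abbrev Cf := Σ n : ℕ, Fin n → V

/-- the multiset of a configuration -/
def mu (c : Cf) : Multiset V := ms c.2

/-- the measure `∑ Om^n / n!` -/
def Lam : Measure Cf := Measure.sum fun n =>
  (n ! : ℝ≥0∞)⁻¹ • (Measure.pi fun _ : Fin n => Om).map (Sigma.mk n)

/-- the integral of a wave function -/
def lam (G : Wf) : ℂ := ∫ c, G (mu c) ∂Lam

/-- the inner product -/
def ip (ψ χ : Wf) : ℂ := lam fun σ => conj (ψ σ) * χ σ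

/-- Fock space -/
abbrev Fo := Lp ℂ 2 Lam

/-- the vector of a wave function -/
def toL (ψ : Wf) : Fo :=
  if h : MemLp (fun c => ψ (mu c)) 2 Lam then h.toLp _ else 0

/-- the tensor of the symbol of the stress tensor -/
def tk (m n : Ix) (p q : V) : ℝ := p m * q n + p n * q m - bas m (eta m) n * mdot p q

/-- the symbol of the canonical stress tensor -/
def kT (m n : Ix) (f : Fn) (p q : V) : ℂ :=
  ((-(2 * (2 * Real.pi) ^ 3)⁻¹ * tk m n p q : ℝ) : ℂ) * ft f (p + q)

/-- the wave functions made from the vacuum by the fields -/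
inductive Wd : Wf → Prop
  | vc : Wd vc
  | zero : Wd 0
  | add {ψ χ} : Wd ψ → Wd χ → Wd (ψ + χ)
  | smul (c : ℂ) {ψ} : Wd ψ → Wd (c • ψ)
  | ph {f ψ} : IsTest f → Wd ψ → Wd (ph (ft f) ψ)
  | qq (m n) {f ψ} : IsTest f → Wd ψ → Wd (qq (kT m n f) ψ)

/-- the domain, as a set -/
def IsD (v : Fo) : Prop := ∃ ψ, Wd ψ ∧ toL ψ = v

/-- the domain -/
def D0 : Submodule ℂ Fo := Submodule.span ℂ {v | IsD v}

/-- the domain, as a type -/
abbrev D : Type := D0

/-- a wave function of a vector -/
def rep (v : D) : Wf := if h : IsD v.1 then h.choose else 0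

/-- the vector of a word -/
def mk (ψ : Wf) : D := if h : Wd ψ then ⟨toL ψ, Submodule.subset_span ⟨ψ, h, rfl⟩⟩ else 0

/-- the operator on the domain given by an operator on wave functions -/
def op (A : Wf → Wf) (v : D) : D := mk (A (rep v))

/-- the vacuum vector -/
def Ω : D := mk vc

/-- the free field -/
def Ph : Fld D := fun f => op (ph (ft f))

/-- the canonical stress tensor -/
def Tm (m n : Ix) : Fld D := fun f => op (qq (kT m n f))

/-- the representation of the similitudes -/
def UU (s : ℝ) (L : Ix → V) (a : V) : D → D := op (gm s L a)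

/-- the vectors with at most `n` particles -/
def Fl (n : ℕ) : Submodule ℂ D := Submodule.span ℂ {v | ∃ ψ, Wd ψ ∧ Le n ψ ∧ mk ψ = v}

example : NormedAddCommGroup D := inferInstance
example : InnerProductSpace ℂ D := inferInstance

end

end Vale.Agent.P352W.Fk
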