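import Vale.Agent.P352W.Fk.Pw
import Vale.Agent.P352W.Fk.Lin
import Vale.Agent.P352W.Ch.Br
import Vale.Agent.P352W.Kr.Ker
import Vale.Agent.P352W.Gl.Ps
import Vale.Agent.P352W.Cn.Ft

/-! # P352W, row `chg` (helper89): the cut off charges act on the free field -/

set_option autoImplicit false
set_option linter.all false

open MeasureTheory

noncomputable section

namespace Vale.Agent.P352W.Fk

open Vale.Agent.P352.GF Vale.Agent.P352W.Cn Kt
open Vale.Agent.P352.H246 (In)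
open Vale.Agent.P352.H15 (IsSim)
open Vale.Agent.P352.ND (cur)

namespace Chg

variable {ψ χ : Wf} {h : V → ℂ} {κ κ' : V → V → ℂ} {ι : Type*} {k : ι → V → V → ℂ}

theorem cs_int (a : Ks κ) (c : Hs h) (p : V) : Integrable
    (fun q => (κ p (-q) + κ (-q) p) * h q - (κ p q + κ q p) * h (-q)) Om :=
  have k : Kp κ := ks_pg a
  (Pw.j7 ((k.neg2.add k.neg1.swap).sec p) c).sub (Pw.j7 ((k.add k.swap).sec p) (rd_neg c))

theorem ks_zero : Ks fun _ _ => 0 := ⟨measurable_const, fun N => ⟨0, fun p q => by simp⟩⟩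

theorem ks_sum (s : Finset ι) (a : ∀ i, Ks (k i)) : Ks fun p q => ∑ i ∈ s, k i p q := by
  classical
  induction s using Finset.induction_on with
  | empty => simpa using ks_zero
  | insert i s hi ih => simpa only [Finset.sum_insert hi] using (a i).add ih

theorem qq_sum (s : Finset ι) (a : ∀ i, Ks (k i)) (n : Nice ψ) :
    ∑ i ∈ s, qq (k i) ψ = qq (fun p q => ∑ i ∈ s, k i p q) ψ := by
  classical
  induction s using Finset.induction_on with
  | empty => simpa using (mul_qq 0 (fun _ _ => 0) ψ).symm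
  | insert i s hi ih => simp only [Finset.sum_insert hi, add_qq (a i) (ks_sum s a) n, ih]

theorem cs_sum (s : Finset ι) (a : ∀ i, Ks (k i)) (c : Hs h) (p : V) :
    cs (fun p q => ∑ i ∈ s, k i p q) h p = ∑ i ∈ s, cs (k i) h p := by
  unfold cs
  rw [← integral_finset_sum s fun i _ => cs_int (a i) c p]
  congr 1 with q
  simp only [← Finset.sum_add_distrib, Finset.sum_mul, ← Finset.sum_sub_distrib]

/-- the commutator of a sum of quadratic fields with a linear field -/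
theorem fn (s : Finset ι) (a : ∀ i, Ks (k i)) (c : Hs h) (n : Nice ψ) :
    ∑ i ∈ s, qq (k i) (ph h ψ) - ph h (∑ i ∈ s, qq (k i) ψ) =
      ph (fun p => ∑ i ∈ s, cs (k i) h p) ψ := by
  rw [qq_sum s a n, qq_sum s a (nice_ph c n), qq_ph' (ks_pg (ks_sum s a)) c n,
    funext (cs_sum s a c)]

theorem wd_sum (s : Finset ι) {u : ι → Wf} (a : ∀ i, Wd (u i)) : Wd (∑ i ∈ s, u i) :=
  Finset.sum_induction u Wd (fun _ _ => Wd.add) Wd.zero fun i _ => a i

theorem wd_sub (a : Wd ψ) (b : Wd χ) : Wd (ψ - χ) := by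
  rw [sub_eq_add_neg, ← neg_one_smul ℂ χ]
  exact a.add (b.smul _)

theorem mk_val (a : Wd ψ) : (mk ψ).1 = toL ψ := by rw [mk, dif_pos a]

variable (nice : ∀ ψ, Wd ψ → Nice ψ)
include nice

theorem mk_add (a : Wd ψ) (b : Wd χ) : mk (ψ + χ) = mk ψ + mk χ := Subtype.ext <| by
  rw [Submodule.coe_add, mk_val a, mk_val b, mk_val (a.add b), toL_add (nice _ a) (nice _ b)]

theorem mk_sub (a : Wd ψ) (b : Wd χ) : mk (ψ - χ) = mk ψ - mk χ := Subtype.ext <| by
  rw [Submodule.coe_sub, mk_val a, mk_val b, mk_val (wd_sub a b), toL_sub (nice _ a) (nice _ b)]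

theorem mk_smul (c : ℂ) (a : Wd ψ) : mk (c • ψ) = c • mk ψ := Subtype.ext <| by
  rw [Submodule.coe_smul, mk_val a, mk_val (a.smul c), toL_smul c (nice _ a)]

theorem mk_sum (s : Finset ι) {u : ι → Wf} (a : ∀ i, Wd (u i)) :
    mk (∑ i ∈ s, u i) = ∑ i ∈ s, mk (u i) := by
  classical
  induction s using Finset.induction_on with
  | empty => simpa using mk_smul nice 0 Wd.vc
  | insert i s hi ih => simp only [Finset.sum_insert hi, mk_add nice (a i) (wd_sum s a), ih]

omit nice in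
theorem test_vf {r : ℝ} {X : V → V} (hX : IsSim r X) {g : Fn} (hg : IsTest g) :
    IsTest fun x => ∑ n, (X x n : ℂ) * pd n g x := by
  refine Ft.test_sum _ fun n _ => ?_
  have := Ft.test_cmul (eta n) (Gl.test_cur hX n (Ft.test_pd hg n))
  have e : (eta n : ℂ) * eta n = 1 := by exact_mod_cast P352X.eta_sq n
  simpa only [← mul_assoc, e, one_mul] using this

end Chg

open Chg in
/-- **the field `chg` of `Free`** -/
theorem chg_of (noe : Ch.Br.NOE) (nice : ∀ ψ, Wd ψ → Nice ψ)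
    (ex : ∀ v : D, ∃ ψ, Wd ψ ∧ mk ψ = v)
    (phm : ∀ f ψ, IsTest f → Wd ψ → Ph f (mk ψ) = mk (ph (ft f) ψ))
    (tmm : ∀ m n f ψ, IsTest f → Wd ψ → Tm m n f (mk ψ) = mk (qq (kT m n f) ψ)) :
    ∀ F X (r : ℝ), IsCutoff F → IsSim 0 X → ∃ R₀ : ℝ, ∀ R ≥ R₀, ∀ g v,
      In (Metric.ball 0 r) g → cur Tm X (F R) (Ph g v) - Ph g (cur Tm X (F R) v) =
        Complex.I • Ph (fun x => ∑ n, (X x n : ℂ) * pd n g x) v := by
  intro F X r hF hX
  obtain ⟨R₀, h⟩ := Ch.Br.ker noe hF hX r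
  refine ⟨max R₀ 1, fun R hR g v hg => ?_⟩
  obtain ⟨ψ, w, rfl⟩ := ex v
  have tF : IsTest (F R) := by
    obtain ⟨a, c, -, -, -, -, k⟩ := hF
    exact (k R (one_pos.trans_le (le_of_max_le_right hR))).1
  have tG (n : Ix) := Gl.test_cur hX n tF
  have hs := Kr.hs_ft hg.1
  have e := h R (le_of_max_le_left hR) g hg.1 hs (hg.2.2.trans Metric.ball_subset_closedBall) tG
  have w1 := w.ph hg.1
  have tV := test_vf hX hg.1
  simp only [cur]
  rw [phm g ψ hg.1 w, phm _ ψ tV w]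
  simp only [fun n => tmm o n _ _ (tG n) w, fun n => tmm o n _ _ (tG n) w1]
  have a1 (n : Ix) := Wd.qq o n (tG n) w
  have a2 (n : Ix) := Wd.qq o n (tG n) w1
  rw [← mk_sum nice _ a1, ← mk_sum nice _ a2, phm g _ hg.1 (wd_sum _ a1),
    ← mk_sub nice (wd_sum _ a2) ((wd_sum _ a1).ph hg.1), ← mk_smul nice _ (w.ph tV),
    fn _ (fun n => Kr.ks_kT o n (tG n)) hs (nice ψ w), ← mul_ph]
  refine congrArg mk (ph_congr (fun p hp => e p hp.1) (fun p hp => e (-p) ?_) ψ)
  rw [P352X.md_neg, P352X.md_neg_l, neg_neg]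
  exact hp.1

end Vale.Agent.P352W.Fk
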