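import Vale.Agent.P352W.Fk.U0
import Vale.Agent.P352W.Fk.Bas
import Vale.Agent.P352W.Fk.Mec

/-!
# P352W FK-U: the similitudes preserve good wave functions and the inner product (helper84)
-/

set_option linter.all false

open MeasureTheory Filter Topology
open scoped ENNReal ComplexConjugate Classical Nat

namespace Vale.Agent.P352W.Fk

open Vale.Agent.P352.GF Vale.Agent.P352W.Cn
open Vale.Agent.P352.H246 (linv isLor_linv)

noncomputable section

namespace U

variable {s : ℝ} {L : Ix → V} {a : V}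

theorem ex_K (t : ℝ) (L : Ix → V) : ∃ K : ℝ, 1 ≤ K ∧ ∀ p, rr (sim t L 0 p) ≤ K * rr p := by
  refine ⟨1 + |t| * ∑ m, ‖L m‖, le_add_of_nonneg_right (by positivity), fun p => ?_⟩
  have h0 : 0 ≤ |t| * ∑ m, ‖L m‖ := by positivity
  have h : ‖sim t L 0 p‖ ≤ (|t| * ∑ m, ‖L m‖) * ‖p‖ := by
    refine (pi_norm_le_iff_of_nonneg (by positivity)).2 fun n => ?_
    simp only [sim, Pi.zero_apply, zero_add, norm_mul, Real.norm_eq_abs]
    rw [mul_assoc, Finset.sum_mul]
    refine mul_le_mul_of_nonneg_left ((Finset.abs_sum_le_sum_abs _ _).trans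
      (Finset.sum_le_sum fun m _ => ?_)) (abs_nonneg _)
    rw [abs_mul, mul_comm]
    exact mul_le_mul (norm_le_pi_norm (L m) n) (norm_le_pi_norm p m) (abs_nonneg _) (norm_nonneg _)
  unfold rr
  nlinarith [norm_nonneg p]

theorem bd_gm (hs : 0 < s) (hL : IsLor L) (N : ℕ) :
    ∃ M, ∀ a C ψ, Bd M C ψ → Bd N C (gm s L a ψ) := by
  obtain ⟨K, K1, hK⟩ := ex_K s⁻¹ L
  obtain ⟨j, hj⟩ := pow_unbounded_of_one_lt (s * K ^ N) (one_lt_two (α := ℝ))
  refine ⟨N + j, fun a C ψ h σ => le_trans ?_ (h (σ.map (mm s L)))⟩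
  have key : ‖(σ.map (ee s a)).prod‖ * wt σ ^ N ≤ wt (σ.map (mm s L)) ^ (N + j) := by
    induction σ using Multiset.induction_on with
    | empty => simp [wt_zero]
    | cons p σ ih =>
      simp only [Multiset.map_cons, Multiset.prod_cons, wt_cons, norm_mul, norm_ee hs, mul_pow]
      rw [mul_mul_mul_comm]
      have r := rr_pos p
      have r' := rr_pos (mm s L p)
      have w := wt_pos σ
      refine mul_le_mul ?_ ih (by positivity) (by positivity)
      have h1 : rr p ≤ K * rr (mm s L p) := by simpa only [mm_l hs hL] using hK (mm s L p)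
      calc s * rr p ^ N ≤ s * (K * rr (mm s L p)) ^ N := by gcongr
        _ = rr (mm s L p) ^ N * (s * K ^ N) := by ring
        _ ≤ rr (mm s L p) ^ N * rr (mm s L p) ^ j := by
          gcongr
          exact hj.le.trans (pow_le_pow_left₀ two_pos.le (rr_two _) j)
        _ = _ := (pow_add _ _ _).symm
  rw [gm_def, norm_mul, mul_right_comm, mul_comm]
  exact mul_le_mul_of_nonneg_left key (norm_nonneg _)

theorem ms_gm {α : Type} [MeasurableSpace α] {F : α → Wf} (h : Ms F) :
    Ms fun x => gm s L a (F x) := fun n => by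
  simp only [gm_def, prod_ms, ms_map]
  refine (Finset.measurable_prod _ fun i _ => cont_ee.measurable.comp
    ((measurable_pi_apply i).comp measurable_snd)).mul ((h n).comp (measurable_fst.prodMk
      (measurable_pi_iff.2 fun i => (continuous_sim _ _ _).measurable.comp
        ((measurable_pi_apply i).comp measurable_snd))))

theorem pw_map (hs : 0 < s) (hL : IsLor L) (n : ℕ) : Mec.pw n = ENNReal.ofReal (s ^ 2) ^ n •
    (Mec.pw n).map (MeasurableEquiv.piCongrRight fun _ => me hs hL) := by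
  refine Measure.pi_eq fun A hA => ?_
  rw [Measure.smul_apply, MeasurableEquiv.map_apply]
  have e : (MeasurableEquiv.piCongrRight fun _ : Fin n => me hs hL) ⁻¹' Set.univ.pi A =
      Set.univ.pi fun i => mm s L ⁻¹' A i := rfl
  have e2 : ∀ i, ENNReal.ofReal (s ^ 2) * Om (mm s L ⁻¹' A i) = Om (A i) := fun i => by
    rw [← Measure.map_apply (continuous_sim _ _ _).measurable (hA i), om_inv hs (isLor_linv hL),
      Measure.smul_apply, smul_eq_mul, ← mul_assoc, ← ENNReal.ofReal_mul (by positivity),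
      mul_inv_cancel₀ (by positivity), ENNReal.ofReal_one, one_mul]
  rw [e, Measure.pi_pi, smul_eq_mul, ← Finset.prod_congr rfl fun i _ => e2 i,
    Finset.prod_mul_distrib, Finset.prod_const, Finset.card_univ, Fintype.card_fin]

theorem int_pw (hs : 0 < s) (hL : IsLor L) (n : ℕ) (G : (Fin n → V) → ℂ) :
    ∫ x, G x ∂Mec.pw n = ∫ x, ((s : ℂ) ^ 2) ^ n * G (fun i => mm s L (x i)) ∂Mec.pw n := by
  conv_lhs => rw [pw_map hs hL n]
  rw [integral_smul_measure, integral_map_equiv, ENNReal.toReal_pow,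
    ENNReal.toReal_ofReal (by positivity), Complex.real_smul, integral_const_mul]
  push_cast
  rfl

end U

open U

variable {s : ℝ} {L : Ix → V} {a : V} {ψ χ : Wf}

theorem nice_gm (hs : 0 < s) (hL : IsLor L) (h : Nice ψ) : Nice (gm s L a ψ) :=
  ⟨ms_gm h.1, fun N => (bd_gm hs hL N).elim fun M hM => (h.2 M).elim fun C b => ⟨C, hM a C ψ b⟩⟩

theorem ip_gm (hs : 0 < s) (hL : IsLor L) (h : Nice ψ) (h' : Nice χ) :
    ip (gm s L a ψ) (gm s L a χ) = ip ψ χ := by
  have h1 := (lam_sum (G := fun σ => conj (gm s L a ψ σ) * gm s L a χ σ)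
    ((nice_gm hs hL h).conj.mul (nice_gm hs hL h')).int).tsum_eq
  have h2 := (lam_sum (G := fun σ => conj (ψ σ) * χ σ) (h.conj.mul h').int).tsum_eq
  unfold ip
  rw [← h1, ← h2]
  refine tsum_congr fun n => congrArg _ ?_
  rw [int_pw hs hL n fun x => conj (ψ (ms x)) * χ (ms x)]
  refine integral_congr_ae (ae_of_all _ fun x => ?_)
  have e : conj (∏ i, ee s a (x i)) * ∏ i, ee s a (x i) = ((s : ℂ) ^ 2) ^ n := by
    rw [map_prod, ← Finset.prod_mul_distrib]
    simp only [conj_ee, ee_neg hs, Finset.prod_const, Finset.card_univ, Fintype.card_fin]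
  simp only [gm_def, prod_ms, ms_map, map_mul]
  rw [← e]; ring

end

end Vale.Agent.P352W.Fk
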