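import Vale.Agent.P352W.Fk.Cov
import Vale.Agent.P352W.Fk.U
import Vale.Agent.P352W.Fk.Cont
import Vale.Agent.P352W.Fk.Adj
import Vale.Agent.P352W.Sp.Spec

/-!
# P352W FK — the representation of the similitudes on the domain
-/

set_option linter.all false

open MeasureTheory Filter Topology

namespace Vale.Agent.P352W.Fk.Ud

open Vale.Agent.P352.GF Vale.Agent.P352W.Cn

noncomputable section

/-- the similitudes are isometric on the wave functions -/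
def IP : Prop := ∀ s L a ψ χ, 0 < s → IsLor L → Wd ψ → Wd χ →
  ip (gm s L a ψ) (gm s L a χ) = ip ψ χ

/-- the free field acts on the words -/
def PM : Prop := ∀ f ψ, IsTest f → Wd ψ → Ph f (mk ψ) = mk (ph (ft f) ψ)

/-- the stress tensor acts on the words -/
def TM : Prop := ∀ m n f ψ, IsTest f → Wd ψ → Tm m n f (mk ψ) = mk (qq (kT m n f) ψ)

variable {s : ℝ} {L : Ix → V} {a : V} {ψ χ : Wf}

theorem e : IP := fun _ _ _ _ _ hs hL h h' => ip_gm hs hL (Ct.wd_nice h) (Ct.wd_nice h')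

theorem mk_rep (v : D) : mk (rep v) = v :=
  Subtype.ext ((Ct.mk_val (Ct.wd_rep v)).trans (Ct.toL_rep v))

theorem mk_add (h : Wd ψ) (h' : Wd χ) : mk (ψ + χ) = mk ψ + mk χ := Subtype.ext (by
  rw [Submodule.coe_add, Ct.mk_val (h.add h'), Ct.mk_val h, Ct.mk_val h',
    toL_add (Ct.wd_nice h) (Ct.wd_nice h')])

theorem mk_smul (c : ℂ) (h : Wd ψ) : mk (c • ψ) = c • mk ψ := Subtype.ext (by
  rw [Submodule.coe_smul, Ct.mk_val (h.smul c), Ct.mk_val h, toL_smul c (Ct.wd_nice h)])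

theorem mk_zero : mk 0 = 0 := by
  have h := mk_smul 0 Wd.zero
  rwa [zero_smul, zero_smul] at h

theorem mk_sum {ι : Type*} (t : Finset ι) {ψ : ι → Wf} (h : ∀ i, Wd (ψ i)) :
    mk (∑ i ∈ t, ψ i) = ∑ i ∈ t, mk (ψ i) := by
  classical
  induction t using Finset.induction_on with
  | empty => exact mk_zero
  | insert k t hk ih =>
    rw [Finset.sum_insert hk, Finset.sum_insert hk, mk_add (h k) (Cov.wd_sum t h), ih]

theorem inner_mk (h : Wd ψ) (h' : Wd χ) : inner ℂ (mk ψ) (mk χ) = ip ψ χ := by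
  rw [Submodule.coe_inner, Ct.mk_val h, Ct.mk_val h', inner_toL (Ct.wd_nice h) (Ct.wd_nice h')]

theorem op_mk {A A' : Wf → Wf} (w : ∀ ψ, Wd ψ → Wd (A ψ)) (w' : ∀ ψ, Wd ψ → Wd (A' ψ))
    (e : ∀ ψ χ, Wd ψ → Wd χ → ip (A ψ) χ = ip ψ (A' χ)) (h : Wd ψ) : op A (mk ψ) = mk (A ψ) := by
  have h1 := Ct.wd_rep (mk ψ)
  refine ext_inner_right ℂ fun z => ?_
  have h2 := Ct.wd_rep z
  show inner ℂ (mk (A (rep (mk ψ)))) z = _
  rw [← mk_rep z, inner_mk (w _ h1) h2, inner_mk (w _ h) h2, e _ _ h1 h2, e _ _ h h2,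
    ← inner_mk h1 (w' _ h2), ← inner_mk h (w' _ h2), mk_rep]

theorem pm : PM := fun f ψ hf h =>
  op_mk (A' := ph (ft (bar f))) (fun _ h => h.ph hf) (fun _ h => h.ph (Ft.test_bar hf))
    (fun _ _ h h' => by
      rw [ip_ph (Ct.hs_ft hf) (Ct.wd_nice h) (Ct.wd_nice h'), Kr.ft_bar']) h

theorem tm : TM := fun m n f ψ hf h =>
  op_mk (A' := qq (kT m n (bar f))) (fun _ h => h.qq m n hf)
    (fun _ h => h.qq m n (Ft.test_bar hf)) (fun _ _ h h' => by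
      rw [ip_qq (Ct.ks_kT m n hf) (Ct.wd_nice h) (Ct.wd_nice h'), Kr.kT_bar']) h

theorem U_inner (s : ℝ) (L : Ix → V) (a : V) (v w : D) (hs : 0 < s) (hL : IsLor L) :
    inner ℂ (UU s L a v) (UU s L a w) = inner ℂ v w := by
  show inner ℂ (mk (gm s L a (rep v))) (mk (gm s L a (rep w))) = _
  rw [inner_mk (Cov.wd_gm hs hL (Ct.wd_rep v)) (Cov.wd_gm hs hL (Ct.wd_rep w)),
    e s L a _ _ hs hL (Ct.wd_rep v) (Ct.wd_rep w), ← inner_mk (Ct.wd_rep v) (Ct.wd_rep w), mk_rep,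
    mk_rep]

theorem UU_mk (hs : 0 < s) (hL : IsLor L) (h : Wd ψ) :
    UU s L a (mk ψ) = mk (gm s L a ψ) := by
  show mk (gm s L a (rep (mk ψ))) = _
  have h1 := Ct.wd_rep (mk ψ)
  have h2 : Wd (rep (mk ψ) + (-1 : ℂ) • ψ) := h1.add (h.smul _)
  have h3 : mk (rep (mk ψ) + (-1 : ℂ) • ψ) = 0 := by
    rw [mk_add h1 (h.smul _), mk_smul _ h, mk_rep, neg_one_smul, add_neg_cancel]
  have h4 : mk (gm s L a (rep (mk ψ) + (-1 : ℂ) • ψ)) = 0 := by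
    rw [← inner_self_eq_zero (𝕜 := ℂ), inner_mk (Cov.wd_gm hs hL h2) (Cov.wd_gm hs hL h2),
      e s L a _ _ hs hL h2 h2, ← inner_mk h2 h2, h3, inner_zero_left]
  rw [Cov.gm_add, Cov.gm_smul, mk_add (Cov.wd_gm hs hL h1) ((Cov.wd_gm hs hL h).smul _),
    mk_smul _ (Cov.wd_gm hs hL h), neg_one_smul, add_neg_eq_zero] at h4
  exact h4

theorem U_vac (s : ℝ) (L : Ix → V) (a : V) (hs : 0 < s) (hL : IsLor L) :
    UU s L a Ω = Ω := by
  show UU s L a (mk vc) = mk vc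
  rw [UU_mk hs hL Wd.vc, Cov.gm_vc]

theorem U_mul (s : ℝ) (L : Ix → V) (a : V) (s' : ℝ) (L' : Ix → V) (a' : V) (v : D)
    (hs : 0 < s) (hs' : 0 < s') (hL : IsLor L) (hL' : IsLor L') : UU s L a (UU s' L' a' v) =
      UU (s * s') (fun m => sim 1 L 0 (L' m)) (sim s L a a') v := by
  show UU s L a (mk (gm s' L' a' (rep v))) = mk _
  rw [UU_mk hs hL (Cov.wd_gm hs' hL' (Ct.wd_rep v)), U.gm_gm]

theorem cov_phi (s : ℝ) (L : Ix → V) (a : V) (f : Fn) (v : D) (hs : 0 < s)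
    (hL : IsLor L) (hf : IsTest f) : Ph f (UU s L a v) =
      ((s ^ 3 : ℝ) : ℂ) • UU s L a (Ph (fun x => f (sim s L a x)) v) := by
  have h1 := Ct.wd_rep v
  have h2 := Wd.ph (Cov.test_sim hs hL a hf) h1
  show Ph f (mk (gm s L a (rep v))) = _ • UU s L a (mk (ph _ (rep v)))
  rw [pm _ _ hf (Cov.wd_gm hs hL h1), UU_mk hs hL h2, Cov.cov_ph hs hL,
    mk_smul _ (Cov.wd_gm hs hL h2)]

theorem cov_T (m n : Ix) (s : ℝ) (L : Ix → V) (a : V) (f : Fn) (v : D)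
    (hs : 0 < s) (hL : IsLor L) (hf : IsTest f) : Tm m n f (UU s L a v) =
      ∑ k, ∑ l, (L k m * L l n : ℂ) • UU s L a (Tm k l (fun x => f (sim s L a x)) v) := by
  have h1 := Ct.wd_rep v
  have h2 := fun k l => Wd.qq k l (Cov.test_sim hs hL a hf) h1
  have h3 := fun k l => (Cov.wd_gm hs hL (a := a) (h2 k l)).smul (L k m * L l n : ℂ)
  show Tm m n f (mk (gm s L a (rep v))) = _
  rw [tm _ _ _ _ hf (Cov.wd_gm hs hL h1), Cov.cov_T hs hL m n hf (Ct.wd_nice h1),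
    mk_sum _ fun k => Cov.wd_sum _ (h3 k)]
  refine Finset.sum_congr rfl fun k _ => ?_
  rw [mk_sum _ (h3 k)]
  refine Finset.sum_congr rfl fun l _ => ?_
  rw [mk_smul _ (Cov.wd_gm hs hL (h2 k l)), ← UU_mk hs hL (h2 k l)]
  rfl

theorem spec (v : D) : ∃ ν : Measure V, IsFiniteMeasure ν ∧ (∀ᵐ p ∂ν, 0 ≤ p o ∧ 0 ≤ mdot p p) ∧
    ν.real {p | p o = 0} ≤ ‖inner ℂ Ω v‖ ^ 2 ∧
    ∀ a, inner ℂ v (UU 1 one a v) = ∫ p, Complex.exp (Complex.I * mdot p a) ∂ν :=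
  spec_of (fun _ => Ct.wd_nice) (fun _ _ => Cov.wd_gm one_pos P352.isLor_one) v

end

end Vale.Agent.P352W.Fk.Ud
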