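import Vale.Agent.P352W.Fk.Def
import Vale.Agent.P352W.Cn.Inv

/-!
# P352W FK-U, part 0: the similitudes on wave functions (helper84)
-/

set_option linter.all false

open MeasureTheory Filter Topology
open scoped ENNReal ComplexConjugate Classical Nat

namespace Vale.Agent.P352W.Fk

open Vale.Agent.P352.GF Vale.Agent.P352W.Cn
open Vale.Agent.P352.H246 (linv isLor_linv)
open Vale.Agent.P352.H496 (IsNull)

noncomputable section

namespace U

variable {s s' : ℝ} {L L' : Ix → V} {a a' : V}

/-- the action on momenta -/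
abbrev mm (s : ℝ) (L : Ix → V) : V → V := sim s (linv L) 0

/-- the factor of one particle -/
def ee (s : ℝ) (a p : V) : ℂ := (s : ℂ) * Complex.exp (Complex.I * mdot p a)

theorem gm_def (ψ : Wf) (σ : Multiset V) :
    gm s L a ψ σ = (σ.map (ee s a)).prod * ψ (σ.map (mm s L)) := rfl

theorem linv_li (L : Ix → V) : linv L = li L := by
  funext m n; simp only [linv, li]; ring

theorem mm_l (hs : 0 < s) (hL : IsLor L) (x : V) : sim s⁻¹ L 0 (mm s L x) = x := by
  have := sim_li hL (inv_ne_zero hs.ne') x
  rwa [inv_inv, ← linv_li] at this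

theorem mm_r (hs : 0 < s) (hL : IsLor L) (x : V) : mm s L (sim s⁻¹ L 0 x) = x := by
  have := li_sim hL (inv_ne_zero hs.ne') x
  rwa [inv_inv, ← linv_li] at this

theorem mm_inj (hs : 0 < s) (hL : IsLor L) : Function.Injective (mm s L) :=
  Function.LeftInverse.injective (mm_l hs hL)

theorem mm_neg (x : V) : mm s L (-x) = -mm s L x := by
  funext n; simp [sim]

theorem mm_add (x y : V) : mm s L (x + y) = mm s L x + mm s L y := by
  funext n; simp [sim, add_mul, Finset.sum_add_distrib, mul_add]

theorem md_mm (p y : V) : mdot (mm s L p) y = mdot p (sim s L 0 y) := by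
  simp only [mdot, sim, linv, Pi.zero_apply, zero_add, Finset.mul_sum, Finset.sum_mul]
  rw [Finset.sum_comm]
  refine Finset.sum_congr rfl fun m _ => Finset.sum_congr rfl fun n _ => ?_
  linear_combination (s * p m * eta m * L n m * y n) * eta_sq n

theorem md_add (p x y : V) : mdot p (x + y) = mdot p x + mdot p y := by
  simp [mdot, mul_add, Finset.sum_add_distrib]

theorem md_add' (p q x : V) : mdot (p + q) x = mdot p x + mdot q x := by
  simp [mdot, mul_add, add_mul, Finset.sum_add_distrib]

theorem md_neg (p x : V) : mdot (-p) x = -mdot p x := by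
  simp [mdot]

theorem null_sim (hs : 0 < s) (hL : IsLor L) {p : V} (h : IsNull p) : IsNull (sim s L 0 p) := by
  refine ⟨by rw [mdot_sim hL, h.1, mul_zero], ?_⟩
  have e := cn_sp h.2.le h.1
  rw [← e]
  refine sim_cn_pos hL hs fun h0 => ?_
  have : cn (sp p) o = 0 := by rw [h0, cn_o, norm_zero]
  rw [e] at this
  exact h.2.ne' this

theorem ci_mm (hs : 0 < s) (hL : IsLor L) (p : V) : ci (mm s L p) = ci p := by
  have : IsNull (mm s L p) ↔ IsNull p :=
    ⟨fun h => by simpa only [mm_l hs hL] using null_sim (inv_pos.2 hs) hL h,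
      null_sim hs (isLor_linv hL)⟩
  simp only [ci, this]

theorem ee_neg (hs : 0 < s) (q : V) : ee s a (-q) * ee s a q = (s : ℂ) ^ 2 := by
  simp only [ee, md_neg, Complex.ofReal_neg, mul_neg]
  rw [mul_mul_mul_comm, ← Complex.exp_add, neg_add_cancel, Complex.exp_zero]; ring

theorem norm_ee (hs : 0 < s) (q : V) : ‖ee s a q‖ = s := by
  rw [ee, norm_mul, mul_comm Complex.I, Complex.norm_exp_ofReal_mul_I, mul_one, Complex.norm_real,
    Real.norm_of_nonneg hs.le]

theorem conj_ee (q : V) : conj (ee s a q) = ee s a (-q) := by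
  simp [ee, md_neg, ← Complex.exp_conj]

theorem cont_ee : Continuous (ee s a) := by
  unfold ee mdot; fun_prop

/-- the action on momenta as a measurable equivalence -/
def me (hs : 0 < s) (hL : IsLor L) : V ≃ᵐ V where
  toFun := mm s L
  invFun := sim s⁻¹ L 0
  left_inv := mm_l hs hL
  right_inv := mm_r hs hL
  measurable_toFun := (continuous_sim _ _ _).measurable
  measurable_invFun := (continuous_sim _ _ _).measurable

theorem int_mm (hs : 0 < s) (hL : IsLor L) (F : V → ℂ) :
    ∫ q, F q ∂Om = (s : ℂ) ^ 2 * ∫ q, F (mm s L q) ∂Om := by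
  have h := integral_map_equiv (μ := Om) (me hs hL) F
  have e : Om.map (me hs hL) = ENNReal.ofReal (s ^ 2)⁻¹ • Om := om_inv hs (isLor_linv hL)
  rw [e, integral_smul_measure, ENNReal.toReal_ofReal (by positivity)] at h
  have h' : ∫ q, F (mm s L q) ∂Om = (s ^ 2)⁻¹ • ∫ q, F q ∂Om := h.symm
  have : (s : ℂ) ≠ 0 := by exact_mod_cast hs.ne'
  rw [h', Complex.real_smul]
  push_cast
  field_simp

/-! ### linearity -/

theorem gm_add (ψ χ : Wf) : gm s L a (ψ + χ) = gm s L a ψ + gm s L a χ := by
  funext σ; simp only [gm_def, Pi.add_apply, mul_add]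

theorem gm_smul (c : ℂ) (ψ : Wf) : gm s L a (c • ψ) = c • gm s L a ψ := by
  funext σ; simp only [gm_def, Pi.smul_apply, smul_eq_mul]; ring

theorem gm_zero : gm s L a 0 = 0 := by
  funext σ; simp only [gm_def, Pi.zero_apply, mul_zero]

theorem gm_sub (ψ χ : Wf) : gm s L a (ψ - χ) = gm s L a ψ - gm s L a χ := by
  funext σ; simp only [gm_def, Pi.sub_apply, mul_sub]

theorem gm_vc : gm s L a vc = vc := by
  funext σ
  by_cases h : σ = 0
  · subst h; simp [gm_def]
  · simp [gm_def, vc, h]

theorem gm_le {n : ℕ} {ψ : Wf} (h : Le n ψ) : Le n (gm s L a ψ) := fun σ hσ => by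
  rw [gm_def, h _ (by rwa [Multiset.card_map]), mul_zero]

/-! ### creation and annihilation -/

theorem gm_dv (hs : 0 < s) (hL : IsLor L) (F : V → Wf) :
    gm s L a (dv F) = dv fun p => ee s a p • gm s L a (F (mm s L p)) := by
  funext σ
  simp only [gm_def, dv, Multiset.map_map, ← Multiset.sum_map_mul_left, Pi.smul_apply, smul_eq_mul]
  refine congrArg _ (Multiset.map_congr rfl fun p hp => ?_)
  simp only [Function.comp]
  rw [Multiset.map_erase _ (mm_inj hs hL), ← mul_assoc, Multiset.prod_map_erase hp]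

theorem gm_it (hs : 0 < s) (hL : IsLor L) (F : V → Wf) :
    gm s L a (it F) = it fun q => ee s a (-q) • gm s L a (F (mm s L q)) := by
  funext σ
  simp only [gm_def, it, Pi.smul_apply, smul_eq_mul, Multiset.map_cons, Multiset.prod_cons]
  rw [int_mm hs hL, ← integral_const_mul, ← integral_const_mul]
  refine integral_congr_ae (ae_of_all _ fun q => ?_)
  simp only
  rw [← ee_neg (a := a) hs q]; ring

theorem gm_ph (hs : 0 < s) (hL : IsLor L) (h : V → ℂ) (ψ : Wf) :
    gm s L a (ph h ψ) = ph (fun p => ee s a p * h (mm s L p)) (gm s L a ψ) := by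
  simp only [Fk.ph, gm_add, gm_dv hs hL, gm_it hs hL, gm_smul, ci_mm hs hL, smul_smul, mm_neg]
  congr 2
  funext p; congr 1; ring

theorem dv_smul (c : ℂ) (F : V → Wf) : c • dv F = dv fun p => c • F p := by
  funext σ
  simp only [dv, Pi.smul_apply, smul_eq_mul, Multiset.sum_map_mul_left]

theorem it_smul (c : ℂ) (F : V → Wf) : c • it F = it fun p => c • F p := by
  funext σ
  simp only [it, Pi.smul_apply, smul_eq_mul, integral_const_mul]

theorem gm_qq (hs : 0 < s) (hL : IsLor L) (κ : V → V → ℂ) (ψ : Wf) : gm s L a (qq κ ψ) =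
    qq (fun p q => ee s a p * ee s a q * κ (mm s L p) (mm s L q)) (gm s L a ψ) := by
  simp only [qq, gm_add, gm_dv hs hL, gm_it hs hL, gm_smul, ci_mm hs hL, smul_smul, mm_neg,
    dv_smul, it_smul]
  refine congrArg₂ _ (congrArg₂ _ ?_ ?_) ?_
  · refine congrArg _ (funext fun p => congrArg _ (funext fun q => ?_)); congr 1; ring
  · refine congrArg _ (funext fun p => congrArg _ (funext fun q => ?_)); congr 1; ring
  · refine congrArg _ (funext fun p => congrArg _ (funext fun q => ?_)); congr 1; ring

theorem ph_smul (c : ℂ) (h : V → ℂ) (ψ : Wf) : ph (fun p => c * h p) ψ = c • ph h ψ := by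
  simp only [Fk.ph, smul_add, dv_smul, it_smul, smul_smul]
  congr 2
  funext p; congr 1; ring

theorem qq_smul (c : ℂ) (κ : V → V → ℂ) (ψ : Wf) :
    qq (fun p q => c * κ p q) ψ = c • qq κ ψ := by
  simp only [qq, smul_add, dv_smul, it_smul, smul_smul]
  refine congrArg₂ _ (congrArg₂ _ ?_ ?_) rfl
  · refine congrArg _ (funext fun p => congrArg _ (funext fun q => ?_)); congr 1; ring
  · refine congrArg _ (funext fun p => congrArg _ (funext fun q => ?_)); congr 1; ring

/-! ### the group law -/

theorem mm_mm (p : V) :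
    mm s' L' (mm s L p) = mm (s * s') (fun m => sim 1 L 0 (L' m)) p := by
  funext n
  simp only [sim, linv, Pi.zero_apply, zero_add, Finset.mul_sum, Finset.sum_mul, one_mul]
  rw [Finset.sum_comm]
  refine Finset.sum_congr rfl fun m _ => Finset.sum_congr rfl fun k _ => ?_
  linear_combination (s * s' * p m * eta m * eta n * L k m * L' n k) * eta_sq k

theorem ee_ee (p : V) : ee s a p * ee s' a' (mm s L p) = ee (s * s') (sim s L a a') p := by
  have : sim s L a a' = a + sim s L 0 a' := by funext n; simp [sim]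
  simp only [ee, md_mm, this, md_add, Complex.ofReal_add, mul_add, Complex.exp_add,
    Complex.ofReal_mul]
  ring

theorem gm_gm (ψ : Wf) : gm s L a (gm s' L' a' ψ) =
    gm (s * s') (fun m => sim 1 L 0 (L' m)) (sim s L a a') ψ := by
  funext σ
  simp only [gm_def, Multiset.map_map]
  rw [← mul_assoc, ← Multiset.prod_map_mul]
  simp only [Function.comp_def, ee_ee, mm_mm]

end U

end

end Vale.Agent.P352W.Fk
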