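import Vale.Agent.P352W.Fk.Cont
import Vale.Agent.P352W.Fk.Mec
import Vale.Agent.P352W.Fk.U0

/-!
# P352W FK — the operators respect equality almost everywhere, so they act on the domain
-/

set_option autoImplicit false
set_option linter.all false

open MeasureTheory Filter Topology
open scoped ENNReal ComplexConjugate Classical Nat

namespace Vale.Agent.P352W.Fk.Ae

open Vale.Agent.P352.GF Vale.Agent.P352W.Cn Vale.Agent.P352W.Fk.Ct
open Vale.Agent.P352.H246 (isLor_linv)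

noncomputable section

/-- true for almost every configuration -/
def Z (P : Multiset V → Prop) : Prop := ∀ᵐ c ∂Lam, P (mu c)

variable {P : Multiset V → Prop} {ψ χ : Wf} {F G : V → Wf} {f : Fn}

theorem z_iff : Z P ↔ ∀ n, ∀ᵐ x ∂Mec.pw n, P (ms x) := ae_lam fun c => P (mu c)

theorem Z.mono {Q : Multiset V → Prop} (h : Z P) (k : ∀ σ, P σ → Q σ) : Z Q :=
  Filter.Eventually.mono h fun c => k _

theorem Z.and {Q : Multiset V → Prop} (h : Z P) (k : Z Q) : Z fun σ => P σ ∧ Q σ :=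
  Filter.Eventually.and h k

theorem Z.erase (h : Z P) : Z fun σ => ∀ p ∈ σ, P (σ.erase p) := by
  refine z_iff.2 fun n => ?_
  cases n with
  | zero => exact .of_forall fun x p hp => by simp [ms_zero] at hp
  | succ n =>
    have k : ∀ i : Fin (n + 1), ∀ᵐ x ∂Mec.pw (n + 1), P (ms fun j => x (i.succAbove j)) := fun i =>
      (Measure.quasiMeasurePreserving_snd.comp (measurePreserving_piFinSuccAbove
        (fun _ : Fin (n + 1) => Om) i).quasiMeasurePreserving).ae (z_iff.1 h n)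
    filter_upwards [ae_all_iff.2 k] with x hx p hp
    obtain ⟨i, rfl⟩ : ∃ i, x i = p := by
      rw [ms_eq] at hp
      obtain ⟨i, -, e⟩ := Multiset.mem_map.1 hp
      exact ⟨i, e⟩
    rw [ms_ins i x, Multiset.erase_cons_head]
    exact hx i

theorem ae_cons {n : ℕ} {Q : (Fin (n + 1) → V) → Prop} :
    (∀ᵐ x ∂Mec.pw (n + 1), Q x) ↔ ∀ᵐ z ∂Om.prod (Mec.pw n), Q (Fin.cons z.1 z.2) := by
  have m := measurePreserving_piFinSuccAbove (fun _ : Fin (n + 1) => Om) 0
  refine ⟨fun h => (m.symm.quasiMeasurePreserving.ae h).mono fun z hz => ?_,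
    fun h => (m.quasiMeasurePreserving.ae h).mono fun x hx => ?_⟩
  · simpa [MeasurableEquiv.piFinSuccAbove, Fin.consEquiv] using hz
  · simpa [MeasurableEquiv.piFinSuccAbove] using hx

theorem Z.cons (h : Z P) : Z fun σ => ∀ᵐ q ∂Om, P (q ::ₘ σ) := by
  refine z_iff.2 fun n => ?_
  have k := (Measure.measurePreserving_swap (μ := Mec.pw n) (ν := Om)).quasiMeasurePreserving.ae
    (ae_cons.1 (z_iff.1 h (n + 1)))
  simpa only [Prod.fst_swap, Prod.snd_swap, ms_cons] using Measure.ae_ae_of_ae_prod k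

theorem qmp_pi {g : V → V} (hg : Measure.QuasiMeasurePreserving g Om Om) (n : ℕ) :
    ∀ Q : (Fin n → V) → Prop, (∀ᵐ x ∂Mec.pw n, Q x) → ∀ᵐ x ∂Mec.pw n, Q fun i => g (x i) := by
  have key : ∀ n, Measure.QuasiMeasurePreserving (fun (x : Fin n → V) i => g (x i))
      (Mec.pw n) (Mec.pw n) := by
    intro n
    induction n with
    | zero =>
      rw [show (fun (x : Fin 0 → V) i => g (x i)) = id from funext fun x => Subsingleton.elim _ _]
      exact .id _
    | succ n ih =>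
      have m := measurePreserving_piFinSuccAbove (fun _ : Fin (n + 1) => Om) 0
      have := m.symm.quasiMeasurePreserving.comp ((QuasiMeasurePreserving.prodMap hg ih).comp m.quasiMeasurePreserving)
      convert this using 1
      funext x i
      refine Fin.cases ?_ (fun j => ?_) i <;> simp [MeasurableEquiv.piFinSuccAbove, Fin.consEquiv, Fin.tail]
  exact fun Q h => (key n).ae h

theorem Z.map (h : Z P) {g : V → V} (hg : Measure.QuasiMeasurePreserving g Om Om) :
    Z fun σ => P (σ.map g) := z_iff.2 fun n => by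
  simpa only [ms_map] using qmp_pi hg n _ (z_iff.1 h n)

theorem dv_congr (h : ∀ p τ, P τ → F p τ = G p τ) {σ : Multiset V} (k : ∀ p ∈ σ, P (σ.erase p)) :
    dv F σ = dv G σ := congrArg Multiset.sum (Multiset.map_congr rfl fun p hp => h p _ (k p hp))

theorem it_congr (h : ∀ p τ, P τ → F p τ = G p τ) {σ : Multiset V} (k : ∀ᵐ q ∂Om, P (q ::ₘ σ)) :
    it F σ = it G σ := integral_congr_ae (k.mono fun q hq => h q _ hq)

theorem sm (u : V → ℂ) (p : V) (τ : Multiset V) (e : ψ τ = χ τ) : (u p • ψ) τ = (u p • χ) τ :=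
  congrArg (u p * ·) e

theorem z_ph (h : V → ℂ) (e : Z fun σ => ψ σ = χ σ) : Z fun σ => ph h ψ σ = ph h χ σ :=
  (e.erase.and e.cons).mono fun σ k =>
    congrArg₂ (· + ·) (dv_congr (sm _) k.1) (it_congr (sm fun q => h (-q)) k.2)

theorem z_qq (κ : V → V → ℂ) (e : Z fun σ => ψ σ = χ σ) : Z fun σ => qq κ ψ σ = qq κ χ σ :=
  ((e.erase.erase.and e.cons.erase).and e.cons.cons).mono fun σ k =>
    congrArg₂ (· + ·) (congrArg₂ (· + ·)
      (dv_congr (fun p τ => dv_congr (sm fun q => ci p * ci q * κ p q)) k.1.1)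
      (dv_congr (fun p τ => it_congr (sm fun q => ci p * (κ p (-q) + κ (-q) p))) k.1.2))
      (it_congr (fun p τ => it_congr (sm fun q => κ (-p) (-q))) k.2)

theorem z_gm {s : ℝ} {L : Ix → V} (a : V) (hs : 0 < s) (hL : IsLor L) (e : Z fun σ => ψ σ = χ σ) :
    Z fun σ => gm s L a ψ σ = gm s L a χ σ :=
  (e.map (g := U.mm s L) ⟨(continuous_sim _ _ _).measurable, by
    rw [om_inv hs (isLor_linv hL)]
    exact Measure.smul_absolutelyContinuous⟩).mono fun σ k => by rw [U.gm_def, U.gm_def, k]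

theorem toL_congr (e : Z fun σ => ψ σ = χ σ) : toL ψ = toL χ := by
  unfold toL
  by_cases h : MemLp (fun c => ψ (mu c)) 2 Lam
  · rw [dif_pos h, dif_pos (h.ae_eq e)]
    exact MemLp.toLp_congr _ _ e
  · rw [dif_neg h, dif_neg fun k => h (k.ae_eq (EventuallyEq.symm e))]

theorem z_of (h : Nice ψ) (k : Nice χ) (e : toL ψ = toL χ) : Z fun σ => ψ σ = χ σ :=
  (toL_ae h.memLp).symm.trans (e ▸ toL_ae k.memLp)

theorem z_rep (h : Wd ψ) : Z fun σ => rep (mk ψ) σ = ψ σ :=
  z_of (wd_nice (wd_rep _)) (wd_nice h) ((toL_rep _).trans (mk_val h))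

theorem mk_congr (h : Wd ψ) (k : Wd χ) (e : Z fun σ => ψ σ = χ σ) : mk ψ = mk χ :=
  Subtype.ext ((mk_val h).trans ((toL_congr e).trans (mk_val k).symm))

theorem mk_rep (v : D) : mk (rep v) = v := Subtype.ext ((mk_val (wd_rep v)).trans (toL_rep v))

theorem ex_mk (v : D) : ∃ ψ, Wd ψ ∧ mk ψ = v := ⟨_, wd_rep v, mk_rep v⟩

theorem ph_mk (hf : IsTest f) (h : Wd ψ) : Ph f (mk ψ) = mk (ph (ft f) ψ) :=
  mk_congr ((wd_rep _).ph hf) (h.ph hf) (z_ph _ (z_rep h))

theorem tm_mk (m n : Ix) (hf : IsTest f) (h : Wd ψ) : Tm m n f (mk ψ) = mk (qq (kT m n f) ψ) :=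
  mk_congr ((wd_rep _).qq m n hf) (h.qq m n hf) (z_qq _ (z_rep h))

theorem uu_mk {s : ℝ} {L : Ix → V} {a : V} (hs : 0 < s) (hL : IsLor L)
    (w : ∀ ψ, Wd ψ → Wd (gm s L a ψ)) (h : Wd ψ) : UU s L a (mk ψ) = mk (gm s L a ψ) :=
  mk_congr (w _ (wd_rep _)) (w _ h) (z_gm a hs hL (z_rep h))

theorem mk_add (h : Wd ψ) (k : Wd χ) : mk (ψ + χ) = mk ψ + mk χ := Subtype.ext <| by
  rw [Submodule.coe_add, mk_val h, mk_val k, mk_val (h.add k), toL_add (wd_nice h) (wd_nice k)]

theorem mk_smul (c : ℂ) (h : Wd ψ) : mk (c • ψ) = c • mk ψ := Subtype.ext <| by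
  rw [Submodule.coe_smul, mk_val h, mk_val (h.smul c), toL_smul c (wd_nice h)]

theorem mk_zero : mk 0 = 0 := Subtype.ext ((mk_val .zero).trans toL_zero)

theorem inner_mk (h : Wd ψ) (k : Wd χ) : inner ℂ (mk ψ) (mk χ) = ip ψ χ := by
  rw [Submodule.coe_inner, mk_val h, mk_val k, inner_toL (wd_nice h) (wd_nice k)]

/-- the clause `gen` -/
theorem gen (S : Submodule ℂ D) (h0 : Ω ∈ S)
    (hS : ∀ B f v, (B = Ph ∨ ∃ m n, B = Tm m n) → IsTest f → v ∈ S → B f v ∈ S) (v : D) : v ∈ S := by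
  obtain ⟨ψ, h, rfl⟩ := ex_mk v
  induction h with
  | vc => exact h0
  | zero => rw [mk_zero]; exact S.zero_mem
  | add a b c d => rw [mk_add a b]; exact S.add_mem c d
  | smul c a b => rw [mk_smul c a]; exact S.smul_mem c b
  | ph hf a b => rw [← ph_mk hf a]; exact hS _ _ _ (.inl rfl) hf b
  | qq m n hf a b => rw [← tm_mk m n hf a]; exact hS _ _ _ (.inr ⟨m, n, rfl⟩) hf b

end

end Vale.Agent.P352W.Fk.Ae
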