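import Vale.Agent.P352W.Fk.Def

/-!
# P352W FK — seminorm bounds of the fields
-/

set_option autoImplicit false
set_option linter.all false

open MeasureTheory Filter Topology
open scoped ENNReal ComplexConjugate Classical Nat

namespace Vale.Agent.P352W.Fk

open Vale.Agent.P352.GF Vale.Agent.P352W.Cn
open Vale.Agent.P352.H496 (IsNull)

noncomputable section

/-- the constant of the annihilation bound -/
def KK : ℝ := ∫ q, (rr q ^ 3)⁻¹ ∂Om

namespace Bq

variable {N M a : ℕ} {C c : ℝ} {ψ : Wf}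

theorem rr2 (p : V) : 2 ≤ rr p := le_add_of_nonneg_right (norm_nonneg p)

theorem rr1 (p : V) : 1 ≤ rr p := one_le_two.trans (rr2 p)

theorem rr0 (p : V) : 0 < rr p := one_pos.trans_le (rr1 p)

theorem rr_neg (p : V) : rr (-p) = rr p := by rw [rr, rr, norm_neg]

theorem rr_cont : Continuous rr := continuous_const.add continuous_norm

theorem wt_zero : wt 0 = 1 := by simp [wt]

theorem wt_cons (p : V) (σ : Multiset V) : wt (p ::ₘ σ) = rr p * wt σ := by simp [wt]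

theorem wt_card (σ : Multiset V) : (σ.card : ℝ) + 1 ≤ wt σ := by
  induction σ using Multiset.induction_on with
  | empty => simp [wt_zero]
  | cons p σ ih =>
    rw [wt_cons, Multiset.card_cons]
    have h0 : (0 : ℝ) ≤ σ.card := Nat.cast_nonneg _
    have := rr2 p
    push_cast
    nlinarith

theorem wt1 (σ : Multiset V) : 1 ≤ wt σ :=
  (le_add_of_nonneg_left (Nat.cast_nonneg _)).trans (wt_card σ)

theorem wt0 (σ : Multiset V) : 0 < wt σ := one_pos.trans_le (wt1 σ)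

theorem wt_erase {p : V} {σ : Multiset V} (h : p ∈ σ) : rr p * wt (σ.erase p) = wt σ := by
  rw [← wt_cons, Multiset.cons_erase h]

theorem int_rr : Integrable (fun q => (rr q ^ 3)⁻¹) Om := by
  have h : Integrable (fun q : V => (((rr q ^ 3)⁻¹ : ℝ) : ℂ)) Om := by
    refine integrable_om_of_le (N := 3) (C := 1) le_rfl ?_ fun p => ?_
    · exact (Complex.measurable_ofReal.comp (rr_cont.measurable.pow_const 3).inv).aestronglyMeasurable
    · have := rr0 p
      rw [Complex.norm_real, Real.norm_of_nonneg (by positivity), one_mul]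
      refine inv_anti₀ (by positivity) (pow_le_pow_left₀ (by positivity) ?_ 3)
      rw [rr]; linarith
  simpa only [RCLike.re_to_complex, Complex.ofReal_re] using h.re

theorem KK0 : 0 ≤ KK := integral_nonneg fun q => by have := rr0 q; positivity

theorem bd0 (h : Bd N C ψ) : 0 ≤ C :=
  (mul_nonneg (norm_nonneg _) (pow_nonneg (wt0 0).le _)).trans (h 0)

theorem bd_mono (h : Bd M C ψ) (hN : N ≤ M) (hc : C ≤ c) : Bd N c ψ := fun σ =>
  ((mul_le_mul_of_nonneg_left (pow_le_pow_right₀ (wt1 σ) hN) (norm_nonneg _)).trans (h σ)).trans hc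

theorem bd_add {χ : Wf} (h : Bd N C ψ) (k : Bd N c χ) : Bd N (C + c) (ψ + χ) := fun σ => by
  refine le_trans ?_ (add_le_add (h σ) (k σ))
  rw [← add_mul]
  exact mul_le_mul_of_nonneg_right (norm_add_le _ _) (pow_nonneg (wt0 σ).le _)

theorem bd_smul (h : Bd N C ψ) (z : ℂ) : Bd N (‖z‖ * C) (z • ψ) := fun σ => by
  rw [Pi.smul_apply, norm_smul, mul_assoc]
  exact mul_le_mul_of_nonneg_left (h σ) (norm_nonneg _)

theorem hb0 {h : V → ℂ} (hh : Hb N c h) : 0 ≤ c :=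
  (mul_nonneg (norm_nonneg _) (pow_nonneg (rr0 0).le _)).trans (hh 0)

theorem hb_mono {h : V → ℂ} (hh : Hb M c h) (hN : N ≤ M) : Hb N c h := fun p =>
  (mul_le_mul_of_nonneg_left (pow_le_pow_right₀ (rr1 p) hN) (norm_nonneg _)).trans (hh p)

theorem kb0 {κ : V → V → ℂ} (hκ : Kb N c κ) : 0 ≤ c := by
  have := (mul_nonneg (norm_nonneg _) (pow_nonneg (rr0 _).le _)).trans (hκ 0 0)
  have h0 : 0 < (rr (0 : V) * rr (0 : V)) ^ 2 := by have := rr0 0; positivity
  exact nonneg_of_mul_nonneg_left this h0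

theorem kb_mono {κ : V → V → ℂ} (hκ : Kb M c κ) (hN : N ≤ M) : Kb N c κ := fun p q =>
  (mul_le_mul_of_nonneg_left (pow_le_pow_right₀ (rr1 _) hN) (norm_nonneg _)).trans (hκ p q)

theorem ci_le (p : V) : ‖ci p‖ ≤ 1 := by
  unfold ci; split_ifs <;> simp

theorem norm_null {p : V} (h : IsNull p) : ‖p‖ ≤ p o := by
  have h1 := h.1
  have h2 := h.2
  rw [mdot_eq, sub_eq_zero] at h1
  refine (pi_norm_le_iff_of_nonneg h2.le).2 fun m => ?_
  refine Fin.cases ?_ (fun i => ?_) m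
  · exact (Real.norm_of_nonneg h2.le).le
  · rw [Real.norm_eq_abs]
    refine abs_le_of_sq_le_sq' ?_ h2.le |> fun k => abs_le.2 k
    have := Finset.single_le_sum (f := fun i : Fin 3 => p i.succ * p i.succ)
      (fun j _ => mul_self_nonneg _) (Finset.mem_univ i)
    rw [sq, sq, h1]
    exact this

theorem rr_null {p q : V} (hp : IsNull p) (hq : IsNull q) : rr p ≤ rr (p + q) := by
  have h1 := norm_null hp
  have h2 := hq.2
  have h3 : ‖(p + q) o‖ ≤ ‖p + q‖ := norm_le_pi_norm _ _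
  have h4 : p o + q o ≤ ‖(p + q) o‖ := le_abs_self _
  unfold rr
  linarith

theorem rr_peetre (p q : V) : rr p ≤ rr (p + -q) * rr q := by
  have h : ‖p‖ ≤ ‖p + -q‖ + ‖q‖ := by simpa using norm_add_le (p + -q) q
  have h1 := norm_nonneg (p + -q)
  have h2 := norm_nonneg q
  unfold rr
  nlinarith

variable {κ : V → V → ℂ}

/-- two creations -/
theorem k_cc (hκ : Kb (2 * (N + 2)) c κ) (p q : V) :
    ‖ci p * ci q * κ p q‖ * (rr p * rr q) ^ N ≤ c := by
  have h0 := kb0 hκ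
  unfold ci
  split_ifs with hp hq
  · have h1 := rr_null hp hq
    have h2 := rr_null hq hp
    rw [add_comm] at h2
    have h3 := rr0 p
    have h4 := rr0 q
    have h5 : (rr p * rr q) ^ (N + 2) ≤ rr (p + q) ^ (2 * (N + 2)) := by
      rw [pow_mul, sq]
      exact pow_le_pow_left₀ (by positivity) (mul_le_mul h1 h2 h4.le (rr0 _).le) _
    have h6 := (mul_le_mul_of_nonneg_left h5 (norm_nonneg (κ p q))).trans (hκ p q)
    rw [pow_add, ← mul_assoc] at h6
    rw [one_mul, one_mul]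
    exact le_of_mul_le_mul_right h6 (by positivity)
  all_goals simpa using h0

theorem k_ca0 (hκ : Kb (N + 2) c κ) (p q : V) :
    ‖κ p (-q)‖ * rr p ^ N ≤ c * rr q ^ (N + 4) := by
  have h3 := rr0 p
  have h4 := rr0 q
  have h5 : rr p ^ (N + 2) ≤ rr (p + -q) ^ (N + 2) * rr q ^ (N + 2) := by
    rw [← mul_pow]
    exact pow_le_pow_left₀ h3.le (rr_peetre p q) _
  have h6 := hκ p (-q)
  rw [rr_neg] at h6
  have h7 := (mul_le_mul_of_nonneg_left h5 (norm_nonneg (κ p (-q)))).trans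
    ((mul_assoc _ _ _).ge.trans (mul_le_mul_of_nonneg_right h6 (by positivity)))
  refine le_of_mul_le_mul_right (a := rr p ^ 2) ?_ (by positivity)
  calc ‖κ p (-q)‖ * rr p ^ N * rr p ^ 2 = ‖κ p (-q)‖ * rr p ^ (N + 2) := by ring
    _ ≤ _ := h7
    _ = _ := by ring

theorem kb_swap (hκ : Kb N c κ) : Kb N c fun p q => κ q p := fun p q => by
  have := hκ q p
  rwa [add_comm, mul_comm (rr q)] at this

/-- one creation, one annihilation -/
theorem k_ca (hκ : Kb (N + 2) c κ) (p q : V) :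
    ‖ci p * (κ p (-q) + κ (-q) p)‖ * rr p ^ N ≤ 2 * c * rr q ^ (N + 4) := by
  have h1 := k_ca0 hκ p q
  have h2 : ‖κ (-q) p‖ * rr p ^ N ≤ c * rr q ^ (N + 4) := k_ca0 (kb_swap hκ) p q
  have h3 : ‖ci p * (κ p (-q) + κ (-q) p)‖ ≤ ‖κ p (-q)‖ + ‖κ (-q) p‖ := by
    rw [norm_mul]
    exact (mul_le_of_le_one_left (norm_nonneg _) (ci_le p)).trans (norm_add_le _ _)
  have h4 := mul_le_mul_of_nonneg_right h3 (pow_nonneg (rr0 p).le N)
  rw [add_mul] at h4
  linarith

/-- two annihilations -/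
theorem k_aa (hκ : Kb N c κ) (p q : V) : ‖κ (-p) (-q)‖ ≤ c * rr p ^ 2 * rr q ^ 2 := by
  have := kb_mono hκ (Nat.zero_le N) (-p) (-q)
  rw [pow_zero, mul_one, rr_neg, rr_neg, mul_pow, ← mul_assoc] at this
  exact this

end Bq

open Bq

variable {N M a : ℕ} {C c : ℝ} {ψ : Wf} {F : V → Wf}

theorem bd_dv (h : ∀ p σ, ‖F p σ‖ * (rr p * wt σ) ^ (N + 1) ≤ C) : Bd N C (dv F) := by
  intro σ
  have w := wt0 σ
  have hC : 0 ≤ C := le_trans (by have := rr0 0; positivity) (h 0 σ)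
  have h1 : ‖dv F σ‖ ≤ σ.card * (C / wt σ ^ (N + 1)) := by
    unfold dv
    refine (norm_multiset_sum_le _).trans ?_
    have := Multiset.sum_le_card_nsmul (((σ.map fun p => F p (σ.erase p))).map fun x => ‖x‖)
      (C / wt σ ^ (N + 1)) (by
        intro x hx
        simp only [Multiset.map_map, Multiset.mem_map, Function.comp] at hx
        obtain ⟨p, hp, rfl⟩ := hx
        rw [le_div_iff₀ (by positivity), ← wt_erase hp]
        exact h p _)
    simpa using this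
  have h2 : (σ.card : ℝ) ≤ wt σ := (le_add_of_nonneg_right zero_le_one).trans (wt_card σ)
  calc ‖dv F σ‖ * wt σ ^ N ≤ wt σ * (C / wt σ ^ (N + 1)) * wt σ ^ N :=
        mul_le_mul_of_nonneg_right (h1.trans (mul_le_mul_of_nonneg_right h2 (by positivity)))
          (by positivity)
    _ = C := by field_simp; ring

/-- the integrand of an annihilation term -/
theorem it_le (h : ∀ q τ, ‖F q τ‖ * wt τ ^ (N + a + 3) ≤ C * rr q ^ a) (σ : Multiset V) (q : V) :
    ‖F q (q ::ₘ σ)‖ ≤ (rr q ^ 3)⁻¹ * (C / wt σ ^ N) := by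
  have w := wt0 σ
  have r := rr0 q
  have h1 := h q (q ::ₘ σ)
  rw [wt_cons, mul_pow] at h1
  have h2 : rr q ^ (a + 3) * wt σ ^ N ≤ rr q ^ (N + a + 3) * wt σ ^ (N + a + 3) :=
    mul_le_mul (pow_le_pow_right₀ (rr1 q) (by omega)) (pow_le_pow_right₀ (wt1 σ) (by omega))
      (by positivity) (by positivity)
  have h3 := (mul_le_mul_of_nonneg_left h2 (norm_nonneg (F q (q ::ₘ σ)))).trans h1
  rw [← div_eq_inv_mul, div_div, le_div_iff₀ (by positivity)]
  refine le_of_mul_le_mul_right (a := rr q ^ a) ?_ (by positivity)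
  calc _ = ‖F q (q ::ₘ σ)‖ * (rr q ^ (a + 3) * wt σ ^ N) := by ring
    _ ≤ _ := h3

theorem bd_it (h : ∀ q τ, ‖F q τ‖ * wt τ ^ (N + a + 3) ≤ C * rr q ^ a) : Bd N (KK * C) (it F) := by
  intro σ
  have w := wt0 σ
  have := norm_integral_le_of_norm_le (int_rr.mul_const (C / wt σ ^ N))
    (.of_forall fun q => it_le h σ q)
  rw [integral_mul_const] at this
  rw [← le_div_iff₀ (by positivity), mul_div_assoc]
  exact this

/-- creation with a coefficient -/
theorem bd_cr {u : V → ℂ} {b : ℝ} (hu : ∀ p, ‖u p‖ * rr p ^ (N + 1) ≤ b) (hψ : Bd (N + 1) C ψ) :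
    Bd N (b * C) (dv fun p => u p • ψ) := bd_dv fun p σ => by
  have := rr0 p
  have := wt0 σ
  rw [Pi.smul_apply, norm_smul, mul_pow, mul_mul_mul_comm]
  exact mul_le_mul (hu p) (hψ σ) (by positivity) (le_trans (by positivity) (hu p))

/-- annihilation with a coefficient -/
theorem an_le {u : V → ℂ} {b : ℝ} (hu : ∀ q, ‖u q‖ ≤ b * rr q ^ a) (hψ : Bd (N + a + 3) C ψ)
    (q : V) (τ : Multiset V) : ‖(u q • ψ) τ‖ * wt τ ^ (N + a + 3) ≤ b * C * rr q ^ a := by
  have := wt0 τ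
  rw [Pi.smul_apply, norm_smul, mul_assoc, mul_right_comm b]
  exact mul_le_mul (hu q) (hψ τ) (by positivity) ((norm_nonneg _).trans (hu q))

theorem bd_an {u : V → ℂ} {b : ℝ} (hu : ∀ q, ‖u q‖ ≤ b * rr q ^ a) (hψ : Bd (N + a + 3) C ψ) :
    Bd N (KK * (b * C)) (it fun q => u q • ψ) := bd_it (an_le hu hψ)

theorem bd_ph' {h : V → ℂ} (hh : Hb (N + 3) c h) (hψ : Bd (N + 3) C ψ) :
    Bd N ((1 + KK) * c * C) (ph h ψ) := by
  have h1 : Bd N (c * C) (dv fun p => (ci p * h p) • ψ) :=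
    bd_cr (fun p => le_trans (mul_le_mul_of_nonneg_right (by
      rw [norm_mul]; exact mul_le_of_le_one_left (norm_nonneg _) (ci_le p))
      (pow_nonneg (rr0 p).le _)) (hb_mono hh (by omega) p)) (bd_mono hψ (by omega) le_rfl)
  have h2 : Bd N (KK * (c * C)) (it fun q => h (-q) • ψ) :=
    bd_an (a := 0) (fun q => by simpa using hb_mono hh (Nat.zero_le _) (-q)) hψ
  exact bd_mono (bd_add h1 h2) le_rfl (le_of_eq (by ring))

theorem bd_ph (N : ℕ) : ∃ (M : ℕ) (K : ℝ), ∀ (c C : ℝ) (h : V → ℂ) (ψ : Wf),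
    Hb M c h → Bd M C ψ → Bd N (K * c * C) (ph h ψ) :=
  ⟨N + 3, 1 + KK, fun _ _ _ _ => bd_ph'⟩

variable {κ : V → V → ℂ}

theorem bd_cc (hκ : Kb (2 * (N + 4)) c κ) (hψ : Bd (N + 2) C ψ) :
    Bd N (c * C) (dv fun p => dv fun p' => (ci p * ci p' * κ p p') • ψ) := bd_dv fun p σ => by
  have r := rr0 p
  have h1 : Bd (N + 1) (c / rr p ^ (N + 1) * C) (dv fun p' => (ci p * ci p' * κ p p') • ψ) := by
    refine bd_cr (fun q => ?_) hψ
    have r' := rr0 q
    have := k_cc (N := N + 2) hκ p q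
    rw [le_div_iff₀ (by positivity)]
    refine le_trans ?_ this
    rw [mul_pow, mul_assoc, mul_comm (rr q ^ _)]
    exact mul_le_mul_of_nonneg_left (mul_le_mul_of_nonneg_right
      (pow_le_pow_right₀ (rr1 p) (by omega)) (by positivity)) (norm_nonneg _)
  have h2 := mul_le_mul_of_nonneg_right (h1 σ) (pow_nonneg r.le (N + 1))
  rw [mul_pow]
  calc _ = _ := by ring
    _ ≤ _ := h2
    _ = _ := by field_simp

theorem k_ca' (hκ : Kb (N + 2) c κ) (p q : V) :
    ‖ci p * (κ p (-q) + κ (-q) p)‖ ≤ 2 * c / rr p ^ N * rr q ^ (N + 4) := by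
  have r := rr0 p
  rw [div_mul_eq_mul_div, le_div_iff₀ (by positivity)]
  exact k_ca hκ p q

theorem bd_ca (hκ : Kb (N + 3) c κ) (hψ : Bd (2 * N + 9) C ψ) :
    Bd N (KK * (2 * c * C)) (dv fun p => it fun q => (ci p * (κ p (-q) + κ (-q) p)) • ψ) :=
  bd_dv fun p σ => by
    have r := rr0 p
    have h1 := bd_an (N := N + 1) (k_ca' (N := N + 1) hκ p) (bd_mono hψ (by omega) le_rfl) σ
    have h2 := mul_le_mul_of_nonneg_right h1 (pow_nonneg r.le (N + 1))
    rw [mul_pow]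
    calc _ = _ := by ring
      _ ≤ _ := h2
      _ = _ := by field_simp

theorem aa_le (hκ : Kb M c κ) (hψ : Bd (N + 10) C ψ) (q : V) (τ : Multiset V) :
    ‖it (fun q' => κ (-q) (-q') • ψ) τ‖ * wt τ ^ (N + 2 + 3) ≤ KK * (c * C) * rr q ^ 2 :=
  (bd_an (N := N + 2 + 3) (k_aa hκ q) hψ τ).trans (le_of_eq (by ring))

theorem bd_aa (hκ : Kb M c κ) (hψ : Bd (N + 10) C ψ) :
    Bd N (KK * (KK * (c * C))) (it fun q => it fun q' => κ (-q) (-q') • ψ) :=
  bd_it (aa_le hκ hψ)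

theorem bd_qq' (hκ : Kb (2 * N + 10) c κ) (hψ : Bd (2 * N + 10) C ψ) :
    Bd N ((1 + 2 * KK + KK ^ 2) * c * C) (qq κ ψ) :=
  bd_mono (bd_add (bd_add (bd_cc (kb_mono hκ (by omega)) (bd_mono hψ (by omega) le_rfl))
    (bd_ca (kb_mono hκ (by omega)) (bd_mono hψ (by omega) le_rfl)))
    (bd_aa hκ (bd_mono hψ (by omega) le_rfl))) le_rfl (le_of_eq (by ring))

theorem bd_qq (N : ℕ) : ∃ (M : ℕ) (K : ℝ), ∀ (c C : ℝ) (κ : V → V → ℂ) (ψ : Wf),
    Kb M c κ → Bd M C ψ → Bd N (K * c * C) (qq κ ψ) :=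
  ⟨2 * N + 10, 1 + 2 * KK + KK ^ 2, fun _ _ _ _ => bd_qq'⟩

end

end Vale.Agent.P352W.Fk
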