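import Vale.Agent.P352W.Fk.Bas
import Vale.Agent.P352W.Fk.Lin
import Vale.Agent.P352W.Fk.Adj
import Vale.Agent.P352W.Fk.Cr
import Vale.Agent.P352W.Kr.Ker
import Vale.Agent.P352W.Cn.Ft
import Vale.Agent.P352W.Cn.Pj
import Vale.Agent.P352W.Sp.Spec

/-!
# P352W FK — from wave functions to the domain
-/

set_option linter.all false

open MeasureTheory Filter Topology
open scoped ENNReal ComplexConjugate Classical Nat

namespace Vale.Agent.P352W.Fk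

open Vale.Agent.P352.GF Vale.Agent.P352W.Cn

noncomputable section

variable {ψ χ : Wf}

theorem Wd.nice (h : Wd ψ) : Nice ψ := by
  induction h with
  | vc => exact nice_vc
  | zero => exact nice_zero
  | add _ _ a b => exact a.add b
  | smul c _ a => exact a.smul c
  | ph hf _ a => exact nice_ph (Kr.hs_ft hf) a
  | qq m n hf _ a => exact nice_qq (Kr.ks_kT m n hf) a

theorem Wd.sub (h : Wd ψ) (h' : Wd χ) : Wd (ψ - χ) := by
  have := h.add (h'.smul (-1))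
  rwa [neg_one_smul, ← sub_eq_add_neg] at this

theorem Wd.sum {ι : Type*} (s : Finset ι) {F : ι → Wf} (h : ∀ i ∈ s, Wd (F i)) :
    Wd (∑ i ∈ s, F i) := Finset.sum_induction F Wd (fun _ _ => Wd.add) Wd.zero h

theorem isD (v : D) : IsD v.1 := by
  obtain ⟨v, hv⟩ := v
  induction hv using Submodule.span_induction with
  | mem x hx => exact hx
  | zero => exact ⟨0, Wd.zero, toL_zero⟩
  | add x y _ _ a b =>
    obtain ⟨ψ, h, rfl⟩ := a
    obtain ⟨χ, h', rfl⟩ := b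
    exact ⟨_, h.add h', toL_add h.nice h'.nice⟩
  | smul c x _ a =>
    obtain ⟨ψ, h, rfl⟩ := a
    exact ⟨_, h.smul c, toL_smul c h.nice⟩

theorem rep_spec (v : D) : Wd (rep v) ∧ toL (rep v) = v.1 := by
  unfold rep; rw [dif_pos (isD v)]; exact (isD v).choose_spec

theorem rep_wd (v : D) : Wd (rep v) := (rep_spec v).1

theorem toL_rep (v : D) : toL (rep v) = v.1 := (rep_spec v).2

theorem mk_val (h : Wd ψ) : (mk ψ).1 = toL ψ := by unfold mk; rw [dif_pos h]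

theorem mk_rep (v : D) : mk (rep v) = v := Subtype.ext ((mk_val (rep_wd v)).trans (toL_rep v))

theorem ex_mk (v : D) : ∃ ψ, Wd ψ ∧ mk ψ = v := ⟨_, rep_wd v, mk_rep v⟩

theorem mk_add (h : Wd ψ) (h' : Wd χ) : mk (ψ + χ) = mk ψ + mk χ := Subtype.ext (by
  rw [Submodule.coe_add, mk_val h, mk_val h', mk_val (h.add h'), toL_add h.nice h'.nice])

theorem mk_smul (c : ℂ) (h : Wd ψ) : mk (c • ψ) = c • mk ψ := Subtype.ext (by
  rw [Submodule.coe_smul, mk_val h, mk_val (h.smul c), toL_smul c h.nice])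

theorem mk_sub (h : Wd ψ) (h' : Wd χ) : mk (ψ - χ) = mk ψ - mk χ := by
  rw [eq_sub_iff_add_eq, ← mk_add (h.sub h') h', sub_add_cancel]

theorem mk_zero : mk 0 = 0 := Subtype.ext ((mk_val Wd.zero).trans toL_zero)

theorem mk_sum {ι : Type*} (s : Finset ι) {F : ι → Wf} (h : ∀ i ∈ s, Wd (F i)) :
    mk (∑ i ∈ s, F i) = ∑ i ∈ s, mk (F i) := by
  induction s using Finset.induction_on with
  | empty => simpa using mk_zero
  | insert a s ha ih =>
    rw [Finset.sum_insert ha, Finset.sum_insert ha, mk_add (h a (Finset.mem_insert_self _ _))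
      (Wd.sum s fun i hi => h i (Finset.mem_insert_of_mem hi)),
      ih fun i hi => h i (Finset.mem_insert_of_mem hi)]

theorem inner_mk (h : Wd ψ) (h' : Wd χ) : inner ℂ (mk ψ) (mk χ) = ip ψ χ := by
  rw [Submodule.coe_inner, mk_val h, mk_val h', inner_toL h.nice h'.nice]

theorem norm_mk (h : Wd ψ) : ‖mk ψ‖ = ‖toL ψ‖ := by rw [← mk_val h]; rfl

/-- `B` is a formal adjoint of `A` -/
structure Fa (A B : Wf → Wf) : Prop where
  wa : ∀ ψ, Wd ψ → Wd (A ψ)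
  wb : ∀ ψ, Wd ψ → Wd (B ψ)
  ad : ∀ ψ χ, Wd ψ → Wd χ → ip (A ψ) χ = ip ψ (B χ)

variable {A B : Wf → Wf}

theorem Fa.in (F : Fa A B) (v : D) (h' : Wd χ) :
    inner ℂ (op A v) (Fk.mk χ) = inner ℂ v (Fk.mk (B χ)) := by
  conv_rhs => rw [← mk_rep v]
  rw [op, inner_mk (F.wa _ (rep_wd v)) h', F.ad _ _ (rep_wd v) h', inner_mk (rep_wd v) (F.wb _ h')]

theorem Fa.op_mk (F : Fa A B) (h : Wd ψ) : op A (Fk.mk ψ) = Fk.mk (A ψ) := by
  refine ext_inner_right ℂ fun w => ?_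
  obtain ⟨χ, h', rfl⟩ := ex_mk w
  rw [F.in _ h', inner_mk h (F.wb _ h'), inner_mk (F.wa _ h) h', F.ad _ _ h h']

theorem Fa.adj (F : Fa A B) (v w : D) : inner ℂ (op A v) w = inner ℂ v (op B w) := by
  conv_lhs => rw [← mk_rep w]
  exact F.in v (rep_wd w)

/-- isometries -/
theorem iso_inner (wa : ∀ ψ, Wd ψ → Wd (A ψ))
    (is : ∀ ψ χ, Wd ψ → Wd χ → ip (A ψ) (A χ) = ip ψ χ) (v w : D) :
    inner ℂ (op A v) (op A w) = inner ℂ v w := by
  rw [op, op, inner_mk (wa _ (rep_wd v)) (wa _ (rep_wd w)), is _ _ (rep_wd v) (rep_wd w),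
    ← inner_mk (rep_wd v) (rep_wd w), mk_rep, mk_rep]

theorem iso_mk (wa : ∀ ψ, Wd ψ → Wd (A ψ))
    (is : ∀ ψ χ, Wd ψ → Wd χ → ip (A ψ) (A χ) = ip ψ χ) (h : Wd ψ) : op A (mk ψ) = mk (A ψ) := by
  have e : ∀ a b, Wd a → Wd b → inner ℂ (mk (A a)) (mk (A b)) = inner ℂ (mk a) (mk b) :=
    fun a b ha hb => by rw [inner_mk (wa _ ha) (wa _ hb), is _ _ ha hb, inner_mk ha hb]
  have r := rep_wd (mk ψ)
  rw [← sub_eq_zero, ← inner_self_eq_zero (𝕜 := ℂ), op, inner_sub_left, inner_sub_right,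
    inner_sub_right, e _ _ r r, e _ _ r h, e _ _ h r, e _ _ h h, mk_rep]
  simp

variable {f g : Fn}

theorem fa_ph (hf : IsTest f) : Fa (ph (ft f)) (ph (ft (bar f))) :=
  ⟨fun _ => Wd.ph hf, fun _ => Wd.ph (Ft.test_bar hf), fun ψ χ a b => by
    rw [ip_ph (Kr.hs_ft hf) a.nice b.nice, Kr.ft_bar']⟩

theorem fa_qq (m n : Ix) (hf : IsTest f) : Fa (qq (kT m n f)) (qq (kT m n (bar f))) :=
  ⟨fun _ => Wd.qq m n hf, fun _ => Wd.qq m n (Ft.test_bar hf), fun ψ χ a b => by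
    rw [ip_qq (Kr.ks_kT m n hf) a.nice b.nice, Kr.kT_bar']⟩

theorem Ph_mk (hf : IsTest f) (h : Wd ψ) : Ph f (mk ψ) = mk (ph (ft f) ψ) := (fa_ph hf).op_mk h

theorem Tm_mk (m n : Ix) (hf : IsTest f) (h : Wd ψ) : Tm m n f (mk ψ) = mk (qq (kT m n f) ψ) :=
  (fa_qq m n hf).op_mk h

namespace Dm

theorem norm_vac : ‖Ω‖ = 1 := by
  have h : inner ℂ Ω Ω = 1 := by
    rw [Ω, inner_mk Wd.vc Wd.vc, ip_vc nice_vc]; simp [vc]
  have h2 : ‖Ω‖ ^ 2 = 1 := by rw [@norm_sq_eq_re_inner ℂ, h]; simp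
  exact (pow_eq_one_iff_of_nonneg (norm_nonneg _) two_ne_zero).1 h2

theorem gen (S : Submodule ℂ D) (h0 : Ω ∈ S)
    (h : ∀ B f v, (B = Ph ∨ ∃ m n, B = Tm m n) → IsTest f → v ∈ S → B f v ∈ S) (v : D) :
    v ∈ S := by
  obtain ⟨ψ, w, rfl⟩ := ex_mk v
  induction w with
  | vc => exact h0
  | zero => rw [mk_zero]; exact S.zero_mem
  | add a b i j => rw [mk_add a b]; exact S.add_mem i j
  | smul c a i => rw [mk_smul c a]; exact S.smul_mem c i
  | ph hf a i => rw [← Ph_mk hf a]; exact h _ _ _ (.inl rfl) hf i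
  | qq m n hf a i => rw [← Tm_mk m n hf a]; exact h _ _ _ (.inr ⟨m, n, rfl⟩) hf i

theorem herm (B : Fld D) (f : Fn) (v w : D) (h : B = Ph ∨ ∃ m n, B = Tm m n) (hf : IsTest f) :
    inner ℂ (B f v) w = inner ℂ v (B (bar f) w) := by
  rcases h with rfl | ⟨m, n, rfl⟩
  · exact (fa_ph hf).adj v w
  · exact (fa_qq m n hf).adj v w

theorem loc0 (f g : Fn) (v : D) (hf : IsTest f) (hg : IsTest g) (h : Sep f g) :
    Ph f (Ph g v) = Ph g (Ph f v) := by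
  obtain ⟨ψ, w, rfl⟩ := ex_mk v
  have e := ph_comm (Kr.hs_ft hf) (Kr.hs_ft hg) w.nice
  rw [pj' hf hg h, sub_self, zero_smul, sub_eq_zero] at e
  rw [Ph_mk hg w, Ph_mk hf w, Ph_mk hf (w.ph hg), Ph_mk hg (w.ph hf), e]

theorem fil : ∃ P : ℕ → D → Prop, (∀ v, ∃ n, P n v) ∧ ∀ g, IsTest g →
    (∀ n v, P n v → P (n + 1) (Ph g v)) ∧
      ∃ C : ℝ, ∀ n v, P n v → ‖Ph g v‖ ≤ C * √((n : ℝ) + 1) * ‖v‖ :=
  fil_of (fun _ => Kr.hs_ft) (fun _ => Wd.nice) (fun _ => Nice.memLp) ex_mk fun _ _ => Ph_mk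

end Dm

theorem Ph_def (f : Fn) (v : D) : Ph f v = mk (ph (ft f) (rep v)) := rfl

theorem Tm_def (m n : Ix) (f : Fn) (v : D) : Tm m n f v = mk (qq (kT m n f) (rep v)) := rfl

theorem UU_def (s L a) (v : D) : UU s L a v = mk (gm s L a (rep v)) := rfl

end

end Vale.Agent.P352W.Fk
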