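import Vale.Agent.P352W.Fk.No

/-! # The commutator of a quadratic and a linear field, pointwise -/

set_option autoImplicit false
set_option linter.all false

open MeasureTheory
open scoped Classical

noncomputable section

namespace Vale.Agent.P352W.Ms

variable {C : Type*} [MeasurableSpace C] {μ : Measure C}
variable {ψ χ : Multiset C → ℂ} {h h' g g' : C → ℂ} {κ κ1 κ2 κ3 : C → C → ℂ}

theorem cr_add (σ : Multiset C) : cr h (ψ + χ) σ = cr h ψ σ + cr h χ σ := by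
  unfold cr
  rw [← dl_add]
  exact dl_congr fun p _ => mul_add _ _ _

theorem cc_add (σ : Multiset C) : cc κ (ψ + χ) σ = cc κ ψ σ + cc κ χ σ := by
  unfold cc
  rw [← dl_add]
  refine dl_congr fun p _ => ?_
  rw [← dl_add]
  exact dl_congr fun p _ => mul_add _ _ _

theorem an_add {σ : Multiset C} (i1 : Integrable (fun q => g q * ψ (q ::ₘ σ)) μ)
    (i2 : Integrable (fun q => g q * χ (q ::ₘ σ)) μ) :
    an μ g (ψ + χ) σ = an μ g ψ σ + an μ g χ σ := by
  unfold an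
  rw [← integral_add i1 i2]
  exact integral_congr_ae (.of_forall fun q => mul_add _ _ _)

theorem ca_add (i1 : ∀ p τ, Integrable (fun q => κ p q * ψ (q ::ₘ τ)) μ)
    (i2 : ∀ p τ, Integrable (fun q => κ p q * χ (q ::ₘ τ)) μ) (σ : Multiset C) :
    ca μ κ (ψ + χ) σ = ca μ κ ψ σ + ca μ κ χ σ := by
  unfold ca
  rw [← dl_add]
  exact dl_congr fun p _ => an_add (g := κ p) (i1 p _) (i2 p _)

theorem i_cr (i1 : Integrable (fun q => g q * h q) μ)
    (i2 : ∀ τ, Integrable (fun q => g q * ψ (q ::ₘ τ)) μ) (σ : Multiset C) :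
    Integrable (fun q => g q * cr h ψ (q ::ₘ σ)) μ := by
  have i3 : ∀ p τ, Integrable (fun q => g q * (h p * ψ (q ::ₘ τ))) μ := fun p τ => by
    simpa only [mul_left_comm] using (i2 τ).const_mul (h p)
  refine ((i1.mul_const (ψ σ)).fun_add (int_dl σ i3)).congr (.of_forall fun q => ?_)
  unfold cr
  beta_reduce
  rw [dl_cons, mul_add, ← dl_mul, mul_assoc]

theorem i_cc (i1 : ∀ p, Integrable (fun q => g q * κ p q) μ)
    (i1' : ∀ p, Integrable (fun q => g q * κ q p) μ)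
    (i2 : ∀ τ, Integrable (fun q => g q * ψ (q ::ₘ τ)) μ) (σ : Multiset C) :
    Integrable (fun q => g q * cc κ ψ (q ::ₘ σ)) μ := by
  have i3 : ∀ τ p, Integrable (fun q => g q * cr (κ p) ψ (q ::ₘ τ)) μ := fun τ p =>
    i_cr (i1 p) i2 τ
  have i4 : ∀ p τ, Integrable (fun q => g q * (κ q p * ψ τ)) μ := fun p τ => by
    simpa only [mul_assoc] using (i1' p).mul_const (ψ τ)
  refine ((int_dl σ i4).fun_add (int_dl σ fun p τ => i3 τ p)).congr (.of_forall fun q => ?_)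
  unfold cc cr
  beta_reduce
  rw [dl_cons, mul_add, ← dl_mul, ← dl_mul]

variable [SFinite μ]

theorem aa_add {σ : Multiset C}
    (i1 : Integrable (fun z : C × C => κ z.1 z.2 * ψ (z.1 ::ₘ z.2 ::ₘ σ)) (μ.prod μ))
    (i2 : Integrable (fun z : C × C => κ z.1 z.2 * χ (z.1 ::ₘ z.2 ::ₘ σ)) (μ.prod μ)) :
    aa μ κ (ψ + χ) σ = aa μ κ ψ σ + aa μ κ χ σ := by
  have i3 : Integrable (fun z : C × C => κ z.1 z.2 * (ψ + χ) (z.1 ::ₘ z.2 ::ₘ σ)) (μ.prod μ) :=
    (i1.fun_add i2).congr (.of_forall fun z => (mul_add _ _ _).symm)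
  unfold aa
  rw [← integral_prod _ i1, ← integral_prod _ i2, ← integral_prod _ i3, ← integral_add i1 i2]
  exact integral_congr_ae (.of_forall fun q => mul_add _ _ _)

theorem i_an {σ : Multiset C}
    (i : Integrable (fun z : C × C => g z.1 * g' z.2 * ψ (z.1 ::ₘ z.2 ::ₘ σ)) (μ.prod μ)) :
    Integrable (fun q => g q * an μ g' ψ (q ::ₘ σ)) μ := by
  have := i.integral_prod_left
  simp only [mul_assoc, integral_const_mul] at this
  unfold an
  simpa only [Multiset.cons_swap _ _ σ] using this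

theorem i_ca (i1 : ∀ τ, Integrable (fun z : C × C => g z.1 * κ z.1 z.2 * ψ (z.2 ::ₘ τ)) (μ.prod μ))
    (i2 : ∀ p τ, Integrable (fun z : C × C => g z.1 * κ p z.2 * ψ (z.1 ::ₘ z.2 ::ₘ τ)) (μ.prod μ))
    (σ : Multiset C) : Integrable (fun q => g q * ca μ κ ψ (q ::ₘ σ)) μ := by
  have i3 := (i1 σ).integral_prod_left
  simp only [mul_assoc, integral_const_mul] at i3
  refine (i3.fun_add (int_dl σ fun p τ => i_an (g' := κ p) (i2 p τ))).congr (.of_forall fun q => ?_)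
  unfold ca an
  beta_reduce
  rw [dl_cons, mul_add, ← dl_mul]

theorem i_aa (i : ∀ τ, Integrable (fun z : (C × C) × C =>
      κ z.1.1 z.1.2 * (g z.2 * ψ (z.2 ::ₘ z.1.1 ::ₘ z.1.2 ::ₘ τ))) ((μ.prod μ).prod μ))
    (i2 : ∀ τ, Integrable (fun z : C × C => κ z.1 z.2 * ψ (z.1 ::ₘ z.2 ::ₘ τ)) (μ.prod μ))
    (σ : Multiset C) : Integrable (fun q => g q * aa μ κ ψ (q ::ₘ σ)) μ := by
  refine (i σ).integral_prod_right.congr (.of_forall fun r => ?_)
  unfold aa
  beta_reduce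
  rw [← integral_prod _ (i2 _), ← integral_const_mul]
  refine integral_congr_ae (.of_forall fun z => ?_)
  beta_reduce
  rw [Multiset.cons_swap r, Multiset.cons_swap r]
  ring

theorem i2_cr (i1 : ∀ τ, Integrable (fun z : C × C => κ z.1 z.2 * h z.1 * ψ (z.2 ::ₘ τ)) (μ.prod μ))
    (i1' : ∀ τ, Integrable (fun z : C × C => κ z.1 z.2 * h z.2 * ψ (z.1 ::ₘ τ)) (μ.prod μ))
    (i2 : ∀ τ, Integrable (fun z : C × C => κ z.1 z.2 * ψ (z.1 ::ₘ z.2 ::ₘ τ)) (μ.prod μ))
    (σ : Multiset C) :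
    Integrable (fun z : C × C => κ z.1 z.2 * cr h ψ (z.1 ::ₘ z.2 ::ₘ σ)) (μ.prod μ) := by
  have i3 : ∀ r τ, Integrable (fun z : C × C => κ z.1 z.2 * (h r * ψ (z.1 ::ₘ z.2 ::ₘ τ)))
      (μ.prod μ) := fun r τ => by simpa only [mul_left_comm] using (i2 τ).const_mul (h r)
  refine ((i1 σ).fun_add ((i1' σ).fun_add (int_dl σ i3))).congr (.of_forall fun z => ?_)
  unfold cr
  beta_reduce
  rw [dl_cons, dl_cons, dl_mul]
  ring

theorem i2_an {τ : Multiset C} (i : Integrable (fun z : (C × C) × C =>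
      κ z.1.1 z.1.2 * (g z.2 * ψ (z.2 ::ₘ z.1.1 ::ₘ z.1.2 ::ₘ τ))) ((μ.prod μ).prod μ)) :
    Integrable (fun z : C × C => κ z.1 z.2 * an μ g ψ (z.1 ::ₘ z.2 ::ₘ τ)) (μ.prod μ) := by
  have h1 := i.integral_prod_left
  simp only [integral_const_mul] at h1
  exact h1

end Vale.Agent.P352W.Ms
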