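import Vale.Agent.P352W.Fk.Def
import Vale.Agent.P352W.Fk.No2
import Vale.Agent.P352W.Fk.Mk

/-! # Growth classes: integrability of the integrands of the Fock space formulas -/

set_option autoImplicit false
set_option linter.all false

open MeasureTheory
open scoped Classical ComplexConjugate

noncomputable section

namespace Vale.Agent.P352W.Fk.Kt

open Vale.Agent.P352.GF Vale.Agent.P352W.Cn
open Vale.Agent.P352.H496 (IsNull)

section gen

variable {X Y : Type} [MeasurableSpace X] [MeasurableSpace Y]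

/-- weights -/
def Wt (μ : Measure X) (w : X → ℝ) : Prop := (∀ x, 1 ≤ w x) ∧ Integrable (fun x => (w x ^ 3)⁻¹) μ

/-- polynomial growth -/
def Pg (w : X → ℝ) (F : X → ℂ) : Prop := Measurable F ∧ ∃ (a : ℕ) (c : ℝ), ∀ x, ‖F x‖ ≤ c * w x ^ a

/-- rapid decay -/
def Rd (w : X → ℝ) (F : X → ℂ) : Prop := Measurable F ∧ ∀ N : ℕ, ∃ c : ℝ, ∀ x, ‖F x‖ * w x ^ N ≤ c

variable {μ : Measure X} {ν : Measure Y} {w : X → ℝ} {W : Y → ℝ} {F G : X → ℂ}

theorem Wt.prod [SFinite ν] (a : Wt μ w) (b : Wt ν W) :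
    Wt (μ.prod ν) fun z => w z.1 * W z.2 :=
  ⟨fun z => one_le_mul_of_one_le_of_one_le (a.1 _) (b.1 _), by
    simpa only [mul_pow, mul_inv] using a.2.mul_prod b.2⟩

theorem Rd.int (a : Wt μ w) (h : Rd w F) : Integrable F μ := by
  obtain ⟨c, hc⟩ := h.2 3
  refine (a.2.const_mul c).mono' h.1.aestronglyMeasurable (.of_forall fun x => ?_)
  have : 0 < w x ^ 3 := pow_pos (lt_of_lt_of_le one_pos (a.1 x)) 3
  rw [← div_eq_mul_inv, le_div_iff₀ this]
  exact hc x

theorem Rd.pg (h : Rd w F) : Pg w F := by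
  obtain ⟨c, hc⟩ := h.2 0
  exact ⟨h.1, 0, c, fun x => by simpa using hc x⟩

theorem Pg.const (c : ℂ) : Pg w fun _ => c := ⟨measurable_const, 0, ‖c‖, fun x => by simp⟩

theorem Pg.mul (h1 : ∀ x, 1 ≤ w x) (a : Pg w F) (b : Pg w G) : Pg w fun x => F x * G x := by
  obtain ⟨m1, k, c, hc⟩ := a
  obtain ⟨m2, l, d, hd⟩ := b
  refine ⟨m1.mul m2, k + l, c * d, fun x => ?_⟩
  rw [norm_mul, pow_add, mul_mul_mul_comm]
  exact mul_le_mul (hc x) (hd x) (norm_nonneg _) ((norm_nonneg _).trans (hc x))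

theorem Pg.add (h1 : ∀ x, 1 ≤ w x) (a : Pg w F) (b : Pg w G) : Pg w fun x => F x + G x := by
  obtain ⟨m1, k, c, hc⟩ := a
  obtain ⟨m2, l, d, hd⟩ := b
  refine ⟨m1.add m2, k + l, |c| + |d|, fun x => ?_⟩
  have h0 : 0 ≤ w x := zero_le_one.trans (h1 x)
  have e1 : c * w x ^ k ≤ |c| * w x ^ (k + l) :=
    mul_le_mul (le_abs_self c) (pow_le_pow_right₀ (h1 x) (by omega)) (by positivity) (abs_nonneg c)
  have e2 : d * w x ^ l ≤ |d| * w x ^ (k + l) :=
    mul_le_mul (le_abs_self d) (pow_le_pow_right₀ (h1 x) (by omega)) (by positivity) (abs_nonneg d)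
  rw [add_mul]
  exact (norm_add_le _ _).trans (add_le_add ((hc x).trans e1) ((hd x).trans e2))

theorem Pg.conj (a : Pg w F) : Pg w fun x => conj (F x) := by
  obtain ⟨m1, k, c, hc⟩ := a
  exact ⟨Complex.continuous_conj.measurable.comp m1, k, c, fun x => by
    rw [Complex.norm_conj]; exact hc x⟩

theorem Rd.conj (a : Rd w F) : Rd w fun x => conj (F x) :=
  ⟨Complex.continuous_conj.measurable.comp a.1, fun N => by
    simpa only [Complex.norm_conj] using a.2 N⟩

theorem Pg.rd (h1 : ∀ x, 1 ≤ w x) (a : Pg w F) (b : Rd w G) : Rd w fun x => F x * G x := by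
  obtain ⟨m1, k, c, hc⟩ := a
  refine ⟨m1.mul b.1, fun N => ?_⟩
  obtain ⟨d, hd⟩ := b.2 (k + N)
  refine ⟨|c| * d, fun x => ?_⟩
  have h0 : 0 ≤ w x := zero_le_one.trans (h1 x)
  calc ‖F x * G x‖ * w x ^ N ≤ (|c| * w x ^ k) * ‖G x‖ * w x ^ N := by
        rw [norm_mul]
        gcongr
        exact (hc x).trans (mul_le_mul_of_nonneg_right (le_abs_self c) (by positivity))
    _ = |c| * (‖G x‖ * w x ^ (k + N)) := by ring
    _ ≤ |c| * d := mul_le_mul_of_nonneg_left (hd x) (abs_nonneg c)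

theorem Rd.mul (h1 : ∀ x, 1 ≤ w x) (b : Rd w G) (a : Pg w F) : Rd w fun x => G x * F x := by
  simpa only [mul_comm] using a.rd h1 b

theorem Pg.comp (h1 : ∀ x, 1 ≤ w x) (a : Pg w F) {u : Y → X} (hu : Measurable u)
    (le : ∀ y, w (u y) ≤ W y) : Pg W fun y => F (u y) := by
  obtain ⟨m1, k, c, hc⟩ := a
  refine ⟨m1.comp hu, k, |c|, fun y => (hc _).trans ?_⟩
  have h0 : 0 ≤ w (u y) := zero_le_one.trans (h1 _)
  exact mul_le_mul (le_abs_self c) (pow_le_pow_left₀ h0 (le y) k) (by positivity) (abs_nonneg c)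

theorem Rd.comp (h1 : ∀ y, 1 ≤ W y) (a : Rd w F) {u : Y → X} (hu : Measurable u)
    (le : ∀ y, W y ≤ w (u y)) : Rd W fun y => F (u y) := by
  refine ⟨a.1.comp hu, fun N => ?_⟩
  obtain ⟨c, hc⟩ := a.2 N
  exact ⟨c, fun y => (mul_le_mul_of_nonneg_left
    (pow_le_pow_left₀ (zero_le_one.trans (h1 y)) (le y) N) (norm_nonneg _)).trans (hc _)⟩

theorem Rd.prod (h1 : ∀ x, 1 ≤ w x) (h2 : ∀ y, 1 ≤ W y) {H : Y → ℂ} (a : Rd w F) (b : Rd W H) :
    Rd (fun z : X × Y => w z.1 * W z.2) fun z => F z.1 * H z.2 := by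
  refine ⟨(a.1.comp measurable_fst).mul (b.1.comp measurable_snd), fun N => ?_⟩
  obtain ⟨c, hc⟩ := a.2 N
  obtain ⟨d, hd⟩ := b.2 N
  refine ⟨c * d, fun z => ?_⟩
  have := zero_le_one.trans (h1 z.1)
  have := zero_le_one.trans (h2 z.2)
  rw [norm_mul, mul_pow, mul_mul_mul_comm]
  exact mul_le_mul (hc _) (hd _) (by positivity) (le_trans (by positivity) (hc z.1))

theorem Pg.fst (h1 : ∀ x, 1 ≤ w x) (h2 : ∀ y, 1 ≤ W y) (a : Pg w F) :
    Pg (fun z : X × Y => w z.1 * W z.2) fun z => F z.1 :=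
  a.comp h1 measurable_fst fun z => le_mul_of_one_le_right (zero_le_one.trans (h1 _)) (h2 _)

theorem Pg.snd (h1 : ∀ x, 1 ≤ w x) (h2 : ∀ y, 1 ≤ W y) (a : Pg w F) :
    Pg (fun z : Y × X => W z.1 * w z.2) fun z => F z.2 :=
  a.comp h1 measurable_snd fun z => le_mul_of_one_le_left (zero_le_one.trans (h1 _)) (h2 _)

end gen

theorem r1 (p : V) : 1 ≤ rr p := by unfold rr; linarith [norm_nonneg p]

theorem rr_neg (p : V) : rr (-p) = rr p := by unfold rr; rw [norm_neg]

theorem wt_cons (p : V) (σ : Multiset V) : wt (p ::ₘ σ) = rr p * wt σ := by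
  unfold wt; rw [Multiset.map_cons, Multiset.prod_cons]

theorem w1 (σ : Multiset V) : 1 ≤ wt σ := by
  induction σ using Multiset.induction_on with
  | empty => simp [wt]
  | cons a s ih => rw [wt_cons]; exact one_le_mul_of_one_le_of_one_le (r1 a) ih

theorem wt_rr : Wt Om rr := by
  refine ⟨r1, integrable_om_of_le (C := 1) (N := 3) le_rfl ?_ fun p => ?_⟩
  · unfold rr; fun_prop
  · have := r1 p
    rw [Real.norm_of_nonneg (by positivity), one_mul]
    unfold rr
    gcongr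
    norm_num

/-- the weight of two momenta -/
def r2 (z : V × V) : ℝ := rr z.1 * rr z.2

/-- the weight of three momenta -/
def r3 (z : (V × V) × V) : ℝ := r2 z.1 * rr z.2

theorem wt_r2 : Wt (Om.prod Om) r2 := wt_rr.prod wt_rr

theorem wt_r3 : Wt ((Om.prod Om).prod Om) r3 := wt_r2.prod wt_rr

theorem ms_mk {n : ℕ} (x : Fin n → V) : ms x = Ms.mk x := by
  have := Multiset.map_map (fun a => ({a} : Multiset V)) x Finset.univ.val
  unfold Ms.mk
  rw [← Multiset.sum_map_singleton (Multiset.map x _), this]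
  rfl

theorem ms_cons {n : ℕ} (q : V) (x : Fin n → V) :
    ms (Fin.cons q x : Fin (n + 1) → V) = q ::ₘ ms x := by
  rw [ms_mk, ms_mk, Ms.mk_cons]

theorem ex_ms (σ : Multiset V) : ∃ (n : ℕ) (x : Fin n → V), ms x = σ := by
  induction σ using Multiset.induction_on with
  | empty => exact ⟨0, Fin.elim0, by simp [ms]⟩
  | cons a s ih =>
    obtain ⟨n, x, rfl⟩ := ih
    exact ⟨n + 1, Fin.cons a x, ms_cons a x⟩

/-- measurable families of configurations with a fixed number of points -/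
def Mf {X : Type} [MeasurableSpace X] (s : X → Multiset V) : Prop :=
  ∃ (n : ℕ) (x : X → Fin n → V), Measurable x ∧ ∀ a, ms (x a) = s a

variable {X : Type} [MeasurableSpace X]

theorem Mf.const (τ : Multiset V) : Mf fun _ : X => τ := by
  obtain ⟨n, x, rfl⟩ := ex_ms τ
  exact ⟨n, fun _ => x, measurable_const, fun _ => rfl⟩

theorem m_cons {n : ℕ} {u : X → V} {x : X → Fin n → V} (hu : Measurable u) (hx : Measurable x) :
    Measurable fun a => (Fin.cons (u a) (x a) : Fin (n + 1) → V) :=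
  measurable_pi_iff.2 fun i => Fin.cases hu (fun j => (measurable_pi_apply j).comp hx) i

theorem Mf.cons {u : X → V} {s : X → Multiset V} (hu : Measurable u) (h : Mf s) :
    Mf fun a => u a ::ₘ s a := by
  obtain ⟨n, x, hx, e⟩ := h
  exact ⟨n + 1, fun a => Fin.cons (u a) (x a), m_cons hu hx, fun a => by rw [ms_cons, e]⟩

variable {ψ : Wf}

theorem rd_of (h : Nice ψ) {s : X → Multiset V} {W : X → ℝ} (h1 : ∀ a, 1 ≤ W a)
    (m : Measurable fun a => ψ (s a)) (le : ∀ a, W a ≤ wt (s a)) : Rd W fun a => ψ (s a) := by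
  refine ⟨m, fun N => ?_⟩
  obtain ⟨c, hc⟩ := h.2 N
  exact ⟨c, fun y => (mul_le_mul_of_nonneg_left
    (pow_le_pow_left₀ (zero_le_one.trans (h1 y)) (le y) N) (norm_nonneg _)).trans (hc _)⟩

theorem Mf.meas (h : Nice ψ) {s : X → Multiset V} (hs : Mf s) : Measurable fun a => ψ (s a) := by
  obtain ⟨n, x, hx, e⟩ := hs
  simp only [← e]
  exact (h.1 n).comp (measurable_const (a := ()).prodMk hx)

theorem le_wt {a : ℝ} (h : 0 ≤ a) (τ : Multiset V) : a ≤ a * wt τ := le_mul_of_one_le_right h (w1 τ)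

theorem n1 (h : Nice ψ) (τ : Multiset V) : Rd rr fun q => ψ (q ::ₘ τ) :=
  rd_of h r1 (((Mf.const τ).cons measurable_id).meas h) fun q => by
    rw [wt_cons]; exact le_wt (zero_le_one.trans (r1 q)) τ

theorem n2 (h : Nice ψ) (τ : Multiset V) : Rd r2 fun z => ψ (z.1 ::ₘ z.2 ::ₘ τ) :=
  rd_of h wt_r2.1 ((((Mf.const τ).cons measurable_snd).cons measurable_fst).meas h) fun q => by
    rw [wt_cons, wt_cons, ← mul_assoc]; exact le_wt (zero_le_one.trans (wt_r2.1 q)) τ

theorem n3 (h : Nice ψ) (τ : Multiset V) : Rd r3 fun z => ψ (z.2 ::ₘ z.1.1 ::ₘ z.1.2 ::ₘ τ) :=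
  rd_of h wt_r3.1 (((((Mf.const τ).cons measurable_fst.snd).cons measurable_fst.fst).cons
    measurable_snd).meas h) fun q => by
    rw [wt_cons, wt_cons, wt_cons, ← mul_assoc, ← mul_assoc, mul_assoc (rr q.2), mul_comm (rr q.2)]
    exact le_wt (zero_le_one.trans (wt_r3.1 q)) τ

theorem m_ci : Measurable ci := by
  refine Measurable.ite ?_ measurable_const measurable_const
  exact (measurableSet_eq_fun (continuous_mdot.comp
    (continuous_id.prodMk continuous_id)).measurable measurable_const).inter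
    (measurableSet_lt measurable_const (measurable_pi_apply o))

theorem pg_ci : Pg rr ci := ⟨m_ci, 0, 1, fun p => by unfold ci; split_ifs <;> simp⟩

theorem ci_ae : ∀ᵐ p ∂Om, ci p = 1 := om_ae.mono fun p hp => if_pos ⟨hp.2, hp.1⟩

theorem conj_ci (p : V) : conj (ci p) = ci p := by unfold ci; split_ifs <;> simp

variable {h : V → ℂ} {κ : V → V → ℂ}

theorem hs_rd (a : Hs h) : Rd rr h := a

theorem rd_neg (a : Rd rr h) : Rd rr fun p => h (-p) :=
  a.comp r1 measurable_neg fun p => (rr_neg p).ge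

theorem ks_pg (a : Ks κ) : Pg r2 fun z => κ z.1 z.2 := by
  obtain ⟨c, hc⟩ := a.2 0
  exact ⟨a.1, 2, c, fun z => by simpa [r2] using hc z.1 z.2⟩

/-- kernels of polynomial growth -/
def Kp (κ : V → V → ℂ) : Prop := Pg r2 fun z => κ z.1 z.2

theorem Kp.swap (a : Kp κ) : Kp fun p q => κ q p :=
  Pg.comp wt_r2.1 a measurable_swap fun z => (mul_comm _ _).le

theorem Kp.neg1 (a : Kp κ) : Kp fun p q => κ (-p) q :=
  Pg.comp wt_r2.1 a (measurable_fst.neg.prodMk measurable_snd) fun z => by simp [r2, rr_neg]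

theorem Kp.neg2 (a : Kp κ) : Kp fun p q => κ p (-q) := a.swap.neg1.swap

theorem Kp.add {κ' : V → V → ℂ} (a : Kp κ) (b : Kp κ') : Kp fun p q => κ p q + κ' p q :=
  Pg.add wt_r2.1 a b

theorem Kp.conj (a : Kp κ) : Kp fun p q => conj (κ p q) := Pg.conj a

theorem Kp.mul1 (b : Pg rr h) (a : Kp κ) : Kp fun p q => h p * κ p q :=
  Pg.mul wt_r2.1 (b.fst r1 r1) a

theorem Kp.ten {g : V → ℂ} (a : Pg rr h) (b : Pg rr g) : Kp fun p q => h p * g q :=
  Pg.mul wt_r2.1 (a.fst r1 r1) (b.snd r1 r1)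

theorem Kp.sec (a : Kp κ) (p : V) : Pg rr (κ p) := by
  obtain ⟨m, k, c, hc⟩ := a
  exact ⟨m.comp (measurable_const.prodMk measurable_id), k, c * rr p ^ k, fun q => by
    simpa only [r2, mul_pow, mul_assoc] using hc (p, q)⟩

end Vale.Agent.P352W.Fk.Kt
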