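import Vale.Agent.P352.GFDefs

/-! # Sums over the points of a finite configuration -/

set_option autoImplicit false
set_option linter.all false

open MeasureTheory
open scoped Classical

noncomputable section

namespace Vale.Agent.P352W.Ms

variable {C : Type*}

/-- the sum over the points -/
def dl (F : C → Multiset C → ℂ) (σ : Multiset C) : ℂ := (σ.map fun p => F p (σ.erase p)).sum

theorem dl_zero (F : C → Multiset C → ℂ) : dl F 0 = 0 := by simp [dl]

theorem dl_cons (F : C → Multiset C → ℂ) (q : C) (σ : Multiset C) :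
    dl F (q ::ₘ σ) = F q σ + dl (fun p τ => F p (q ::ₘ τ)) σ := by
  unfold dl
  rw [Multiset.map_cons, Multiset.sum_cons, Multiset.erase_cons_head]
  congr 2
  exact Multiset.map_congr rfl fun p hp => by rw [Multiset.erase_cons_tail_of_mem hp]

theorem dl_add (F G : C → Multiset C → ℂ) (σ : Multiset C) :
    dl (fun p τ => F p τ + G p τ) σ = dl F σ + dl G σ := by
  unfold dl; exact Multiset.sum_map_add

theorem dl_sub (F G : C → Multiset C → ℂ) (σ : Multiset C) :
    dl (fun p τ => F p τ - G p τ) σ = dl F σ - dl G σ := by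
  unfold dl; exact Multiset.sum_map_sub ..

theorem dl_mul (c : ℂ) (F : C → Multiset C → ℂ) (σ : Multiset C) :
    dl (fun p τ => c * F p τ) σ = c * dl F σ := by
  unfold dl; exact Multiset.sum_map_mul_left

theorem dl_congr {F G : C → Multiset C → ℂ} {σ : Multiset C}
    (h : ∀ p ∈ σ, F p (σ.erase p) = G p (σ.erase p)) : dl F σ = dl G σ := by
  unfold dl; rw [Multiset.map_congr rfl h]

/-- two sums over points commute -/
theorem dl_comm (G : C → C → Multiset C → ℂ) (σ : Multiset C) :
    dl (fun p τ => dl (fun q υ => G p q υ) τ) σ = dl (fun q τ => dl (fun p υ => G p q υ) τ) σ := by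
  induction σ using Multiset.induction_on generalizing G with
  | empty => rw [dl_zero, dl_zero]
  | cons a σ ih =>
    simp only [dl_cons, dl_add]
    rw [ih fun p q υ => G p q (a ::ₘ υ)]
    ring

variable {X : Type*} [MeasurableSpace X] {μ : Measure X}

theorem int_sum {F : X → C → ℂ} (σ : Multiset C) (h : ∀ p ∈ σ, Integrable (fun x => F x p) μ) :
    Integrable (fun x => (σ.map (F x)).sum) μ ∧
      ∫ x, (σ.map (F x)).sum ∂μ = (σ.map fun p => ∫ x, F x p ∂μ).sum := by
  induction σ using Multiset.induction_on with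
  | empty => simp
  | cons a σ ih =>
    have h1 := h a (Multiset.mem_cons_self _ _)
    have h2 := ih fun p hp => h p (Multiset.mem_cons_of_mem hp)
    simp only [Multiset.map_cons, Multiset.sum_cons]
    exact ⟨h1.add h2.1, by rw [integral_add h1 h2.1, h2.2]⟩

theorem int_dl {F : X → C → Multiset C → ℂ} (σ : Multiset C)
    (h : ∀ p τ, Integrable (fun x => F x p τ) μ) : Integrable (fun x => dl (F x) σ) μ :=
  (int_sum (F := fun x p => F x p (σ.erase p)) σ fun p _ => h p _).1

theorem integral_dl {F : X → C → Multiset C → ℂ} (σ : Multiset C)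
    (h : ∀ p τ, Integrable (fun x => F x p τ) μ) :
    ∫ x, dl (F x) σ ∂μ = dl (fun p τ => ∫ x, F x p τ ∂μ) σ :=
  (int_sum (F := fun x p => F x p (σ.erase p)) σ fun p _ => h p _).2

end Vale.Agent.P352W.Ms
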