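import Vale.Agent.P352W.Fk.Ms

/-! # Normal ordering, pointwise -/

set_option autoImplicit false
set_option linter.all false

open MeasureTheory
open scoped Classical

noncomputable section

namespace Vale.Agent.P352W.Ms

variable {C : Type*} [MeasurableSpace C] (μ : Measure C)

/-- creation -/
def cr (h : C → ℂ) (ψ : Multiset C → ℂ) : Multiset C → ℂ := dl fun p τ => h p * ψ τ

/-- annihilation -/
def an (g : C → ℂ) (ψ : Multiset C → ℂ) : Multiset C → ℂ := fun σ => ∫ q, g q * ψ (q ::ₘ σ) ∂μ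

/-- creation of two particles -/
def cc (κ : C → C → ℂ) (ψ : Multiset C → ℂ) : Multiset C → ℂ :=
  dl fun p => dl fun q υ => κ p q * ψ υ

/-- scattering of one particle -/
def ca (κ : C → C → ℂ) (ψ : Multiset C → ℂ) : Multiset C → ℂ :=
  dl fun p τ => ∫ q, κ p q * ψ (q ::ₘ τ) ∂μ

/-- annihilation of two particles -/
def aa (κ : C → C → ℂ) (ψ : Multiset C → ℂ) : Multiset C → ℂ :=
  fun σ => ∫ p, ∫ q, κ p q * ψ (p ::ₘ q ::ₘ σ) ∂μ ∂μ

variable {μ} {ψ : Multiset C → ℂ} {h h' g g' : C → ℂ} {κ : C → C → ℂ}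

theorem cr_cr (σ : Multiset C) : cr h (cr h' ψ) σ = cc (fun p q => h p * h' q) ψ σ := by
  unfold cr cc
  refine dl_congr fun p _ => ?_
  rw [← dl_mul]
  exact dl_congr fun q _ => by ring

theorem cr_an (σ : Multiset C) : cr h (an μ g ψ) σ = ca μ (fun p q => h p * g q) ψ σ := by
  unfold cr ca an
  refine dl_congr fun p _ => ?_
  rw [← integral_const_mul]
  exact integral_congr_ae (.of_forall fun q => by ring)

theorem an_an (σ : Multiset C) : an μ g (an μ g' ψ) σ = aa μ (fun p q => g p * g' q) ψ σ := by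
  unfold aa an
  refine integral_congr_ae (.of_forall fun p => ?_)
  beta_reduce
  rw [← integral_const_mul]
  exact integral_congr_ae (.of_forall fun q => by
    beta_reduce
    rw [Multiset.cons_swap]; ring)

/-- the canonical commutation relation -/
theorem an_cr (i1 : Integrable (fun q => g q * h q) μ)
    (i2 : ∀ τ, Integrable (fun q => g q * ψ (q ::ₘ τ)) μ) (σ : Multiset C) :
    an μ g (cr h ψ) σ = (∫ q, g q * h q ∂μ) * ψ σ + ca μ (fun p q => h p * g q) ψ σ := by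
  unfold an cr ca
  have e : ∀ q, g q * dl (fun p τ => h p * ψ τ) (q ::ₘ σ) =
      g q * h q * ψ σ + dl (fun p τ => h p * g q * ψ (q ::ₘ τ)) σ := fun q => by
    rw [dl_cons, mul_add, ← dl_mul, mul_assoc]
    congr 1
    exact dl_congr fun p _ => by ring
  have i3 : ∀ p τ, Integrable (fun q => h p * g q * ψ (q ::ₘ τ)) μ := fun p τ => by
    simpa only [mul_assoc] using (i2 τ).const_mul (h p)
  simp only [e]
  rw [integral_add (i1.mul_const _) (int_dl σ i3), integral_mul_const, integral_dl σ i3]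

theorem cc_cr (σ : Multiset C) : cc κ (cr h ψ) σ = cr h (cc κ ψ) σ := by
  unfold cr cc
  have e1 : ∀ p τ, dl (fun q υ => κ p q * dl (fun r ρ => h r * ψ ρ) υ) τ =
      dl (fun r υ => dl (fun q ρ => h r * (κ p q * ψ ρ)) υ) τ := fun p τ => by
    rw [← dl_comm fun q r ρ => h r * (κ p q * ψ ρ)]
    refine dl_congr fun q _ => ?_
    rw [← dl_mul]
    exact dl_congr fun r _ => by ring
  have e2 : (fun p => dl fun q υ => κ p q * dl (fun r ρ => h r * ψ ρ) υ) = fun p τ =>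
      dl (fun r υ => dl (fun q ρ => h r * (κ p q * ψ ρ)) υ) τ := by
    funext p τ; exact e1 p τ
  rw [e2, dl_comm fun p r υ => dl (fun q ρ => h r * (κ p q * ψ ρ)) υ]
  refine dl_congr fun r _ => ?_
  rw [← dl_mul]
  exact dl_congr fun p _ => dl_mul _ _ _

theorem an_cc (i1 : ∀ p, Integrable (fun q => g q * κ p q) μ)
    (i1' : ∀ p, Integrable (fun q => g q * κ q p) μ)
    (i2 : ∀ τ, Integrable (fun q => g q * ψ (q ::ₘ τ)) μ) (σ : Multiset C) :
    an μ g (cc κ ψ) σ =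
      cc κ (an μ g ψ) σ + cr (fun p => ∫ q, g q * (κ p q + κ q p) ∂μ) ψ σ := by
  unfold an cr cc
  have e : ∀ q, g q * dl (fun p => dl fun r υ => κ p r * ψ υ) (q ::ₘ σ) =
      dl (fun p τ => dl (fun r υ => κ p r * (g q * ψ (q ::ₘ υ))) τ +
        g q * (κ p q + κ q p) * ψ τ) σ := fun q => by
    rw [dl_cons, mul_add, ← dl_mul, ← dl_mul, ← dl_add]
    refine dl_congr fun p _ => ?_
    rw [dl_cons, mul_add, ← dl_mul,
      dl_congr (G := fun r υ => κ p r * (g q * ψ (q ::ₘ υ))) fun r _ => by ring]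
    ring
  have i3 : ∀ p r υ, Integrable (fun q => κ p r * (g q * ψ (q ::ₘ υ))) μ := fun p r υ =>
    (i2 υ).const_mul _
  have i4 : ∀ p, Integrable (fun q => g q * (κ p q + κ q p)) μ := fun p => by
    simp only [mul_add]; exact (i1 p).fun_add (i1' p)
  simp only [e]
  rw [integral_dl σ fun p τ => (int_dl τ (i3 p)).fun_add ((i4 p).mul_const (ψ τ)), ← dl_add]
  refine dl_congr fun p _ => ?_
  rw [integral_add (int_dl _ (i3 p)) ((i4 p).mul_const _), integral_mul_const,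
    integral_dl _ (i3 p)]
  simp only [integral_const_mul]

theorem ca_cr (i1 : ∀ p, Integrable (fun q => κ p q * h q) μ)
    (i2 : ∀ p τ, Integrable (fun q => κ p q * ψ (q ::ₘ τ)) μ) (σ : Multiset C) :
    ca μ κ (cr h ψ) σ = cr h (ca μ κ ψ) σ + cr (fun p => ∫ q, κ p q * h q ∂μ) ψ σ := by
  have e : ∀ p τ, ∫ q, κ p q * cr h ψ (q ::ₘ τ) ∂μ = (∫ q, κ p q * h q ∂μ) * ψ τ +
      dl (fun r υ => h r * ∫ q, κ p q * ψ (q ::ₘ υ) ∂μ) τ := fun p τ => by
    refine (an_cr (g := κ p) (i1 p) (i2 p) τ).trans ?_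
    unfold ca
    simp only [mul_assoc, integral_const_mul]
  unfold ca
  simp only [e]
  rw [dl_add, add_comm, dl_comm fun p r υ => h r * ∫ q, κ p q * ψ (q ::ₘ υ) ∂μ]
  unfold cr
  congr 1
  exact dl_congr fun r _ => dl_mul _ _ _

variable [SFinite μ]

theorem an_ca (i1 : ∀ τ, Integrable (fun z : C × C => g z.1 * κ z.1 z.2 * ψ (z.2 ::ₘ τ)) (μ.prod μ))
    (i2 : ∀ p τ, Integrable (fun z : C × C => g z.1 * κ p z.2 * ψ (z.1 ::ₘ z.2 ::ₘ τ)) (μ.prod μ))
    (σ : Multiset C) :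
    an μ g (ca μ κ ψ) σ = ca μ κ (an μ g ψ) σ + an μ (fun r => ∫ q, g q * κ q r ∂μ) ψ σ := by
  unfold an ca
  have e : ∀ q, g q * dl (fun p τ => ∫ r, κ p r * ψ (r ::ₘ τ) ∂μ) (q ::ₘ σ) =
      dl (fun p τ => ∫ r, g q * κ p r * ψ (q ::ₘ r ::ₘ τ) ∂μ) σ +
        ∫ r, g q * κ q r * ψ (r ::ₘ σ) ∂μ := fun q => by
    rw [dl_cons, mul_add, ← dl_mul, add_comm]
    simp only [mul_assoc, integral_const_mul, Multiset.cons_swap q]
  have i3 : ∀ p τ, Integrable (fun q => ∫ r, g q * κ p r * ψ (q ::ₘ r ::ₘ τ) ∂μ) μ := fun p τ =>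
    (i2 p τ).integral_prod_left
  simp only [e]
  rw [integral_add (int_dl σ i3) (i1 σ).integral_prod_left, integral_dl σ i3,
    integral_integral_swap (i1 σ)]
  simp only [integral_mul_const]
  congr 1
  refine dl_congr fun p _ => ?_
  rw [integral_integral_swap (i2 p _)]
  refine integral_congr_ae (.of_forall fun r => ?_)
  beta_reduce
  rw [← integral_const_mul]
  exact integral_congr_ae (.of_forall fun q => by ring)

theorem aa_cr (i1 : ∀ τ, Integrable (fun z : C × C => κ z.1 z.2 * h z.1 * ψ (z.2 ::ₘ τ)) (μ.prod μ))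
    (i1' : ∀ τ, Integrable (fun z : C × C => κ z.1 z.2 * h z.2 * ψ (z.1 ::ₘ τ)) (μ.prod μ))
    (i2 : ∀ τ, Integrable (fun z : C × C => κ z.1 z.2 * ψ (z.1 ::ₘ z.2 ::ₘ τ)) (μ.prod μ))
    (σ : Multiset C) :
    aa μ κ (cr h ψ) σ = cr h (aa μ κ ψ) σ + (an μ (fun q => ∫ p, κ p q * h p ∂μ) ψ σ +
      an μ (fun p => ∫ q, κ p q * h q ∂μ) ψ σ) := by
  have i3 : ∀ r τ, Integrable (fun z : C × C => h r * (κ z.1 z.2 * ψ (z.1 ::ₘ z.2 ::ₘ τ)))
      (μ.prod μ) := fun r τ => (i2 τ).const_mul _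
  have e : ∀ z : C × C, κ z.1 z.2 * cr h ψ (z.1 ::ₘ z.2 ::ₘ σ) =
      dl (fun r τ => h r * (κ z.1 z.2 * ψ (z.1 ::ₘ z.2 ::ₘ τ))) σ +
        (κ z.1 z.2 * h z.1 * ψ (z.2 ::ₘ σ) + κ z.1 z.2 * h z.2 * ψ (z.1 ::ₘ σ)) := fun z => by
    unfold cr
    rw [dl_cons, dl_cons, mul_add, mul_add, ← dl_mul,
      dl_congr (G := fun r τ => h r * (κ z.1 z.2 * ψ (z.1 ::ₘ z.2 ::ₘ τ))) fun r _ => by ring]
    ring
  have i4 := (int_dl σ i3).add ((i1 σ).add (i1' σ))
  have i5 : Integrable (fun z : C × C => κ z.1 z.2 * cr h ψ (z.1 ::ₘ z.2 ::ₘ σ)) (μ.prod μ) := by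
    simp only [e]; exact i4
  unfold aa an
  rw [← integral_prod _ i5]
  simp only [e]
  rw [integral_add (int_dl σ i3) ((i1 σ).fun_add (i1' σ)), integral_add (i1 σ) (i1' σ),
    integral_dl σ i3, integral_prod_symm _ (i1 σ), integral_prod _ (i1' σ)]
  simp only [integral_mul_const, integral_const_mul]
  congr 1
  exact dl_congr fun r _ => by rw [integral_prod _ (i2 _)]

theorem aa_an (i : ∀ τ, Integrable (fun z : (C × C) × C =>
      κ z.1.1 z.1.2 * (g z.2 * ψ (z.2 ::ₘ z.1.1 ::ₘ z.1.2 ::ₘ τ))) ((μ.prod μ).prod μ))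
    (i2 : ∀ τ, Integrable (fun z : C × C => κ z.1 z.2 * ψ (z.1 ::ₘ z.2 ::ₘ τ)) (μ.prod μ))
    (σ : Multiset C) : aa μ κ (an μ g ψ) σ = an μ g (aa μ κ ψ) σ := by
  have h1 := (i σ).integral_prod_left
  simp only [integral_const_mul] at h1
  unfold aa an
  rw [← integral_prod _ h1]
  simp only [← integral_prod _ (i2 _), ← integral_const_mul]
  rw [integral_integral_swap (i σ)]
  refine integral_congr_ae (.of_forall fun r => integral_congr_ae (.of_forall fun z => ?_))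
  beta_reduce
  rw [Multiset.cons_swap r, Multiset.cons_swap r]
  ring

end Vale.Agent.P352W.Ms
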